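import Vale.Agent.P159.H375.FineC
import Vale.Agent.P159.H340.Al1

/-!
P159, module FINE (helper375), part 6: tiny cell masses. The relative form of (FC)/(FC') : cell
covariance and cell self energy at a nonzero central momentum `p`, fine mass `t` (cells `l`) against
the scalar mass `τ`, with errors relative to `(τ + EE p)⁻¹`, uniformly in `τ → 0`.
-/

namespace Vale.Agent.P159.H375

open Finset Matrix Filter Topology
open Vale.Agent.P159.TM.H764 (Gh cN sN dt ch EE frm grd hatu pw)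
open Vale.Agent.P159.TM.H104 (EM Ex Cv li nh Gr)
open Vale.Agent.P159.TM.Spec (V)
open Vale.Agent.P159.TM.SpecC (wT)
open Vale.Agent.P159.H37 (qf re wM Gm Cm cob cellP Ev wt Pik Ght)
open Vale.Agent.P159.H159 (MasN)
open Vale.Agent.P159.H963 (GrI pin Neu Pn ntr nM GW MF gw_wT Gnc Gn Gnh Pin PinC nMC nwt)
open Vale.Agent.P159.H864 (MC GM Gc Gck PiCk sym TI cen rd cobV lapM)

noncomputable section

section tor

variable {N l : ℕ} [NeZero N] [NeZero (N / l)] {b : ℝ}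

/-- the bare covariance -/
def bare (N : ℕ) [NeZero N] (b τ : ℝ) : Matrix (V N) (V N) ℝ :=
  (τ • (1 : Matrix (V N) (V N) ℝ) + b⁻¹ • lapM)⁻¹

lemma ti_bare (N : ℕ) [NeZero N] (b τ : ℝ) : TI (bare N b τ) :=
  ((TI.one.smul τ).add (H864.ti_lapM.smul b⁻¹)).inv

lemma sym_bare (hb : 0 < b) {τ : ℝ} (hτ : 0 < τ) (q : V N) :
    sym (bare N b τ) q = (τ + b⁻¹ * EE q)⁻¹ := by
  have h0 : ∀ k : V N, sym (τ • (1 : Matrix (V N) (V N) ℝ) + b⁻¹ • lapM) k = τ + b⁻¹ * EE k := by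
    intro k
    rw [H864.sym_add, H864.sym_smul_one, H864.sym_smul, H864.sym_lapM]
  unfold bare
  rw [H864.sym_inv' ((TI.one.smul τ).add (H864.ti_lapM.smul b⁻¹)) _ q, h0]
  intro k
  rw [h0]
  have := mul_nonneg (inv_nonneg.2 hb.le) (TM.H764.EE_nonneg k)
  positivity

/-- the cell average of the bare covariance at a central alias -/
lemma sym_Gc_bare (hb : 0 < b) (hl : l ∣ N) {τ : ℝ} (hτ : 0 < τ) {p : V N} (hp : cen l p) :
    sym (Gc l (bare N b τ)) (rd p) ≤ (1 + 3 * b) / (τ + EE p) := by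
  rw [H864.sym_Gc hl (ti_bare N b τ)]
  refine H864.als_le hl fun q hq => ?_
  have hE := TM.H764.EE_nonneg p
  have hEq := TM.H764.EE_nonneg q
  have h1 := H864.EE_cen_le hl hp hq
  rw [sym_bare hb hτ, inv_eq_one_div, div_le_div_iff₀ (by positivity) (by positivity)]
  have h2 : b⁻¹ * EE q * b = EE q := by field_simp
  have h3 : 0 ≤ b⁻¹ * EE q := by positivity
  nlinarith [mul_pos hb hτ]

/-- **(FC, integer, relative)** -/
theorem Gck_rel (hb : 0 < b) : ∃ C c : ℝ, 0 < C ∧ 0 < c ∧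
    ∀ (N l : ℕ) [NeZero N] [NeZero (N / l)] (t τ : ℝ), 0 < τ → τ ≤ t → 9 ≤ t * (N : ℝ) ^ 2 →
    l ∣ N → t * (l : ℝ) ^ 2 ≤ 1 → ∀ p : V N, cen l p →
      0 ≤ Gck N l b τ τ (rd p) - Gck N l b t τ (rd p) ∧
      Gck N l b τ τ (rd p) - Gck N l b t τ (rd p) ≤ eFin C c N l t (τ + EE p) := by
  obtain ⟨C, c, hC, hc, hU⟩ := H340.fine_rel (b := b) hb
  refine ⟨C * (1 + 3 * b), c, by positivity, hc, ?_⟩
  intro N l _ _ t τ hτ hτt htN hl htl p hp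
  have ht : 0 < t := hτ.trans_le hτt
  set E : ℝ := √(t * (N : ℝ) ^ 2) * (t * (l : ℝ) ^ 2) ^ c with hE
  have hE0 : 0 ≤ E := by positivity
  have t1 := H864.ti_Gc_GM (N := N) hl b τ τ
  have t2 := H864.ti_Gc_GM (N := N) hl b t τ
  have tR : TI (Gc l (bare N b τ)) := H864.ti_Gc hl (ti_bare N b τ).ct
  have key : ∀ φ : V (N / l) → ℝ, 0 ≤ qf (Gc l (GM N l b τ τ)) φ - qf (Gc l (GM N l b t τ)) φ ∧
      qf (Gc l (GM N l b τ τ)) φ ≤ qf (Gc l (GM N l b t τ) + (C * E) • Gc l (bare N b τ)) φ := by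
    intro φ
    rw [H37.qf_add_mat, H864.qf_smul_mat, H864.qf_Gc, H864.qf_Gc, H864.qf_Gc, H864.GM_self]
    have h1 := hU N t ht htN l hl htl τ (t - τ) (τ • 1) (MC N l t τ) hτ (sub_nonneg.2 hτt)
      (by linarith) (MC_split N l t τ) (masM_MC hl hτ hτt) ((cobV N l)ᵀ *ᵥ φ)
    refine ⟨h1.1, ?_⟩
    have e : C * qf (τ • (1 : Matrix (V N) (V N) ℝ) + b⁻¹ • lapM)⁻¹ ((cobV N l)ᵀ *ᵥ φ) *
        √(t * (N : ℝ) ^ 2) * (t * (l : ℝ) ^ 2) ^ c =
        C * E * qf (bare N b τ) ((cobV N l)ᵀ *ᵥ φ) := by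
      rw [hE]
      unfold bare
      ring
    have h2 := h1.2
    rw [e] at h2
    have h3 : qf (Gm (wt N b τ)) ((cobV N l)ᵀ *ᵥ φ) - qf (GM N l b t τ) ((cobV N l)ᵀ *ᵥ φ) ≤
        C * E * qf (bare N b τ) ((cobV N l)ᵀ *ᵥ φ) := h2
    linarith
  unfold Gck
  refine ⟨?_, ?_⟩
  · have h := H963.sym_le_of_waves' (k := rd p) t2 t1 (sub_nonneg.1 (key _).1)
      (sub_nonneg.1 (key _).1)
    linarith
  · have h3 := H963.sym_le_of_waves' (k := rd p) t1 (t2.add (tR.smul (C * E))) (key _).2 (key _).2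
    rw [H864.sym_add, H864.sym_smul] at h3
    have h4 := mul_le_mul_of_nonneg_left (sym_Gc_bare hb hl hτ hp) (by positivity : 0 ≤ C * E)
    have e : eFin (C * (1 + 3 * b)) c N l t (τ + EE p) = C * E * ((1 + 3 * b) / (τ + EE p)) := by
      unfold eFin
      rw [hE]
      ring
    rw [e]
    linarith

/-- **(FC, neutral, relative)** -/
theorem Gnc_rel (hb : 0 < b) : ∃ C c : ℝ, 0 < C ∧ 0 < c ∧
    ∀ (N l : ℕ) [NeZero N] [NeZero (N / l)] (t τ : ℝ), 0 < τ → τ ≤ t → 9 ≤ t * (N : ℝ) ^ 2 →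
    l ∣ N → t * (l : ℝ) ^ 2 ≤ 1 → ∀ p : V N, cen l p → p ≠ 0 →
      0 ≤ sym (Gnc N l b τ τ) (rd p) - sym (Gnc N l b t τ) (rd p) ∧
      sym (Gnc N l b τ τ) (rd p) - sym (Gnc N l b t τ) (rd p) ≤ eFin C c N l t (τ + EE p) := by
  obtain ⟨C, c, hC, hc, hU⟩ := H340.fine_rel_N (b := b) hb
  refine ⟨C * (1 + 3 * b), c, by positivity, hc, ?_⟩
  intro N l _ _ t τ hτ hτt htN hl htl p hp hp0
  have ht : 0 < t := hτ.trans_le hτt
  have hk := rd_cen_ne hl hp hp0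
  set E : ℝ := √(t * (N : ℝ) ^ 2) * (t * (l : ℝ) ^ 2) ^ c with hE
  have hE0 : 0 ≤ E := by positivity
  have t1 := H963.ti_Gnc (N := N) hb.le hl hτ (le_refl τ)
  have t2 := H963.ti_Gnc (N := N) hb.le hl hτ hτt
  have tR : TI (Gc l (bare N b τ)) := H864.ti_Gc hl (ti_bare N b τ).ct
  have key : ∀ φ : V (N / l) → ℝ, Neu φ → 0 ≤ qf (Gnc N l b τ τ) φ - qf (Gnc N l b t τ) φ ∧
      qf (Gnc N l b τ τ) φ ≤ qf (Gnc N l b t τ + (C * E) • Gc l (bare N b τ)) φ := by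
    intro φ hn
    rw [H37.qf_add_mat, H864.qf_smul_mat, H963.qf_Gnc_neu hl b τ τ hn,
      H963.qf_Gnc_neu hl b t τ hn, H864.qf_Gc]
    have h1 := hU N t ht htN l hl htl τ (t - τ) (τ • 1) τ (sub_nonneg.2 hτt)
      (by linarith) (masN_MC hl hτ hτt) 0 ((cobV N l)ᵀ *ᵥ φ) (H963.neu_cobV_tr hl hn)
    rw [← MC_split] at h1
    have e0 : nMC N l b τ τ 0 = nM (wT b N) (τ • (1 : Matrix (V N) (V N) ℝ)) τ 0 := by
      unfold nMC
      rw [H864.MC_self]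
    have e1 : nMC N l b t τ 0 = nM (wT b N) (MC N l t τ) τ 0 := rfl
    rw [e0, e1]
    refine ⟨h1.1, ?_⟩
    have e : C * qf (τ • (1 : Matrix (V N) (V N) ℝ) + b⁻¹ • lapM)⁻¹ ((cobV N l)ᵀ *ᵥ φ) *
        √(t * (N : ℝ) ^ 2) * (t * (l : ℝ) ^ 2) ^ c =
        C * E * qf (bare N b τ) ((cobV N l)ᵀ *ᵥ φ) := by
      rw [hE]
      unfold bare
      ring
    have h2 := h1.2
    rw [e] at h2
    linarith
  have hcn := H963.neu_cN hk
  have hsn : Neu (fun x : V (N / l) => sN (dt (rd p) x)) := H963.neu_sN (rd p)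
  refine ⟨?_, ?_⟩
  · have h := H963.sym_le_of_waves' (k := rd p) t2 t1 (sub_nonneg.1 (key _ hcn).1)
      (sub_nonneg.1 (key _ hsn).1)
    linarith
  · have h3 := H963.sym_le_of_waves' (k := rd p) t1 (t2.add (tR.smul (C * E))) (key _ hcn).2
      (key _ hsn).2
    rw [H864.sym_add, H864.sym_smul] at h3
    have h4 := mul_le_mul_of_nonneg_left (sym_Gc_bare hb hl hτ hp) (by positivity : 0 ≤ C * E)
    have e : eFin (C * (1 + 3 * b)) c N l t (τ + EE p) = C * E * ((1 + 3 * b) / (τ + EE p)) := by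
      unfold eFin
      rw [hE]
      ring
    rw [e]
    linarith

/-- **(FC', integer, relative)** cell self energy of `MC N l t τ` against the self energy at the
scalar mass `τ`, central alias; no lower bound on `τ` -/
theorem PiCk_rel (hb : 0 < b) : ∃ C c : ℝ, 0 < C ∧ 0 < c ∧
    ∀ (N l : ℕ) [NeZero N] [NeZero (N / l)] (t τ : ℝ), 0 < τ → τ ≤ t → 9 ≤ t * (N : ℝ) ^ 2 →
    l ∣ N → t * (l : ℝ) ^ 2 ≤ 1 → ∀ c0 : ℝ, 0 < c0 →
      (∀ q : V N, Ght N b τ q ≤ (τ + c0 * EE q)⁻¹) → ∀ p : V N, cen l p →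
      (τ + Pik N b τ p) * (eFin C c N l t (τ + EE p) + 6 * (l : ℝ) ^ 2 / c0) ≤ 1 / 2 →
      |PiCk N l b t τ (rd p) - Pik N b τ p| ≤
        2 * (τ + Pik N b τ p) ^ 2 * (eFin C c N l t (τ + EE p) + 6 * (l : ℝ) ^ 2 / c0) := by
  obtain ⟨C, c, hC, hc, hU⟩ := Gck_rel (b := b) hb
  refine ⟨C, c, hC, hc, ?_⟩
  intro N l _ _ t τ hτ hτt htN hl htl c0 hc0 hdom p hp hs
  have h1 := hU N l t τ hτ hτt htN hl htl p hp
  have h2 := H864.abs_Gck_sub_le hb.le hl hτ hc0 hdom hp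
  have hg := H864.Ght_pos (N := N) hb hτ p
  have e1 : τ + Pik N b τ p = (Ght N b τ p)⁻¹ := by
    unfold Pik
    ring
  have h3 : |Gck N l b t τ (rd p) - Ght N b τ p| ≤
      eFin C c N l t (τ + EE p) + 6 * (l : ℝ) ^ 2 / c0 := by
    have e2 : Gck N l b t τ (rd p) - Ght N b τ p =
        -(Gck N l b τ τ (rd p) - Gck N l b t τ (rd p)) + (Gck N l b τ τ (rd p) - Ght N b τ p) := by
      ring
    rw [e2]
    refine (abs_add_le _ _).trans (add_le_add ?_ h2)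
    rw [abs_neg, abs_of_nonneg h1.1]
    exact h1.2
  rw [e1] at hs ⊢
  have h4 := (abs_inv_sub_le hg h3 hs).2
  have e3 : PiCk N l b t τ (rd p) - Pik N b τ p = (Gck N l b t τ (rd p))⁻¹ - (Ght N b τ p)⁻¹ := by
    unfold PiCk Pik
    ring
  rw [e3]
  exact h4

/-- **(FC', neutral, relative)** -/
theorem PinC_rel (hb : 0 < b) : ∃ C c : ℝ, 0 < C ∧ 0 < c ∧
    ∀ (N l : ℕ) [NeZero N] [NeZero (N / l)] (t τ : ℝ), 0 < τ → τ ≤ t → 9 ≤ t * (N : ℝ) ^ 2 →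
    l ∣ N → t * (l : ℝ) ^ 2 ≤ 1 → ∀ c0 : ℝ, 0 < c0 →
      (∀ q : V N, Gnh N b τ q ≤ (τ + c0 * EE q)⁻¹) → ∀ p : V N, cen l p → p ≠ 0 →
      (τ + Pin N b τ p) * (eFin C c N l t (τ + EE p) + 6 * (l : ℝ) ^ 2 / c0) ≤ 1 / 2 →
      |PinC N l b t τ (rd p) - Pin N b τ p| ≤
        2 * (τ + Pin N b τ p) ^ 2 * (eFin C c N l t (τ + EE p) + 6 * (l : ℝ) ^ 2 / c0) := by
  obtain ⟨C, c, hC, hc, hU⟩ := Gnc_rel (b := b) hb
  refine ⟨C, c, hC, hc, ?_⟩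
  intro N l _ _ t τ hτ hτt htN hl htl c0 hc0 hdom p hp hp0 hs
  have h1 := hU N l t τ hτ hτt htN hl htl p hp hp0
  have h2 := abs_Gnc_sub_le hb.le hl hτ hc0 hdom hp
  have hg := H963.Gnh_pos (N := N) hb hτ hp0
  have e1 : τ + Pin N b τ p = (Gnh N b τ p)⁻¹ := by
    unfold Pin
    ring
  have h3 : |sym (Gnc N l b t τ) (rd p) - Gnh N b τ p| ≤
      eFin C c N l t (τ + EE p) + 6 * (l : ℝ) ^ 2 / c0 := by
    have e2 : sym (Gnc N l b t τ) (rd p) - Gnh N b τ p =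
        -(sym (Gnc N l b τ τ) (rd p) - sym (Gnc N l b t τ) (rd p)) +
          (sym (Gnc N l b τ τ) (rd p) - Gnh N b τ p) := by
      ring
    rw [e2]
    refine (abs_add_le _ _).trans (add_le_add ?_ h2)
    rw [abs_neg, abs_of_nonneg h1.1]
    exact h1.2
  rw [e1] at hs ⊢
  have h4 := (abs_inv_sub_le hg h3 hs).2
  have e3 : PinC N l b t τ (rd p) - Pin N b τ p =
      (sym (Gnc N l b t τ) (rd p))⁻¹ - (Gnh N b τ p)⁻¹ := by
    unfold PinC Pin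
    ring
  rw [e3]
  exact h4

/-- **two cell sizes and two fine masses at the same (tiny) cell mass**, integer model: the self
energies of the cells `l` (fine mass `t`) and `l'` (fine mass `t'`) at the same momentum `p ≠ 0`,
upper bound `τ + Pik ≤ D (τ + EE p)` -/
theorem PiCk_two (hb : 0 < b) : ∃ C c : ℝ, 0 < C ∧ 0 < c ∧
    ∀ (N l l' : ℕ) [NeZero N] [NeZero (N / l)] [NeZero (N / l')] (t t' τ : ℝ), 0 < τ → τ ≤ t →
    τ ≤ t' → 9 ≤ t * (N : ℝ) ^ 2 → 9 ≤ t' * (N : ℝ) ^ 2 → l ∣ N → l' ∣ N →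
    t * (l : ℝ) ^ 2 ≤ 1 → t' * (l' : ℝ) ^ 2 ≤ 1 → ∀ c0 D : ℝ, 0 < c0 → 0 ≤ D →
      (∀ q : V N, Ght N b τ q ≤ (τ + c0 * EE q)⁻¹) → ∀ p : V N, cen l p → cen l' p →
      τ + Pik N b τ p ≤ D * (τ + EE p) →
      ∀ e : ℝ, C * (√(t * (N : ℝ) ^ 2) * (t * (l : ℝ) ^ 2) ^ c) +
          6 * (l : ℝ) ^ 2 / c0 * (τ + EE p) ≤ e →
        C * (√(t' * (N : ℝ) ^ 2) * (t' * (l' : ℝ) ^ 2) ^ c) +
          6 * (l' : ℝ) ^ 2 / c0 * (τ + EE p) ≤ e → D * e ≤ 1 / 2 →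
      |PiCk N l b t τ (rd p) - PiCk N l' b t' τ (rd p)| ≤ 4 * D ^ 2 * e * (τ + EE p) := by
  obtain ⟨C, c, hC, hc, hU⟩ := PiCk_rel (b := b) hb
  refine ⟨C, c, hC, hc, ?_⟩
  intro N l l' _ _ _ t t' τ hτ hτt hτt' htN htN' hl hl' htl htl' c0 D hc0 hD hdom p hp hp' hPD e
    he he' hDe
  have ht : 0 < t := hτ.trans_le hτt
  have hE := TM.H764.EE_nonneg p
  have hx : 0 < τ + EE p := by positivity
  have hP : 0 < τ + Pik N b τ p := by
    have e1 : τ + Pik N b τ p = (Ght N b τ p)⁻¹ := by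
      unfold Pik
      ring
    rw [e1]
    exact inv_pos.2 (H864.Ght_pos (N := N) hb hτ p)
  have aux : ∀ (m : ℕ) (s : ℝ), C * (√(s * (N : ℝ) ^ 2) * (s * (m : ℝ) ^ 2) ^ c) +
      6 * (m : ℝ) ^ 2 / c0 * (τ + EE p) ≤ e →
      (eFin C c N m s (τ + EE p) + 6 * (m : ℝ) ^ 2 / c0) ≤ e / (τ + EE p) := by
    intro m s hm
    rw [le_div_iff₀ hx]
    refine le_trans (le_of_eq ?_) hm
    unfold eFin
    field_simp
  have h1 := aux l t he
  have h2 := aux l' t' he'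
  have g : ∀ x : ℝ, x ≤ e / (τ + EE p) → (τ + Pik N b τ p) * x ≤ 1 / 2 := by
    intro x hx1
    have he0 : 0 ≤ e := by
      refine le_trans ?_ he
      exact add_nonneg (by positivity) (mul_nonneg (by positivity) hx.le)
    calc (τ + Pik N b τ p) * x ≤ (τ + Pik N b τ p) * (e / (τ + EE p)) :=
          mul_le_mul_of_nonneg_left hx1 hP.le
      _ ≤ D * (τ + EE p) * (e / (τ + EE p)) :=
          mul_le_mul_of_nonneg_right hPD (by positivity)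
      _ = D * e := by field_simp
      _ ≤ 1 / 2 := hDe
  have he0 : 0 ≤ e := by
    refine le_trans ?_ he
    exact add_nonneg (by positivity) (mul_nonneg (by positivity) hx.le)
  have k1 := hU N l t τ hτ hτt htN hl htl c0 hc0 hdom p hp (g _ h1)
  have k2 := hU N l' t' τ hτ hτt' htN' hl' htl' c0 hc0 hdom p hp' (g _ h2)
  have hsq : (τ + Pik N b τ p) ^ 2 ≤ (D * (τ + EE p)) ^ 2 := pow_le_pow_left₀ hP.le hPD 2
  have b1 : ∀ x : ℝ, x ≤ e / (τ + EE p) →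
      2 * (τ + Pik N b τ p) ^ 2 * x ≤ 2 * D ^ 2 * e * (τ + EE p) := by
    intro x hx1
    calc 2 * (τ + Pik N b τ p) ^ 2 * x ≤ 2 * (τ + Pik N b τ p) ^ 2 * (e / (τ + EE p)) :=
          mul_le_mul_of_nonneg_left hx1 (by positivity)
      _ ≤ 2 * (D * (τ + EE p)) ^ 2 * (e / (τ + EE p)) :=
          mul_le_mul_of_nonneg_right (by linarith) (by positivity)
      _ = 2 * D ^ 2 * e * (τ + EE p) := by
          field_simp
  have k1' := k1.trans (b1 _ h1)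
  have k2' := k2.trans (b1 _ h2)
  have e4 : PiCk N l b t τ (rd p) - PiCk N l' b t' τ (rd p) =
      (PiCk N l b t τ (rd p) - Pik N b τ p) - (PiCk N l' b t' τ (rd p) - Pik N b τ p) := by ring
  rw [e4]
  refine (abs_sub _ _).trans ?_
  linarith

/-- the same, neutral model, `p ≠ 0` -/
theorem PinC_two (hb : 0 < b) : ∃ C c : ℝ, 0 < C ∧ 0 < c ∧
    ∀ (N l l' : ℕ) [NeZero N] [NeZero (N / l)] [NeZero (N / l')] (t t' τ : ℝ), 0 < τ → τ ≤ t →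
    τ ≤ t' → 9 ≤ t * (N : ℝ) ^ 2 → 9 ≤ t' * (N : ℝ) ^ 2 → l ∣ N → l' ∣ N →
    t * (l : ℝ) ^ 2 ≤ 1 → t' * (l' : ℝ) ^ 2 ≤ 1 → ∀ c0 D : ℝ, 0 < c0 → 0 ≤ D →
      (∀ q : V N, Gnh N b τ q ≤ (τ + c0 * EE q)⁻¹) → ∀ p : V N, cen l p → cen l' p → p ≠ 0 →
      τ + Pin N b τ p ≤ D * (τ + EE p) →
      ∀ e : ℝ, C * (√(t * (N : ℝ) ^ 2) * (t * (l : ℝ) ^ 2) ^ c) +
          6 * (l : ℝ) ^ 2 / c0 * (τ + EE p) ≤ e →
        C * (√(t' * (N : ℝ) ^ 2) * (t' * (l' : ℝ) ^ 2) ^ c) +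
          6 * (l' : ℝ) ^ 2 / c0 * (τ + EE p) ≤ e → D * e ≤ 1 / 2 →
      |PinC N l b t τ (rd p) - PinC N l' b t' τ (rd p)| ≤ 4 * D ^ 2 * e * (τ + EE p) := by
  obtain ⟨C, c, hC, hc, hU⟩ := PinC_rel (b := b) hb
  refine ⟨C, c, hC, hc, ?_⟩
  intro N l l' _ _ _ t t' τ hτ hτt hτt' htN htN' hl hl' htl htl' c0 D hc0 hD hdom p hp hp' hp0 hPD
    e he he' hDe
  have ht : 0 < t := hτ.trans_le hτt
  have hE := TM.H764.EE_nonneg p
  have hx : 0 < τ + EE p := by positivity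
  have hP : 0 < τ + Pin N b τ p := by
    have e1 : τ + Pin N b τ p = (Gnh N b τ p)⁻¹ := by
      unfold Pin
      ring
    rw [e1]
    exact inv_pos.2 (H963.Gnh_pos (N := N) hb hτ hp0)
  have he0 : 0 ≤ e := by
    refine le_trans ?_ he
    exact add_nonneg (by positivity) (mul_nonneg (by positivity) hx.le)
  have aux : ∀ (m : ℕ) (s : ℝ), C * (√(s * (N : ℝ) ^ 2) * (s * (m : ℝ) ^ 2) ^ c) +
      6 * (m : ℝ) ^ 2 / c0 * (τ + EE p) ≤ e →
      (eFin C c N m s (τ + EE p) + 6 * (m : ℝ) ^ 2 / c0) ≤ e / (τ + EE p) := by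
    intro m s hm
    rw [le_div_iff₀ hx]
    refine le_trans (le_of_eq ?_) hm
    unfold eFin
    field_simp
  have h1 := aux l t he
  have h2 := aux l' t' he'
  have g : ∀ x : ℝ, x ≤ e / (τ + EE p) → (τ + Pin N b τ p) * x ≤ 1 / 2 := by
    intro x hx1
    calc (τ + Pin N b τ p) * x ≤ (τ + Pin N b τ p) * (e / (τ + EE p)) :=
          mul_le_mul_of_nonneg_left hx1 hP.le
      _ ≤ D * (τ + EE p) * (e / (τ + EE p)) :=
          mul_le_mul_of_nonneg_right hPD (by positivity)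
      _ = D * e := by field_simp
      _ ≤ 1 / 2 := hDe
  have k1 := hU N l t τ hτ hτt htN hl htl c0 hc0 hdom p hp hp0 (g _ h1)
  have k2 := hU N l' t' τ hτ hτt' htN' hl' htl' c0 hc0 hdom p hp' hp0 (g _ h2)
  have hsq : (τ + Pin N b τ p) ^ 2 ≤ (D * (τ + EE p)) ^ 2 := pow_le_pow_left₀ hP.le hPD 2
  have b1 : ∀ x : ℝ, x ≤ e / (τ + EE p) →
      2 * (τ + Pin N b τ p) ^ 2 * x ≤ 2 * D ^ 2 * e * (τ + EE p) := by
    intro x hx1
    calc 2 * (τ + Pin N b τ p) ^ 2 * x ≤ 2 * (τ + Pin N b τ p) ^ 2 * (e / (τ + EE p)) :=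
          mul_le_mul_of_nonneg_left hx1 (by positivity)
      _ ≤ 2 * (D * (τ + EE p)) ^ 2 * (e / (τ + EE p)) :=
          mul_le_mul_of_nonneg_right (by linarith) (by positivity)
      _ = 2 * D ^ 2 * e * (τ + EE p) := by
          field_simp
  have k1' := k1.trans (b1 _ h1)
  have k2' := k2.trans (b1 _ h2)
  have e4 : PinC N l b t τ (rd p) - PinC N l' b t' τ (rd p) =
      (PinC N l b t τ (rd p) - Pin N b τ p) - (PinC N l' b t' τ (rd p) - Pin N b τ p) := by ring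
  rw [e4]
  refine (abs_sub _ _).trans ?_
  linarith

end tor

end

end Vale.Agent.P159.H375
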