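import Vale.Agent.P159.H375.FineV
import Vale.Agent.P159.H864.Cel4

/-!
P159, module FINE (helper375), part 4: cells. The cell covariance and the cell self energy with
fine mass `t` (cells `l`) against the scalar mass `τ`, integer model (`Gck`, `PiCk` of helper864)
and neutral model (`Gnc`, `PinC` of helper963).
-/

namespace Vale.Agent.P159.H375

open Finset Matrix Filter Topology
open Vale.Agent.P159.TM.H764 (Gh cN sN dt ch EE frm grd hatu pw)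
open Vale.Agent.P159.TM.H104 (EM Ex Cv li nh Gr)
open Vale.Agent.P159.TM.Spec (V)
open Vale.Agent.P159.TM.SpecC (wT)
open Vale.Agent.P159.H37 (qf re wM Gm Cm cob cellP Ev wt Pik Ght)
open Vale.Agent.P159.H159 (MasN fine_N fine_GN)
open Vale.Agent.P159.H963 (GrI pin Neu Pn ntr nM GW MF gw_wT Gnc Gn Gnh Pin PinC nMC nwt)
open Vale.Agent.P159.H864 (MC GM Gc Gck PiCk sym TI cen rd cobV)

noncomputable section

/-- the error of a fine mass change, in units of the inverse mass `τ` -/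
def eFin (C c : ℝ) (N l : ℕ) (t τ : ℝ) : ℝ :=
  C / τ * √(t * (N : ℝ) ^ 2) * (t * (l : ℝ) ^ 2) ^ c

section gen

variable {n : ℕ} [NeZero n]

/-- two sided comparison of symbols from test vectors -/
lemma sym_two_of_waves {A B : Matrix (V n) (V n) ℝ} (hA : TI A) (hB : TI B) {e : ℝ} {k : V n}
    (h : ∀ φ : V n → ℝ, (φ = (fun x => cN (dt k x)) ∨ φ = fun x => sN (dt k x)) →
      0 ≤ qf A φ - qf B φ ∧ qf A φ - qf B φ ≤ e * ∑ x, φ x ^ 2) :
    0 ≤ sym A k - sym B k ∧ sym A k - sym B k ≤ e := by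
  have h1 := h _ (Or.inl rfl)
  have h2 := h _ (Or.inr rfl)
  have hsub : sym (A - B) k = sym A k - sym B k := H864.sym_sub A B k
  constructor
  · rw [← hsub]
    have h3 := H864.qf_wave (hA.sub hB) k
    rw [H864.qf_sub_mat, H864.qf_sub_mat] at h3
    have h4 : 0 ≤ (n : ℝ) ^ 2 * sym (A - B) k := by
      rw [← h3]
      linarith [h1.1, h2.1]
    by_contra hneg
    push Not at hneg
    have := mul_neg_of_pos_of_neg (H864.N_pos (N := n)) hneg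
    linarith
  · rw [← hsub]
    refine H963.sym_le_of_waves (hA.sub hB) ?_ ?_
    · rw [H864.qf_sub_mat]
      exact h1.2
    · rw [H864.qf_sub_mat]
      exact h2.2

/-- reciprocals -/
lemma abs_inv_sub_le {x y e : ℝ} (hy : 0 < y) (h : |x - y| ≤ e) (he : y⁻¹ * e ≤ 1 / 2) :
    0 < x ∧ |x⁻¹ - y⁻¹| ≤ 2 * (y⁻¹) ^ 2 * e := by
  have h0 : 0 ≤ e := (abs_nonneg _).trans h
  have h1 : e ≤ y / 2 := by
    have h2 := mul_le_mul_of_nonneg_left he hy.le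
    rw [← mul_assoc, mul_inv_cancel₀ hy.ne', one_mul] at h2
    linarith
  have h2 := abs_le.1 h
  have hx : y / 2 ≤ x := by linarith [h2.1]
  have hx0 : 0 < x := by linarith
  refine ⟨hx0, ?_⟩
  have e1 : x⁻¹ - y⁻¹ = (y - x) * (x⁻¹ * y⁻¹) := by
    field_simp
  rw [e1, abs_mul, abs_of_pos (by positivity : 0 < x⁻¹ * y⁻¹), abs_sub_comm]
  have h3 : x⁻¹ ≤ 2 * y⁻¹ := by
    rw [inv_le_comm₀ hx0 (by positivity), mul_inv, inv_inv]
    linarith
  calc |x - y| * (x⁻¹ * y⁻¹) ≤ e * (2 * y⁻¹ * y⁻¹) :=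
        mul_le_mul h (mul_le_mul_of_nonneg_right h3 (by positivity)) (by positivity) h0
    _ = 2 * (y⁻¹) ^ 2 * e := by ring

end gen

section tor

variable {N l : ℕ} [NeZero N] [NeZero (N / l)] {b : ℝ}

lemma masM_MC (hl : l ∣ N) {t τ : ℝ} (_hτ : 0 < τ) (h : τ ≤ t) :
    MasM t τ (τ • (1 : Matrix (V N) (V N) ℝ)) (MC N l t τ) where
  s0 := by rw [transpose_smul, transpose_one]
  s1 := H864.MC_tr N l t τ
  lo u := by rw [H37.qf_smul_one]
  mid u := by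
    rw [H37.qf_smul_one]
    exact H864.qf_MC_ge hl h u
  up u := H864.qf_MC_le hl h u

/-- **(FC, integer)** cell covariance: scalar mass `τ` against `MC N l t τ` -/
theorem Gck_fine (hb : 0 ≤ b) : ∃ C c : ℝ, 0 < C ∧ 0 < c ∧
    ∀ (N l : ℕ) [NeZero N] [NeZero (N / l)] (t τ : ℝ), 0 < τ → τ ≤ t → 9 ≤ t * (N : ℝ) ^ 2 →
    l ∣ N → t * (l : ℝ) ^ 2 ≤ 1 → ∀ k : V (N / l),
      0 ≤ Gck N l b τ τ k - Gck N l b t τ k ∧
      Gck N l b τ τ k - Gck N l b t τ k ≤ eFin C c N l t τ := by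
  obtain ⟨C, c, hC, hc, hU⟩ := fine_G (b := b) hb
  refine ⟨C, c, hC, hc, ?_⟩
  intro N l _ _ t τ hτ hτt htN hl htl k
  have ht : 0 < t := hτ.trans_le hτt
  unfold Gck
  refine sym_two_of_waves (H864.ti_Gc_GM hl b τ τ) (H864.ti_Gc_GM hl b t τ) fun φ _ => ?_
  rw [H864.qf_Gc, H864.qf_Gc, H864.GM_self]
  have h1 := hU N t ht htN l hl htl τ (t - τ) (τ • 1) (MC N l t τ) hτ (sub_nonneg.2 hτt)
    (by linarith) (MC_split N l t τ) (masM_MC hl hτ hτt) ((cobV N l)ᵀ *ᵥ φ)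
  refine ⟨h1.1, h1.2.trans_eq ?_⟩
  rw [H864.sq_cobV_tr hl φ]
  unfold eFin
  ring

/-- **(FC, neutral)** neutral cell covariance: scalar mass `τ` against `MC N l t τ` -/
theorem Gnc_fine (hb : 0 ≤ b) : ∃ C c : ℝ, 0 < C ∧ 0 < c ∧
    ∀ (N l : ℕ) [NeZero N] [NeZero (N / l)] (t τ : ℝ), 0 < τ → τ ≤ t → 9 ≤ t * (N : ℝ) ^ 2 →
    l ∣ N → t * (l : ℝ) ^ 2 ≤ 1 → ∀ k : V (N / l), k ≠ 0 →
      0 ≤ sym (Gnc N l b τ τ) k - sym (Gnc N l b t τ) k ∧
      sym (Gnc N l b τ τ) k - sym (Gnc N l b t τ) k ≤ eFin C c N l t τ := by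
  obtain ⟨C, c, hC, hc, hU⟩ := fine_GN (b := b) hb
  refine ⟨C, c, hC, hc, ?_⟩
  intro N l _ _ t τ hτ hτt htN hl htl k hk
  have ht : 0 < t := hτ.trans_le hτt
  refine sym_two_of_waves (H963.ti_Gnc hb hl hτ le_rfl) (H963.ti_Gnc hb hl hτ hτt) fun φ hφ => ?_
  have hn : Neu φ := by
    rcases hφ with rfl | rfl
    · exact H963.neu_cN hk
    · exact H963.neu_sN k
  rw [H963.qf_Gnc_neu hl b τ τ hn, H963.qf_Gnc_neu hl b t τ hn]
  have h1 := hU N t ht htN l hl htl τ (t - τ) (τ • 1) τ (sub_nonneg.2 hτt)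
    (by linarith) (masN_MC hl hτ hτt) 0 ((cobV N l)ᵀ *ᵥ φ) (H963.neu_cobV_tr hl hn)
  rw [← MC_split] at h1
  have e0 : nMC N l b τ τ 0 = nM (wT b N) (τ • (1 : Matrix (V N) (V N) ℝ)) τ 0 := by
    unfold nMC
    rw [H864.MC_self]
  have e1 : nMC N l b t τ 0 = nM (wT b N) (MC N l t τ) τ 0 := rfl
  rw [e0, e1]
  refine ⟨h1.1, h1.2.trans_eq ?_⟩
  rw [H864.sq_cobV_tr hl φ]
  unfold eFin
  ring

/-- **(FC', integer)** cell self energy of the cell mass `MC N l t τ` against the self energy of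
the scalar mass `τ`, at a central alias -/
theorem PiCk_scal (hb : 0 < b) : ∃ C c : ℝ, 0 < C ∧ 0 < c ∧
    ∀ (N l : ℕ) [NeZero N] [NeZero (N / l)] (t τ : ℝ), 0 < τ → τ ≤ t → 9 ≤ t * (N : ℝ) ^ 2 →
    l ∣ N → t * (l : ℝ) ^ 2 ≤ 1 → ∀ c0 : ℝ, 0 < c0 →
      (∀ q : V N, Ght N b τ q ≤ (τ + c0 * EE q)⁻¹) → ∀ p : V N, cen l p →
      (τ + Pik N b τ p) * (eFin C c N l t τ + 6 * (l : ℝ) ^ 2 / c0) ≤ 1 / 2 →
      |PiCk N l b t τ (rd p) - Pik N b τ p| ≤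
        2 * (τ + Pik N b τ p) ^ 2 * (eFin C c N l t τ + 6 * (l : ℝ) ^ 2 / c0) := by
  obtain ⟨C, c, hC, hc, hU⟩ := Gck_fine (b := b) hb.le
  refine ⟨C, c, hC, hc, ?_⟩
  intro N l _ _ t τ hτ hτt htN hl htl c0 hc0 hdom p hp hs
  have h1 := hU N l t τ hτ hτt htN hl htl (rd p)
  have h2 := H864.abs_Gck_sub_le hb.le hl hτ hc0 hdom hp
  have hg := H864.Ght_pos (N := N) hb hτ p
  have e1 : τ + Pik N b τ p = (Ght N b τ p)⁻¹ := by
    unfold Pik
    ring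
  have h3 : |Gck N l b t τ (rd p) - Ght N b τ p| ≤ eFin C c N l t τ + 6 * (l : ℝ) ^ 2 / c0 := by
    have e2 : Gck N l b t τ (rd p) - Ght N b τ p =
        -(Gck N l b τ τ (rd p) - Gck N l b t τ (rd p)) + (Gck N l b τ τ (rd p) - Ght N b τ p) := by
      ring
    rw [e2]
    refine (abs_add_le _ _).trans (add_le_add ?_ h2)
    rw [abs_neg, abs_of_nonneg h1.1]
    exact h1.2
  rw [e1] at hs ⊢
  have h4 := (abs_inv_sub_le hg h3 hs).2
  have e3 : PiCk N l b t τ (rd p) - Pik N b τ p = (Gck N l b t τ (rd p))⁻¹ - (Ght N b τ p)⁻¹ := by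
    unfold PiCk Pik
    ring
  rw [e3]
  exact h4

/-- the neutral cell covariance at scalar mass near the neutral covariance, central alias -/
theorem abs_Gnc_sub_le (hb : 0 ≤ b) (hl : l ∣ N) {τ c0 : ℝ} (hτ : 0 < τ) (hc : 0 < c0)
    (hdom : ∀ q : V N, Gnh N b τ q ≤ (τ + c0 * EE q)⁻¹) {p : V N} (hp : cen l p) :
    |sym (Gnc N l b τ τ) (rd p) - Gnh N b τ p| ≤ 6 * (l : ℝ) ^ 2 / c0 := by
  have hlp : (0 : ℝ) < l := by exact_mod_cast H864.l_pos hl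
  set C := Gnh N b τ p + (l : ℝ) ^ 2 / (4 * c0) with hC
  have hp0 := H963.Gnh_nonneg (N := N) hb hτ p
  have h1 : ∀ q : V N, (rd q : V (N / l)) = rd p →
      |sym (Gn N b τ) q - sym (Gn N b τ) p| ≤ C := by
    intro q hq
    have e1 : sym (Gn N b τ) q = Gnh N b τ q := rfl
    have e2 : sym (Gn N b τ) p = Gnh N b τ p := rfl
    rw [e1, e2]
    by_cases hne : q = p
    · rw [hne, sub_self, abs_zero]
      positivity
    · have h2 := H864.EE_alias_ge hl hp hq hne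
      have h3 := H963.Gnh_nonneg (N := N) hb hτ q
      have h4 : Gnh N b τ q ≤ (l : ℝ) ^ 2 / (4 * c0) := by
        refine (hdom q).trans ?_
        rw [inv_eq_one_div, div_le_div_iff₀ (by nlinarith [TM.H764.EE_nonneg q]) (by positivity)]
        have h5 : 4 ≤ (l : ℝ) ^ 2 * EE q := by
          rw [div_le_iff₀ (by positivity)] at h2
          linarith
        nlinarith [mul_pos (pow_pos hlp 2) hτ]
      rw [abs_le]
      constructor
      · have : (0 : ℝ) ≤ (l : ℝ) ^ 2 / (4 * c0) := by positivity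
        linarith
      · linarith
  have h2 := H864.abs_sym_Gc_sub_le hl (H963.ti_Gn (N := N) hb hτ) h1
  have e : sym (Gnc N l b τ τ) (rd p) = sym (Gc l (Gn N b τ)) (rd p) := by
    rw [H963.Gnc_self]
  have e' : sym (Gn N b τ) p = Gnh N b τ p := rfl
  rw [e, ← e']
  refine h2.trans ?_
  have h3 := H864.EE_cen_small hl hp
  have h4 : EE p * Gnh N b τ p ≤ 1 / c0 := by
    have h5 := TM.H764.EE_nonneg p
    have h6 := mul_le_mul_of_nonneg_left (hdom p) h5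
    refine h6.trans ?_
    rw [← div_eq_mul_inv, div_le_div_iff₀ (by nlinarith) hc]
    nlinarith
  have h7 : (l : ℝ) ^ 2 * EE p * C = (l : ℝ) ^ 2 * (EE p * Gnh N b τ p) +
      (l : ℝ) ^ 2 * EE p * ((l : ℝ) ^ 2 / (4 * c0)) := by
    rw [hC]
    ring
  rw [h7]
  have h8 := mul_le_mul_of_nonneg_left h4 (sq_nonneg (l : ℝ))
  have h9 : (l : ℝ) ^ 2 * EE p * ((l : ℝ) ^ 2 / (4 * c0)) ≤ 20 * ((l : ℝ) ^ 2 / (4 * c0)) :=
    mul_le_mul_of_nonneg_right h3 (by positivity)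
  have e2 : 6 * (l : ℝ) ^ 2 / c0 = (l : ℝ) ^ 2 * (1 / c0) + 20 * ((l : ℝ) ^ 2 / (4 * c0)) := by
    field_simp
    ring
  rw [e2]
  exact add_le_add h8 h9

/-- central momenta different from zero are not aliases of zero -/
lemma rd_cen_ne (hl : l ∣ N) {p : V N} (hp : cen l p) (h0 : p ≠ 0) : (rd p : V (N / l)) ≠ 0 := by
  intro h
  have hc0 : cen l (0 : V N) := by
    constructor
    · simp
    · simp
  have h1 : (rd p : V (N / l)) = rd (0 : V N) := by rw [h, H864.rd_zero hl]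
  have h2 := H864.EE_alias_ge hl hc0 h1 h0
  have h3 := H864.EE_cen_le hl hp (h1.symm)
  have hlp : (0 : ℝ) < l := by exact_mod_cast H864.l_pos hl
  have h4 : EE (0 : V N) = 0 := TM.H764.EE_zero
  rw [h4, mul_zero] at h3
  have h5 : 0 < 4 / (l : ℝ) ^ 2 := by positivity
  linarith

/-- **(FC', neutral)** -/
theorem PinC_scal (hb : 0 < b) : ∃ C c : ℝ, 0 < C ∧ 0 < c ∧
    ∀ (N l : ℕ) [NeZero N] [NeZero (N / l)] (t τ : ℝ), 0 < τ → τ ≤ t → 9 ≤ t * (N : ℝ) ^ 2 →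
    l ∣ N → t * (l : ℝ) ^ 2 ≤ 1 → ∀ c0 : ℝ, 0 < c0 →
      (∀ q : V N, Gnh N b τ q ≤ (τ + c0 * EE q)⁻¹) → ∀ p : V N, cen l p → p ≠ 0 →
      (τ + Pin N b τ p) * (eFin C c N l t τ + 6 * (l : ℝ) ^ 2 / c0) ≤ 1 / 2 →
      |PinC N l b t τ (rd p) - Pin N b τ p| ≤
        2 * (τ + Pin N b τ p) ^ 2 * (eFin C c N l t τ + 6 * (l : ℝ) ^ 2 / c0) := by
  obtain ⟨C, c, hC, hc, hU⟩ := Gnc_fine (b := b) hb.le
  refine ⟨C, c, hC, hc, ?_⟩
  intro N l _ _ t τ hτ hτt htN hl htl c0 hc0 hdom p hp hp0 hs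
  have hk := rd_cen_ne hl hp hp0
  have h1 := hU N l t τ hτ hτt htN hl htl (rd p) hk
  have h2 := abs_Gnc_sub_le hb.le hl hτ hc0 hdom hp
  have hg := H963.Gnh_pos (N := N) hb hτ hp0
  have e1 : τ + Pin N b τ p = (Gnh N b τ p)⁻¹ := by
    unfold Pin
    ring
  have h3 : |sym (Gnc N l b t τ) (rd p) - Gnh N b τ p| ≤
      eFin C c N l t τ + 6 * (l : ℝ) ^ 2 / c0 := by
    have e2 : sym (Gnc N l b t τ) (rd p) - Gnh N b τ p =
        -(sym (Gnc N l b τ τ) (rd p) - sym (Gnc N l b t τ) (rd p)) +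
          (sym (Gnc N l b τ τ) (rd p) - Gnh N b τ p) := by
      ring
    rw [e2]
    refine (abs_add_le _ _).trans (add_le_add ?_ h2)
    rw [abs_neg, abs_of_nonneg h1.1]
    exact h1.2
  rw [e1] at hs ⊢
  have h4 := (abs_inv_sub_le hg h3 hs).2
  have e3 : PinC N l b t τ (rd p) - Pin N b τ p =
      (sym (Gnc N l b t τ) (rd p))⁻¹ - (Gnh N b τ p)⁻¹ := by
    unfold PinC Pin
    ring
  rw [e3]
  exact h4

end tor

end

end Vale.Agent.P159.H375
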