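import Vale.Agent.P159.H767.Nr3
import Vale.Agent.P159.H859.NeuE
import Vale.Agent.P159.H972.Good
import Vale.Agent.P159.H375.FineC
import Vale.Agent.P159.H276.Eta

/-!
P159 / H375: the cell form `acl` at fine cells: `Dom`, upper bound by the Dirichlet form with the
stiffness of the flat profile (`acl_top`), signs of the entries (item (6) of helper889's row 5255).
-/

namespace Vale.Agent.P159.H375

open Finset Matrix Filter Topology
open Vale.Agent.P159.TM.H764 (Gh cN sN dt ch EE frm grd hatu pw)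
open Vale.Agent.P159.TM.Spec (V)
open Vale.Agent.P159.TM.SpecC (wT)
open Vale.Agent.P159.TM.H859 (dirE)
open Vale.Agent.P159.H37 (qf wt Pik Ght)
open Vale.Agent.P159.H963 (Neu Pn Gnc Gn Gnh Pin PinC)
open Vale.Agent.P159.H864 (MC GM Gc Gck PiCk sym TI cen rd cobV lapM als Wl)
open Vale.Agent.P159.H363 (acl ti_acl sym_acl sym_acl_zero sym_acl_eq sym_acl_nonneg sym_acl_le)
open Vale.Agent.P159.H462 (Dom)
open Vale.Agent.P159.H972 (FL)

noncomputable section

/-! ### one dimension -/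

/-- the second order bound of the cosine on the cell scale -/
lemma one_sub_cos_ge {u : ℝ} (h : |u| ≤ 1) : u ^ 2 - u ^ 4 / 8 ≤ 2 * (1 - Real.cos u) := by
  have h1 := (abs_le.1 (Real.cos_bound h)).2
  have h2 : |u| ^ 4 = u ^ 4 := by
    rw [show (4 : ℕ) = 2 * 2 by norm_num, pow_mul, sq_abs, ← pow_mul]
  rw [h2] at h1
  have h3 : 0 ≤ u ^ 4 := by positivity
  nlinarith

section tor

variable {N l : ℕ} [NeZero N] [NeZero (N / l)] {b t τ : ℝ}

/-- the cell angle -/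
lemma cN_rd1_pw (hl : l ∣ N) (p : ZMod N) :
    cN (H864.rd1 p : ZMod (N / l)) = Real.cos (l * pw p) := by
  rw [H864.cN_rd1 hl]
  have hN : (N : ℝ) ≠ 0 := by exact_mod_cast NeZero.ne N
  -- `val` and `valMinAbs` differ by a multiple of `N`
  obtain ⟨m, hm⟩ : ∃ m : ℤ, (p.val : ℤ) = p.valMinAbs + m * N := by
    have h1 : ((p.val : ℤ) : ZMod N) = ((p.valMinAbs : ℤ) : ZMod N) := by
      rw [ZMod.coe_valMinAbs, Int.cast_natCast, ZMod.natCast_zmod_val]
    rw [ZMod.intCast_eq_intCast_iff_dvd_sub] at h1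
    obtain ⟨m, hm⟩ := h1
    exact ⟨-m, by rw [neg_mul, mul_comm m]; linarith⟩
  have hv : (p.val : ℝ) = (p.valMinAbs : ℝ) + m * N := by exact_mod_cast hm
  have e : (l : ℝ) * (2 * Real.pi * (p.val : ℝ) / N) = l * pw p + ((l : ℤ) * m : ℤ) * (2 * Real.pi) := by
    rw [hv]
    unfold pw
    push_cast
    field_simp
  rw [e, Real.cos_add_int_mul_two_pi]

/-- the cell Laplacian against `l²` times the Laplacian at a central momentum -/
lemma lap_cen (hl : l ∣ N) {p : V N} (hp : cen l p) (hE : EE (rd p : V (N / l)) ≤ 1 / 4) :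
    (l : ℝ) ^ 2 * EE p ≤ EE (rd p : V (N / l)) * (1 + EE (rd p : V (N / l)) / 2) := by
  set E := EE (rd p : V (N / l)) with hEd
  set u : ℝ := l * pw p.1 with hu
  set v : ℝ := l * pw p.2 with hv
  have e0 : E = 2 * (1 - Real.cos u) + 2 * (1 - Real.cos v) := by
    rw [hEd]
    unfold EE
    have e1 : cN (rd p : V (N / l)).1 = Real.cos u := cN_rd1_pw hl p.1
    have e2 : cN (rd p : V (N / l)).2 = Real.cos v := cN_rd1_pw hl p.2
    rw [e1, e2]
  have hπ := Real.pi_pos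
  have habs : ∀ z : ZMod N, 2 * l * z.valMinAbs.natAbs ≤ N → |(l : ℝ) * pw z| ≤ Real.pi := by
    intro z hz
    rw [abs_mul, Nat.abs_cast, mul_comm]
    exact H864.pw_cen hz
  have hq : ∀ w : ℝ, |w| ≤ Real.pi → 2 / Real.pi ^ 2 * w ^ 2 ≤ 1 - Real.cos w := by
    intro w hw
    have h1 := Real.cos_le_one_sub_mul_cos_sq hw
    linarith
  have h1 := hq u (habs p.1 hp.1)
  have h2 := hq v (habs p.2 hp.2)
  have hc1 : 0 ≤ 1 - Real.cos u := by linarith [Real.cos_le_one u]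
  have hc2 : 0 ≤ 1 - Real.cos v := by linarith [Real.cos_le_one v]
  have hpi2 : Real.pi ^ 2 < 10 := by
    have := Real.pi_lt_d2
    nlinarith
  have h3 : ∀ w : ℝ, 2 / Real.pi ^ 2 * w ^ 2 ≤ 1 - Real.cos w → w ^ 2 ≤ 5 * (1 - Real.cos w) := by
    intro w hw
    have h4 : w ^ 2 = Real.pi ^ 2 / 2 * (2 / Real.pi ^ 2 * w ^ 2) := by
      field_simp
    have h5 : 0 ≤ 1 - Real.cos w := by linarith [Real.cos_le_one w]
    rw [h4]
    calc Real.pi ^ 2 / 2 * (2 / Real.pi ^ 2 * w ^ 2) ≤ Real.pi ^ 2 / 2 * (1 - Real.cos w) :=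
          mul_le_mul_of_nonneg_left hw (by positivity)
      _ ≤ 5 * (1 - Real.cos w) := mul_le_mul_of_nonneg_right (by linarith) h5
  have hu2 := h3 u h1
  have hv2 := h3 v h2
  have hU : u ^ 2 + v ^ 2 ≤ 5 / 2 * E := by
    rw [e0]
    linarith
  have hU1 : u ^ 2 + v ^ 2 ≤ 5 / 8 := hU.trans (by linarith)
  have hu1 : |u| ≤ 1 := by
    rw [abs_le_one_iff_mul_self_le_one]
    nlinarith [sq_nonneg v]
  have hv1 : |v| ≤ 1 := by
    rw [abs_le_one_iff_mul_self_le_one]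
    nlinarith [sq_nonneg u]
  have g1 := one_sub_cos_ge hu1
  have g2 := one_sub_cos_ge hv1
  -- `l² EE p ≤ U`
  have hx : (l : ℝ) ^ 2 * EE p ≤ u ^ 2 + v ^ 2 := by
    have h4 := mul_le_mul_of_nonneg_left (TM.H764.EE_le p) (sq_nonneg (l : ℝ))
    refine h4.trans (le_of_eq ?_)
    rw [hu, hv]
    ring
  refine hx.trans ?_
  set U : ℝ := u ^ 2 + v ^ 2 with hUd
  have hU0 : 0 ≤ U := by positivity
  have g3 : U - U ^ 2 / 8 ≤ E := by
    have h5 : u ^ 4 + v ^ 4 ≤ U ^ 2 := by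
      rw [hUd]
      nlinarith [mul_nonneg (sq_nonneg u) (sq_nonneg v)]
    rw [e0]
    linarith
  have hE0 : 0 ≤ E := TM.H764.EE_nonneg _
  have h6 : U * (1 - U / 8) ≤ E := by
    calc U * (1 - U / 8) = U - U ^ 2 / 8 := by ring
      _ ≤ E := g3
  -- `U ≤ 2.5 E`
  have h7 : U ≤ E + U * (U / 8) := by linarith
  have h8 : U * (U / 8) ≤ (5 / 2 * E) * (U / 8) := mul_le_mul_of_nonneg_right hU (by positivity)
  have h9 : U ≤ 9 / 8 * E := by
    have : U * (U / 8) ≤ U * (5 / 64) := mul_le_mul_of_nonneg_left (by linarith) hU0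
    linarith
  have h10 : (U : ℝ) * (U / 8) ≤ (9 / 8 * E) * ((9 / 8 * E) / 8) :=
    mul_le_mul h9 (by linarith) (by positivity) (by positivity)
  have h11 : 0 ≤ E ^ 2 := sq_nonneg _
  nlinarith

/-- **cell average at a central momentum, both sides, relative errors**: scalar mass -/
lemma Gnc_cen (hb : 0 < b) (hl : l ∣ N) (ht : 0 < t) {p : V N} (hp : cen l p) :
    (1 - (l : ℝ) ^ 2 * EE p) * Gnh N b t p ≤ sym (Gnc N l b t t) (rd p) ∧
    sym (Gnc N l b t t) (rd p) ≤ Gnh N b t p + (l : ℝ) ^ 2 * EE p * (b * (l : ℝ) ^ 2 / 4) := by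
  have hlp : (0 : ℝ) < l := by exact_mod_cast H864.l_pos hl
  have e1 : sym (Gnc N l b t t) (rd p) = als l (sym (Gn N b t)) (rd p) := by
    rw [H963.Gnc_self, H864.sym_Gc hl (H963.ti_Gn (N := N) hb.le ht)]
  have hsym : ∀ q : V N, sym (Gn N b t) q = Gnh N b t q := fun q => rfl
  have hw := H864.one_sub_Wl_le hl p
  have hw1 := H864.Wl_le_one hl p
  have hg0 := fun q : V N => H963.Gnh_nonneg (N := N) hb.le ht q
  have hmem : p ∈ univ.filter (fun q : V N => (rd q : V (N / l)) = rd p) := by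
    rw [Finset.mem_filter]
    exact ⟨Finset.mem_univ _, rfl⟩
  have hsplit : als l (sym (Gn N b t)) (rd p) = Gnh N b t p * Wl l p +
      ∑ q ∈ (univ.filter (fun q : V N => (rd q : V (N / l)) = rd p)).erase p,
        Gnh N b t q * Wl l q := by
    unfold als
    rw [← Finset.add_sum_erase _ _ hmem]
    rfl
  have hW : ∑ q ∈ (univ.filter (fun q : V N => (rd q : V (N / l)) = rd p)).erase p, Wl l q =
      1 - Wl l p := by
    have h1 := H864.sum_Wl hl (rd p : V (N / l))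
    rw [← Finset.add_sum_erase _ _ hmem] at h1
    linarith
  have hrest0 : 0 ≤ ∑ q ∈ (univ.filter (fun q : V N => (rd q : V (N / l)) = rd p)).erase p,
      Gnh N b t q * Wl l q :=
    Finset.sum_nonneg fun q _ => mul_nonneg (hg0 q) (H864.Wl_nonneg q)
  have hdom : ∀ q : V N, q ∈ (univ.filter (fun q : V N => (rd q : V (N / l)) = rd p)).erase p →
      Gnh N b t q ≤ b * (l : ℝ) ^ 2 / 4 := by
    intro q hq
    rw [Finset.mem_erase, Finset.mem_filter] at hq
    have h1 := H864.EE_alias_ge hl hp hq.2.2 hq.1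
    have h2 : Gnh N b t q ≤ (t + 1 / b * EE q)⁻¹ := H276.Gnh_dom hb ht q
    refine h2.trans ?_
    rw [div_le_iff₀ (by positivity)] at h1
    rw [inv_eq_one_div, div_le_div_iff₀ (by have := TM.H764.EE_nonneg q; positivity) (by norm_num)]
    have h5 : 4 ≤ (l : ℝ) ^ 2 * EE q := by linarith
    have h6 : b * (l : ℝ) ^ 2 * (t + 1 / b * EE q) = b * (l : ℝ) ^ 2 * t + (l : ℝ) ^ 2 * EE q := by
      field_simp
    rw [h6]
    have : 0 < b * (l : ℝ) ^ 2 * t := by positivity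
    linarith
  rw [e1, hsplit]
  constructor
  · have h1 : (1 - (l : ℝ) ^ 2 * EE p) * Gnh N b t p ≤ Gnh N b t p * Wl l p := by
      rw [mul_comm]
      exact mul_le_mul_of_nonneg_left (by linarith) (hg0 p)
    linarith
  · have h1 : ∑ q ∈ (univ.filter (fun q : V N => (rd q : V (N / l)) = rd p)).erase p,
        Gnh N b t q * Wl l q ≤ (1 - Wl l p) * (b * (l : ℝ) ^ 2 / 4) := by
      rw [← hW, Finset.sum_mul]
      refine Finset.sum_le_sum fun q hq => ?_
      rw [mul_comm]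
      exact mul_le_mul_of_nonneg_left (hdom q hq) (H864.Wl_nonneg q)
    have h2 : (1 - Wl l p) * (b * (l : ℝ) ^ 2 / 4) ≤
        (l : ℝ) ^ 2 * EE p * (b * (l : ℝ) ^ 2 / 4) := mul_le_mul_of_nonneg_right hw (by positivity)
    have h3 : Gnh N b t p * Wl l p ≤ Gnh N b t p * 1 := mul_le_mul_of_nonneg_left hw1 (hg0 p)
    linarith

/-- **`Dom` of the cell form** (bare domination), any cells, any prior -/
theorem dom_acl (hb : 0 < b) (hl : l ∣ N) (hτ : 0 < τ) (h : τ ≤ t) :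
    Dom (acl N l b t τ) (τ * (l : ℝ) ^ 2) (1 / b) where
  ti := ti_acl hb.le hl hτ h
  hν := by
    have hlp : (0 : ℝ) < l := by exact_mod_cast H864.l_pos hl
    positivity
  hc := by positivity
  nn := sym_acl_nonneg hb.le hl hτ h
  le := sym_acl_le hb.le hl hτ h
  zero := sym_acl_zero hl hb.le hτ h
  ge k := by
    have hlp : (0 : ℝ) < l := by exact_mod_cast H864.l_pos hl
    by_cases hk : k = 0
    · rw [hk, sym_acl_zero hl hb.le hτ h, H462.EE_zero]
      simp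
    · have hE := TM.H764.EE_nonneg k
      have h1 := H859.Gnck_dom (N := N) hb.le hl (κ := 1 / b) hτ h (by positivity)
        (by field_simp; exact le_refl _) k
      rw [sym_acl, if_neg hk, mul_one]
      have h2 := mul_le_mul_of_nonneg_left h1 (show 0 ≤ (l : ℝ) ^ 2 * τ ^ 2 by positivity)
      set x : ℝ := EE k with hx
      have hden : 0 < τ + 1 / b / (l : ℝ) ^ 2 * x := by positivity
      have e1 : (l : ℝ) ^ 2 * τ ^ 2 * (τ + 1 / b / (l : ℝ) ^ 2 * x)⁻¹ =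
          (l : ℝ) ^ 2 * τ - τ * (l : ℝ) ^ 2 * (1 / b * x) / (τ * (l : ℝ) ^ 2 + 1 / b * x) := by
        have hd2 : 0 < τ * (l : ℝ) ^ 2 + 1 / b * x := by positivity
        field_simp
        ring
      linarith

/-- smallest site energy -/
lemma EE_ge_min {p : V N} (hp : p ≠ 0) : 16 / (N : ℝ) ^ 2 ≤ EE p := by
  have hN : (0 : ℝ) < N := by exact_mod_cast NeZero.pos N
  have key : ∀ z : ZMod N, z ≠ 0 → 16 / (N : ℝ) ^ 2 ≤ 2 * (1 - cN z) := by
    intro z hz
    refine le_trans ?_ (H340.one_sub_cN_ge z)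
    refine div_le_div_of_nonneg_right ?_ (by positivity)
    have h1 : z.valMinAbs ≠ 0 := by
      rw [Ne, ZMod.valMinAbs_eq_zero]
      exact hz
    have h2 : (1 : ℤ) ≤ z.valMinAbs ^ 2 := by
      have := sq_pos_of_ne_zero h1
      omega
    have h3 : (1 : ℝ) ≤ (z.valMinAbs : ℝ) ^ 2 := by exact_mod_cast h2
    linarith
  have hn1 : 0 ≤ 1 - cN p.1 := by linarith [TM.H764.cN_le_one p.1]
  have hn2 : 0 ≤ 1 - cN p.2 := by linarith [TM.H764.cN_le_one p.2]
  unfold EE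
  by_cases h1 : p.1 = 0
  · have h2 : p.2 ≠ 0 := fun h3 => hp (Prod.ext h1 h3)
    have := key p.2 h2
    linarith
  · have := key p.1 h1
    linarith

/-- **the cell self energy below the flat profile, central momentum, scalar mass** -/
theorem PinC_up (hb : 0 < b) (hl : l ∣ N) (ht : 0 < t) {p : V N} (hp : cen l p) (hp0 : p ≠ 0)
    (hx : (l : ℝ) ^ 2 * EE p ≤ 1 / 2) :
    t + PinC N l b t t (rd p) ≤ (t + Pin N b t p) * (1 + 2 * ((l : ℝ) ^ 2 * EE p)) := by
  set x : ℝ := (l : ℝ) ^ 2 * EE p with hxd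
  have hx0 : 0 ≤ x := mul_nonneg (sq_nonneg _) (TM.H764.EE_nonneg p)
  have h1 := (Gnc_cen (N := N) hb hl ht hp).1
  rw [← hxd] at h1
  have hg := H963.Gnh_pos (N := N) hb ht hp0
  have hG : 0 < (1 - x) * Gnh N b t p := mul_pos (by linarith) hg
  have e1 : t + PinC N l b t t (rd p) = (sym (Gnc N l b t t) (rd p))⁻¹ := by
    unfold PinC
    ring
  have e2 : t + Pin N b t p = (Gnh N b t p)⁻¹ := by
    unfold Pin
    ring
  rw [e1, e2]
  have h2 : (sym (Gnc N l b t t) (rd p))⁻¹ ≤ ((1 - x) * Gnh N b t p)⁻¹ := inv_anti₀ hG h1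
  refine h2.trans ?_
  rw [mul_inv, mul_comm]
  refine mul_le_mul_of_nonneg_left ?_ (inv_pos.2 hg).le
  rw [inv_eq_one_div, div_le_iff₀ (by linarith)]
  nlinarith

/-- arithmetic of `sym_acl_top` -/
lemma top_arith {a η ν E x q : ℝ} (hη0 : 0 ≤ η) (hη : η ≤ 1) (ha1 : 1 ≤ a) (ha2 : a ≤ 2)
    (hν0 : 0 < ν) (hν : ν ≤ 1 / 4) (hE0 : 0 ≤ E) (hx0 : 0 ≤ x) (hx1 : x ≤ E * (1 + ν / 2))
    (hx2 : x ≤ 9 / 8 * ν) (hq : q ≤ x * (a + 9 / 4 * η)) :
    q + 2 * x * (ν + q) ≤ (a + 3 * η + 20 * ν) * E := by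
  have hc : a + 9 / 4 * η ≤ 17 / 4 := by linarith
  have hc0 : 0 ≤ a + 9 / 4 * η := by linarith
  have h6 : q ≤ 9 / 8 * ν * (17 / 4) := hq.trans (mul_le_mul hx2 hc hc0 (by positivity))
  have h5 : 2 * x * (ν + q) ≤ x * (12 * ν) := by
    have h7 : 2 * (ν + q) ≤ 12 * ν := by linarith
    calc 2 * x * (ν + q) = x * (2 * (ν + q)) := by ring
      _ ≤ x * (12 * ν) := mul_le_mul_of_nonneg_left h7 hx0
  have h8 : q + 2 * x * (ν + q) ≤ x * (a + 9 / 4 * η + 12 * ν) := by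
    calc q + 2 * x * (ν + q) ≤ x * (a + 9 / 4 * η) + x * (12 * ν) := add_le_add hq h5
      _ = x * (a + 9 / 4 * η + 12 * ν) := by ring
  refine h8.trans ?_
  have h9 : 0 ≤ a + 9 / 4 * η + 12 * ν := by positivity
  have h10 : x * (a + 9 / 4 * η + 12 * ν) ≤ E * (1 + ν / 2) * (a + 9 / 4 * η + 12 * ν) :=
    mul_le_mul_of_nonneg_right hx1 h9
  refine h10.trans ?_
  have h12 : ν / 2 * (a + 9 / 4 * η + 12 * ν) ≤ ν / 2 * (17 / 4 + 3) :=
    mul_le_mul_of_nonneg_left (by linarith) (by positivity)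
  have h11 : (1 + ν / 2) * (a + 9 / 4 * η + 12 * ν) ≤ a + 3 * η + 20 * ν := by
    calc (1 + ν / 2) * (a + 9 / 4 * η + 12 * ν) = (a + 9 / 4 * η + 12 * ν) +
          ν / 2 * (a + 9 / 4 * η + 12 * ν) := by ring
      _ ≤ (a + 9 / 4 * η + 12 * ν) + ν / 2 * (17 / 4 + 3) := by linarith
      _ ≤ a + 3 * η + 20 * ν := by linarith
  calc E * (1 + ν / 2) * (a + 9 / 4 * η + 12 * ν) = E * ((1 + ν / 2) * (a + 9 / 4 * η + 12 * ν)) := by
        ring
    _ ≤ E * (a + 3 * η + 20 * ν) := mul_le_mul_of_nonneg_left h11 hE0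
    _ = (a + 3 * η + 20 * ν) * E := by ring

/-- **top of the cell form from the flat profile**: `acl(k) ≤ (a + 3 η + 20 t l²) EE k` -/
theorem sym_acl_top (hb : 0 < b) (hl : l ∣ N) (ht : 0 < t) {a η : ℝ} (ha1 : 1 ≤ a) (ha2 : a ≤ 2)
    (hη : η ≤ 1) (hν : t * (l : ℝ) ^ 2 ≤ 1 / 4) (hF : FL b t a η N) (k : V (N / l)) :
    sym (acl N l b t t) k ≤ (a + 3 * η + 20 * (t * (l : ℝ) ^ 2)) * EE k := by
  have hlp : (0 : ℝ) < l := by exact_mod_cast H864.l_pos hl
  have hN : (0 : ℝ) < N := by exact_mod_cast NeZero.pos N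
  obtain ⟨z, a1, hz0, hz1, ha, hP⟩ := hF
  have hη0 : 0 ≤ η := (abs_nonneg _).trans ha
  set ν : ℝ := t * (l : ℝ) ^ 2 with hνd
  have hν0 : 0 < ν := by positivity
  have hE0 := TM.H764.EE_nonneg k
  by_cases hk : k = 0
  · rw [hk, sym_acl_zero hl hb.le ht le_rfl]
    have h1 := TM.H764.EE_nonneg (0 : V (N / l))
    positivity
  set E : ℝ := EE k with hEd
  have hA0 := sym_acl_le (N := N) hb.le hl ht (le_refl t) k
  rw [← hνd] at hA0
  by_cases hEν : ν ≤ E
  · refine hA0.trans (hEν.trans ?_)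
    have : 1 ≤ a + 3 * η + 20 * ν := by linarith
    nlinarith
  push Not at hEν
  obtain ⟨p, hp, hpk⟩ := H864.exists_cen (N := N) hl k
  have hp0 : p ≠ 0 := by
    rintro rfl
    exact hk (by rw [← hpk, H864.rd_zero hl])
  have hEp := TM.H764.EE_nonneg p
  have hlap := lap_cen (N := N) hl hp (by rw [hpk]; linarith)
  rw [hpk, ← hEd] at hlap
  set x : ℝ := (l : ℝ) ^ 2 * EE p with hxd
  have hx0 : 0 ≤ x := by positivity
  have hx1 : x ≤ E * (1 + ν / 2) := hlap.trans (mul_le_mul_of_nonneg_left (by linarith) hE0)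
  have hx2 : x ≤ 9 / 8 * ν := by
    have : E * (1 + ν / 2) ≤ ν * (9 / 8) := mul_le_mul hEν.le (by linarith) (by positivity) hν0.le
    linarith
  have hup := PinC_up (N := N) hb hl ht hp hp0 (by rw [← hxd]; linarith)
  rw [← hxd] at hup
  have hPp := hP p hp0
  have hPp' := (abs_le.1 hPp).2
  -- `l² Pin ≤ x (a + 3η)`
  have hmin := EE_ge_min (N := N) hp0
  have hzz : (l : ℝ) ^ 2 * z ≤ η / 16 * x := by
    have h1 : z ≤ η / (N : ℝ) ^ 2 := by
      rw [le_div_iff₀ (by positivity)]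
      exact hz1
    have h2 : η / (N : ℝ) ^ 2 ≤ η / 16 * EE p := by
      have h3 := mul_le_mul_of_nonneg_left hmin (show 0 ≤ η / 16 by positivity)
      refine le_trans (le_of_eq ?_) h3
      field_simp
    have h4 := mul_le_mul_of_nonneg_left (h1.trans h2) (sq_nonneg (l : ℝ))
    refine h4.trans (le_of_eq ?_)
    rw [hxd]
    ring
  have hquad : (l : ℝ) ^ 2 * (η * EE p ^ 2 / t) ≤ 9 / 8 * η * x := by
    have e1 : (l : ℝ) ^ 2 * (η * EE p ^ 2 / t) = η * x * (x / ν) := by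
      rw [hxd, hνd]
      field_simp
    rw [e1]
    have h1 : x / ν ≤ 9 / 8 := by
      rw [div_le_iff₀ hν0]
      exact hx2
    have h2 := mul_le_mul_of_nonneg_left h1 (show 0 ≤ η * x by positivity)
    linarith
  have ha' := (abs_le.1 ha).2
  have hPin : (l : ℝ) ^ 2 * Pin N b t p ≤ x * (a + 9 / 4 * η) := by
    have h1 : Pin N b t p ≤ z + a1 * EE p + η * EE p ^ 2 / t := by linarith
    have h2 := mul_le_mul_of_nonneg_left h1 (sq_nonneg (l : ℝ))
    have e1 : (l : ℝ) ^ 2 * (z + a1 * EE p + η * EE p ^ 2 / t) =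
        (l : ℝ) ^ 2 * z + a1 * x + (l : ℝ) ^ 2 * (η * EE p ^ 2 / t) := by
      rw [hxd]
      ring
    rw [e1] at h2
    have h3 : a1 * x ≤ (a + η) * x := mul_le_mul_of_nonneg_right (by linarith) hx0
    nlinarith
  have hPin0 := H963.Pin_nonneg (N := N) hb ht hp0
  have hPC0 := H963.PinC_nonneg (N := N) hb hl ht (le_refl t) hk
  -- the cell form
  have hA : sym (acl N l b t t) k ≤ (l : ℝ) ^ 2 * PinC N l b t t k := by
    rw [sym_acl_eq hb hl ht (le_refl t) hk]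
    refine mul_le_mul_of_nonneg_left ?_ (sq_nonneg _)
    rw [div_le_iff₀ (by positivity)]
    nlinarith
  refine hA.trans ?_
  rw [hpk] at hup
  have hup2 : (l : ℝ) ^ 2 * PinC N l b t t k ≤
      (l : ℝ) ^ 2 * Pin N b t p + 2 * x * (ν + (l : ℝ) ^ 2 * Pin N b t p) := by
    have h1 : PinC N l b t t k ≤ Pin N b t p + 2 * x * (t + Pin N b t p) := by linarith
    have h2 := mul_le_mul_of_nonneg_left h1 (sq_nonneg (l : ℝ))
    refine h2.trans (le_of_eq ?_)
    rw [hνd]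
    ring
  exact hup2.trans (top_arith hη0 hη ha1 ha2 hν0 hν hE0 hx0 hx1 hx2 hPin)

/-- the quadratic form of the cell form, literal shape of the V modules -/
theorem acl_top (hb : 0 < b) (hl : l ∣ N) (ht : 0 < t) {a η : ℝ} (ha1 : 1 ≤ a) (ha2 : a ≤ 2)
    (hη : η ≤ 1) (hν : t * (l : ℝ) ^ 2 ≤ 1 / 4) (hF : FL b t a η N) (u : V (N / l) → ℝ) :
    (acl N l b t t *ᵥ u) ⬝ᵥ u ≤ (a + 3 * η + 20 * (t * (l : ℝ) ^ 2)) * dirE u := by
  have ht1 := ti_acl (N := N) hb.le hl ht (le_refl t)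
  have ht2 : TI ((a + 3 * η + 20 * (t * (l : ℝ) ^ 2)) • (lapM : Matrix (V (N / l)) (V (N / l)) ℝ)) :=
    H864.ti_lapM.smul _
  have h1 := (H864.qf_le_iff ht1 ht2).2 (fun k => by
    rw [H864.sym_smul, H864.sym_lapM]
    exact sym_acl_top hb hl ht ha1 ha2 hη hν hF k) u
  have e : grd u = dirE u := by
    unfold TM.H764.grd TM.H859.dirE TM.H764.Q
    rw [Finset.sum_add_distrib]
  rw [H864.qf_smul_mat, H864.qf_lapM, e] at h1
  rw [dotProduct_comm, ← H37.qf_eq]
  exact h1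

/-- signs of the entries of the cell form at the scalar mass -/
theorem acl_off (hb : 0 ≤ b) (hl : l ∣ N) (ht : 0 < t) {x y : V (N / l)} (hxy : x ≠ y) :
    acl N l b t t x y ≤ 0 := by
  have hlp : (0 : ℝ) < l := by exact_mod_cast H864.l_pos hl
  have h1 := H767.Sk_nonneg (N := N) hb hl ht x y
  unfold Vale.Agent.P159.H767.Sk at h1
  rw [Matrix.sub_apply, Matrix.one_apply_ne hxy, Matrix.smul_apply, smul_eq_mul, zero_sub] at h1
  have h2 : 0 < (t * (l : ℝ) ^ 2)⁻¹ := by positivity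
  by_contra hcon
  push Not at hcon
  have := mul_pos h2 hcon
  linarith

end tor

end

end Vale.Agent.P159.H375
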