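import Vale.Agent.P159.H375.Hs4
import Vale.Agent.P159.H889.Vpd
import Vale.Agent.P159.H816.Rf2

/-!
P159 / H375: (P4) complete: `BdH` of helper889's `Vpd` from helper816's strong typical sources and
helper340's upper bound of the profile.
-/

set_option linter.unusedSectionVars false

namespace Vale.Agent.P159.H375

open Vale.Agent.P159
open Vale.Agent.P159.H239 (TypE)
open Vale.Agent.P159.H972 (tn Par GP Good FL)
open Vale.Agent.P159.H801 (Ev PS)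
open Vale.Agent.P159.H889 (EvC BdH)

noncomputable section

/-- a stretched exponential beats every power -/
lemma exp_small {κ : ℝ} (hκ : 0 < κ) : ∃ E0 : ℝ, 0 < E0 ∧ ∀ e : ℝ, 0 < e → e ≤ E0 →
    Real.exp (-(e ^ (-κ))) ≤ e ^ (19 / 20 : ℝ) := by
  obtain ⟨k, hk⟩ := exists_nat_ge (2 / κ)
  have hk2 : 2 ≤ κ * k := by
    rw [div_le_iff₀ hκ] at hk
    linarith
  have hf : (0 : ℝ) < k.factorial := by exact_mod_cast Nat.factorial_pos _
  have hf1 : (1 : ℝ) ≤ k.factorial := by exact_mod_cast Nat.factorial_pos _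
  refine ⟨1 / k.factorial, by positivity, fun e he hE => ?_⟩
  have he1 : e ≤ 1 := hE.trans ((div_le_one hf).2 hf1)
  have hx : 0 < e ^ (-κ) := Real.rpow_pos_of_pos he _
  have h1 := Real.pow_div_factorial_le_exp (e ^ (-κ)) hx.le k
  have h2 : Real.exp (-(e ^ (-κ))) ≤ k.factorial * e ^ (κ * k) := by
    rw [Real.exp_neg]
    have h3 : (e ^ (-κ)) ^ k = (e ^ (κ * k))⁻¹ := by
      rw [← Real.rpow_natCast, ← Real.rpow_mul he.le, neg_mul, Real.rpow_neg he.le]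
    rw [h3] at h1
    have h4 : 0 < (e ^ (κ * k))⁻¹ / k.factorial := by positivity
    refine (inv_anti₀ h4 h1).trans (le_of_eq ?_)
    field_simp
  have h5 : e ^ (κ * k) ≤ e ^ (2 : ℝ) := hs_pow he he1 hk2
  have h6 : e ^ (2 : ℝ) = e ^ (21 / 20 : ℝ) * e ^ (19 / 20 : ℝ) := by
    rw [← Real.rpow_add he]
    norm_num
  have h7 : k.factorial * e ^ (21 / 20 : ℝ) ≤ 1 := by
    have h8 : e ^ (21 / 20 : ℝ) ≤ e := by
      have := hs_pow (a := 1) (c := 21 / 20) he he1 (by norm_num)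
      rwa [Real.rpow_one] at this
    have h9 : e ^ (21 / 20 : ℝ) ≤ 1 / k.factorial := h8.trans hE
    rw [le_div_iff₀ hf] at h9
    linarith
  calc Real.exp (-(e ^ (-κ))) ≤ k.factorial * e ^ (κ * k) := h2
    _ ≤ k.factorial * (e ^ (21 / 20 : ℝ) * e ^ (19 / 20 : ℝ)) := by
        rw [← h6]
        gcongr
    _ = (k.factorial * e ^ (21 / 20 : ℝ)) * e ^ (19 / 20 : ℝ) := by ring
    _ ≤ 1 * e ^ (19 / 20 : ℝ) := by gcongr
    _ = e ^ (19 / 20 : ℝ) := one_mul _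

/-- **the strong typical sources in the form `TyQ`** -/
theorem tyQ_ev {b b1 b2 pf : ℝ} (hb1 : 0 < b1) (h1 : b1 ≤ b) (hpf : 0 < pf) (Q : ℕ) :
    Ev b1 b2 pf Q fun P c1 => TyQ P b c1 := by
  have hrf := H816.ev_rf (b := b) (b1 := b1) (b2 := b2) hb1 h1 hpf Q (σ := 1 / 20) (by norm_num)
  have hE : Ev b1 b2 pf Q fun P _ => ∀ e : ℝ, 0 < e → e ≤ P.es →
      Real.exp (-(e ^ (-(P.th / 40)))) ≤ e ^ (19 / 20 : ℝ) := by
    refine H801.Ev.of ?_
    refine ⟨0, fun W _ => ⟨1, one_pos, fun ys _ _ => ⟨0, fun X0 _ => ⟨1, one_pos,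
      fun x1 _ _ => ⟨1, one_pos, fun thp _ _ => ⟨1, one_pos, fun th hth _ => ⟨1,
      fun C0 _ => ⟨1, one_pos, fun c1 _ _ => ?_⟩⟩⟩⟩⟩⟩⟩⟩
    obtain ⟨E0, hE0, h⟩ := exp_small (show 0 < th / 40 by positivity)
    refine ⟨E0, hE0, fun P hP e he hes => ?_⟩
    rw [hP.eth]
    exact h e he (hes.trans hP.ees)
  refine (hrf.and hE).mono ?_
  rintro P c1 - ⟨h2, h3⟩
  intro n e a he hes hG ha1 ha2 hfl s hs hns hdep r hr a' ha' ha'' _
  obtain ⟨τ, a0, hτ1, hτ2, hGP⟩ := hG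
  have h4 := h2 n e τ a0 he hes hτ1 hτ2 (hGP e le_rfl hes) a ha1 ha2 r hr (hfl r hr) s hs hns hdep
    a' ha' ha''
  have e1 : (1 - 1 / 20 : ℝ) = 19 / 20 := by norm_num
  rw [e1] at h4
  unfold TypE at h4 ⊢
  exact h4.trans (h3 e he hes)

/-- **(P4), complete** -/
theorem bdH_ev {b b1 b2 pf : ℝ} (hb1 : 0 < b1) (h1 : b1 ≤ b) (hpf : 0 < pf)
    (hh : 0 < helicity b) (hs : 1 / helicity b < 5 / 2) (Q : ℕ) {K : ℝ} (hK : 0 < K) :
    EvC b1 b2 pf Q K (BdH b) := by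
  have hb : 0 < b := hb1.trans_le h1
  refine H801.Ev.mono (pcH_ev hb hh hs hK (tyQ_ev (b2 := b2) hb1 h1 hpf Q)) ?_
  intro P c1 _ h C1 _ h2 h3
  exact h C1 h2 h3

/-- **(P4) for `2 / π`** -/
theorem bdH_crit {b b1 b2 pf : ℝ} (hb1 : 0 < b1) (h1 : b1 ≤ b) (hpf : 0 < pf)
    (hY : helicity b = 2 / Real.pi) (Q : ℕ) {K : ℝ} (hK : 0 < K) :
    EvC b1 b2 pf Q K (BdH b) := by
  refine bdH_ev hb1 h1 hpf ?_ ?_ Q hK
  · rw [hY]
    positivity
  · rw [hY, one_div_div]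
    have := Real.pi_lt_d2
    linarith

end

end Vale.Agent.P159.H375
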