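import Vale.Agent.P159.H375.Site
import Vale.Agent.P159.H864.Cel1
import Vale.Agent.P159.H789.Bridge
import Vale.Agent.P159.H612.Local4
import Mathlib.Analysis.Matrix.Order

/-!
P159, module FINE, part 2: UV1 and FINE in the letters of `H37/Spec0`.
-/

open Finset Matrix

namespace Vale.Agent.P159.H375

open Vale.Agent.P159.TM
open Vale.Agent.P159.TM.H22 (SG Gle lin)
open Vale.Agent.P159.TM.SpecI
open Vale.Agent.P159.TM.H574
open Vale.Agent.P159.TM.H104 (EM Ex Cv li)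
open Vale.Agent.P159.TM.SpecC (wT)
open Vale.Agent.P159.H353 (wI wI_nonneg wI_neg wI_zero_pos)
open Vale.Agent.P159.H37 (qf bf re wM Gm cob cellP Ev)

section dict

variable {N : ℕ} [NeZero N] {b : ℝ}

/-- a mass matrix as a mass form -/
noncomputable def mf (M : Matrix (V N) (V N) ℝ) (h : V N → ℤ) : ℝ := qf M (re h)

theorem wt_mf (b : ℝ) (M : Matrix (V N) (V N) ℝ) (h : V N → ℤ) :
    SpecI.wt b univ ∅ (mf M) h = wM (wT b N) M h := by
  unfold SpecI.wt mf wM wT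
  simp only [Finset.notMem_empty, false_implies, implies_true, if_true, one_mul]
  have h1 := Fintype.prod_prod_type
    (fun e : V N × Bool => wI b (h (SpecI.tgt e) - h e.1))
  have h2 : ∏ e : V N × Bool, wI b (h (SpecI.tgt e) - h e.1) =
      ∏ x : V N, (wI b (h (x + (1, 0)) - h x) * wI b (h (x + (0, 1)) - h x)) := by
    refine h1.trans (Finset.prod_congr rfl fun x _ => ?_)
    rw [Fintype.prod_bool, mul_comm]
    have e1 : SpecI.tgt (x, false) = x + (1, 0) := by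
      unfold SpecI.tgt
      ext <;> simp
    have e2 : SpecI.tgt (x, true) = x + (0, 1) := by
      unfold SpecI.tgt
      ext <;> simp
    rw [e1, e2]
  rw [h2, neg_div]

/-- **dictionary** -/
theorem ex_mf (b : ℝ) (M : Matrix (V N) (V N) ℝ) (F : (V N → ℤ) → ℝ) :
    SpecI.ex b univ ∅ (mf M) F = Ex (wM (wT b N) M) 0 F := by
  unfold SpecI.ex Ex H104.T
  simp only [wt_mf, H104.li_zero, Real.exp_zero, mul_one, one_mul]
  congr 1
  exact tsum_congr fun h => by ring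

lemma mf_sum (M : Matrix (V N) (V N) ℝ) (h : V N → ℤ) : mf M h = qf M (re h) := rfl

lemma full_eq (t : ℝ) (h : V N → ℤ) : full t h = t * ∑ x, re h x ^ 2 := rfl

/-- symmetric with nonnegative form -/
lemma psd_of {M : Matrix (V N) (V N) ℝ} (hM : Mᵀ = M) (h : ∀ u, 0 ≤ qf M u) : M.PosSemidef := by
  refine Matrix.PosSemidef.of_dotProduct_mulVec_nonneg ?_ fun u => ?_
  · unfold Matrix.IsHermitian
    rw [Matrix.conjTranspose_eq_transpose_of_trivial, hM]
  · have := h u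
    rw [H37.qf_eq] at this
    simpa using this

open scoped MatrixOrder Matrix.Norms.L2Operator in
lemma sq_mf {M : Matrix (V N) (V N) ℝ} (hM : Mᵀ = M) (h : ∀ u, 0 ≤ qf M u) : SQ (mf M) := by
  obtain ⟨B, hB⟩ := CStarAlgebra.nonneg_iff_eq_star_mul_self.mp (psd_of hM h).nonneg
  rw [Matrix.star_eq_conjTranspose, Matrix.conjTranspose_eq_transpose_of_trivial] at hB
  refine (SQ.sum (U := V N) (ι := V N) univ (v := fun _ => 1)
    (fun _ _ => zero_le_one) (fun i => B i)).congr fun k => ?_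
  rw [mf_sum, hB, H37.qf_gram]
  refine sum_congr rfl fun i _ => ?_
  rw [one_mul]
  rfl

/-- two mass matrices `λ ≤ M₀ ≤ M ≤ t` -/
structure MasM (t l : ℝ) (M₀ M : Matrix (V N) (V N) ℝ) : Prop where
  s0 : M₀ᵀ = M₀
  s1 : Mᵀ = M
  lo : ∀ u, l * ∑ x, u x ^ 2 ≤ qf M₀ u
  mid : ∀ u, qf M₀ u ≤ qf M u
  up : ∀ u, qf M u ≤ t * ∑ x, u x ^ 2

lemma MasM.mas {t l : ℝ} (hl : 0 < l) {M₀ M : Matrix (V N) (V N) ℝ} (h : MasM t l M₀ M) :
    Mas t (mf M₀) (mf M) where
  sq0 := sq_mf h.s0 fun u => le_trans (by positivity) (h.lo u)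
  co0 := coe_of_full hl fun k => h.lo (re k)
  dif := ⟨mf (M - M₀), sq_mf (by rw [Matrix.transpose_sub, h.s0, h.s1]) fun u => by
    have := h.mid u
    rw [H864.qf_sub_mat]
    linarith, fun k => by
    rw [mf_sum, mf_sum, mf_sum, H864.qf_sub_mat]
    ring⟩
  top := ⟨mf (t • 1 - M), sq_mf (by
      rw [Matrix.transpose_sub, h.s1, Matrix.transpose_smul, Matrix.transpose_one]) fun u => by
    have := h.up u
    rw [H864.qf_sub_mat, H37.qf_smul_one]
    linarith, fun k => by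
    rw [mf_sum, mf_sum, H864.qf_sub_mat, H37.qf_smul_one, full_eq]
    ring⟩

/-- first moments vanish -/
lemma Ex_li_zero {μ : (V N → ℤ) → ℝ} (hμ : Ev μ) (u : V N → ℝ) : Ex μ 0 (li u) = 0 := by
  have h1 : H104.T μ 0 (li u) = -H104.T μ 0 (li u) := by
    unfold H104.T
    rw [← tsum_neg, ← (Equiv.neg (V N → ℤ)).tsum_eq]
    refine tsum_congr fun h => ?_
    simp only [Equiv.neg_apply, H104.li_zero]
    have e : li u (-h) = -li u h := by
      unfold li
      rw [← sum_neg_distrib]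
      refine sum_congr rfl fun x _ => ?_
      rw [Pi.neg_apply]
      push_cast
      ring
    rw [e, hμ h]
    ring
  have h2 : H104.T μ 0 (li u) = 0 := by linarith
  unfold Ex
  rw [h2, zero_div]

lemma qf_Gm_ex (hb : 0 ≤ b) {l : ℝ} (hl : 0 < l) {M : Matrix (V N) (V N) ℝ}
    (hM : ∀ u, l * ∑ x, u x ^ 2 ≤ qf M u) (u : V N → ℝ) :
    qf (Gm (wM (wT b N) M)) u = SpecI.ex b univ ∅ (mf M) (fun h => pr u h ^ 2) := by
  have hE : EM (wM (wT b N) M) := H864.em_wTM hb hl hM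
  have hev : Ev (wM (wT b N) M) := H864.ev_wTM M
  rw [H789.qf_Gm hE, ex_mf]
  unfold Cv
  rw [Ex_li_zero hev, mul_zero, sub_zero]
  congr 1
  funext h
  exact (pow_two (li u h)).symm

end dict

variable {b : ℝ}

/-- **(F0)** UV1 for matrices: `u` neutral at scale `r` -/
theorem uv1_M (hb : 0 ≤ b) : ∃ C c : ℝ, 0 < C ∧ 0 < c ∧
    ∀ (N : ℕ) [NeZero N] (t : ℝ), 0 < t → 9 ≤ t * (N : ℝ) ^ 2 →
    ∀ r : ℕ, 2 ≤ r → t * (r : ℝ) ^ 2 ≤ 1 →
    ∀ (y : V N) (u : V N → ℝ), ∑ x, u x = 0 → (∀ x, x ∉ H375.sq y r → u x = 0) →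
      (∀ x, |u x| ≤ 1 / (r : ℝ) ^ 2) →
    ∀ (l : ℝ) (M₀ M : Matrix (V N) (V N) ℝ), 0 < l → MasM t l M₀ M →
      0 ≤ qf (Gm (wM (wT b N) M₀)) u - qf (Gm (wM (wT b N) M)) u ∧
      qf (Gm (wM (wT b N) M₀)) u - qf (Gm (wM (wT b N) M)) u ≤ C * (t * (r : ℝ) ^ 2) ^ c := by
  obtain ⟨C, c, hC, hc, hU⟩ := uv1 (b := b) hb
  refine ⟨C, c, hC, hc, ?_⟩
  intro N _ t ht htN r hr htr y u hu hus hub l M₀ M hl hM
  have hm := hM.mas hl
  rw [qf_Gm_ex hb hl hM.lo, qf_Gm_ex hb hl fun v => (hM.lo v).trans (hM.mid v)]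
  refine ⟨Dm_nonneg hb hm u, ?_⟩
  obtain ⟨R, hR, he⟩ := hm.top
  exact hU N t ht htN r hr htr y u hu hus hub _ _ R hm.sq0 hm.co0 hm.sq1 hm.co1 hR he

/-- the fine energy in the letters of `Spec0` -/
theorem Qf_eq {N : ℕ} [NeZero N] {l : ℕ} (hl : l ∣ N) (h : V N → ℤ) :
    Qf l h = qf (1 - cellP N l) (re h) := by
  have hl0 : 0 < l := Nat.pos_of_dvd_of_pos hl (NeZero.pos N)
  obtain ⟨d, hd⟩ := hl
  have hNl : N / l = d := by rw [hd]; exact Nat.mul_div_cancel_left d hl0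
  have hN0 : N ≠ 0 := NeZero.ne N
  have : NeZero (N / l) := ⟨by
    rw [hNl]
    intro h0
    rw [h0, mul_zero] at hd
    exact hN0 hd⟩
  have hl' : l ∣ N := ⟨d, hd⟩
  rw [H864.qf_one_sub_cellP hl']
  unfold Qf
  refine sum_congr rfl fun x _ => ?_
  congr 1
  have l1 := ZMod.val_lt x.1
  have l2 := ZMod.val_lt x.2
  have hdiv : ∀ v : ℕ, v < N → v / l * l + l ≤ N := by
    intro v hv
    have h1 : v / l < d := by
      rw [Nat.div_lt_iff_lt_mul hl0]
      rw [mul_comm, ← hd]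
      exact hv
    calc v / l * l + l = (v / l + 1) * l := by ring
      _ ≤ d * l := Nat.mul_le_mul_right l h1
      _ = N := by rw [hd, mul_comm]
  have e : SpecI.avg l (x.1.val / l, x.2.val / l) h = (cellP N l *ᵥ re h) x := by
    rw [H864.cellP_mulVec hl', ← pr_avs_cell]
    unfold pr
    rw [mul_sum, sum_filter]
    refine sum_congr rfl fun y _ => ?_
    rw [avs_eq (hdiv _ l1) (hdiv _ l2)]
    have hiff : y ∈ bx (x.1.val / l * l, x.2.val / l * l) l ↔
        (H864.cl y : V (N / l)) = H864.cl x := by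
      rw [mem_bx, Prod.ext_iff]
      have c1 : ((H864.cl y : V (N / l)).1 = (H864.cl x : V (N / l)).1) ↔
          y.1.val / l = x.1.val / l := by
        have a1 : (H864.cl y : V (N / l)).1 = H864.cl1 y.1 := rfl
        have a2 : (H864.cl x : V (N / l)).1 = H864.cl1 x.1 := rfl
        rw [a1, a2, ← H864.cl1_val hl' y.1, ← H864.cl1_val hl' x.1]
        exact ⟨fun h => congrArg ZMod.val h, fun h => ZMod.val_injective _ h⟩
      have c2 : ((H864.cl y : V (N / l)).2 = (H864.cl x : V (N / l)).2) ↔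
          y.2.val / l = x.2.val / l := by
        have a1 : (H864.cl y : V (N / l)).2 = H864.cl1 y.2 := rfl
        have a2 : (H864.cl x : V (N / l)).2 = H864.cl1 x.2 := rfl
        rw [a1, a2, ← H864.cl1_val hl' y.2, ← H864.cl1_val hl' x.2]
        exact ⟨fun h => congrArg ZMod.val h, fun h => ZMod.val_injective _ h⟩
      rw [c1, c2]
      simp only
      constructor
      · rintro ⟨h1, h2, h3, h4⟩
        constructor
        · exact Nat.div_eq_of_lt_le h1 (by rw [add_mul, one_mul]; exact h2)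
        · exact Nat.div_eq_of_lt_le h3 (by rw [add_mul, one_mul]; exact h4)
      · rintro ⟨h1, h2⟩
        rw [← h1, ← h2]
        exact ⟨Nat.div_mul_le_self _ _, Nat.lt_div_mul_add hl0, Nat.div_mul_le_self _ _,
          Nat.lt_div_mul_add hl0⟩
    by_cases hy : y ∈ bx (x.1.val / l * l, x.2.val / l * l) l
    · rw [if_pos hy, if_pos (hiff.1 hy), one_div]
      rfl
    · rw [if_neg hy, if_neg fun h => hy (hiff.2 h), zero_mul]
  rw [e]
  rfl

/-- **(F1)** the fine energy -/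
theorem fine_M (hb : 0 ≤ b) : ∃ C c : ℝ, 0 < C ∧ 0 < c ∧
    ∀ (N : ℕ) [NeZero N] (t : ℝ), 0 < t → 9 ≤ t * (N : ℝ) ^ 2 →
    ∀ l : ℕ, l ∣ N → t * (l : ℝ) ^ 2 ≤ 1 →
    ∀ (a : ℝ) (M₀ M : Matrix (V N) (V N) ℝ), 0 < a → MasM t a M₀ M →
      0 ≤ Ex (wM (wT b N) M₀) 0 (fun h => qf (1 - cellP N l) (re h)) -
        Ex (wM (wT b N) M) 0 (fun h => qf (1 - cellP N l) (re h)) ∧
      Ex (wM (wT b N) M₀) 0 (fun h => qf (1 - cellP N l) (re h)) -
        Ex (wM (wT b N) M) 0 (fun h => qf (1 - cellP N l) (re h)) ≤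
        C * (N : ℝ) ^ 2 * (t * (l : ℝ) ^ 2) ^ c := by
  obtain ⟨C, c, hC, hc, hU⟩ := fine_energy (b := b) hb
  refine ⟨C, c, hC, hc, ?_⟩
  intro N _ t ht htN l hl htl a M₀ M ha hM
  have e : (fun h : V N → ℤ => qf (1 - cellP N l) (re h)) = Qf l := by
    funext h
    rw [Qf_eq hl]
  rw [e, ← ex_mf, ← ex_mf]
  exact hU N t ht htN l (Nat.pos_of_dvd_of_pos hl (NeZero.pos N)) hl htl _ _ (hM.mas ha)

/-! ### one step of the mass path on the torus -/

theorem stepT (hb : 0 ≤ b) {N : ℕ} [NeZero N] {M Q : (V N → ℤ) → ℝ}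
    (hM : SQ M) (hc : Coe univ ∅ M) (hQ : SQ Q) {φ : V N → ℝ} {C D : ℝ} (hC0 : 0 ≤ C)
    (hC : ∀ t : ℝ, 0 ≤ t → t ≤ 1 → ex b univ ∅ (fun h => M h + t * Q h)
      (fun h => pr φ h ^ 4) ≤ C)
    (hD : ex b univ ∅ M Q - ex b univ ∅ (fun h => M h + Q h) Q ≤ D) :
    ex b univ ∅ M (fun h => pr φ h ^ 2) -
      ex b univ ∅ (fun h => M h + Q h) (fun h => pr φ h ^ 2) ≤ √C * √(D / 2) := by
  classical
  have sg : SG (wt b univ ∅ M) := sg_wt hb hM.nonneg hM.even hc
  have gQ := hQ.gr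
  have hs : Summable (wt b univ ∅ M) :=
    (sg.sum (H22.Gr.const (1 : ℝ))).congr fun h => mul_one _
  have h0 : ∃ x, 0 < wt b univ ∅ M x := ⟨0, wt_zero_pos hb _ _ _⟩
  have g2 : H22.Gr fun h : V N → ℤ => pr φ h ^ 2 := gr_sq φ
  have hF : Summable fun h => wt b univ ∅ M h * (pr φ h ^ 2) ^ 2 :=
    (sg.sum (g2.mul g2)).congr fun h => by ring
  have hQ2 : Summable fun h => wt b univ ∅ M h * (Q h) ^ 2 :=
    (sg.sum (gQ.mul gQ)).congr fun h => by ring
  have hE : ∀ (F : (V N → ℤ) → ℝ) (t : ℝ), Et (wt b univ ∅ M) Q F t =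
      ex b univ ∅ (fun h => M h + t * Q h) F := by
    intro F t
    have e : ∀ h, wt b univ ∅ (fun h => M h + t * Q h) h =
        wt b univ ∅ M h * Real.exp (-(t / 2) * Q h) := by
      intro h
      unfold wt
      rw [show -(M h + t * Q h) / 2 = -(M h) / 2 + -(t / 2) * Q h by ring, Real.exp_add]
      ring
    unfold Et At ex
    congr 1
    · exact tsum_congr fun h => by rw [e]; ring
    · exact tsum_congr fun h => by rw [e]; ring
  have h1 := path (w := wt b univ ∅ M) (Q := Q)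
    (F := fun h => pr φ h ^ 2) (S := √C) sg.nonneg hQ.nonneg hs h0 hF hQ2
    (Real.sqrt_nonneg C) (by
      intro t ht
      rw [Real.sq_sqrt hC0]
      unfold Ct
      have h2 := hC t ht.1 ht.2
      have e1 : Et (wt b univ ∅ M) Q (fun x => pr φ x ^ 2 * pr φ x ^ 2) t =
          ex b univ ∅ (fun h => M h + t * Q h) (fun h => pr φ h ^ 4) := by
        rw [hE]
        congr 1
        funext h
        ring
      rw [e1]
      have := mul_self_nonneg (Et (wt b univ ∅ M) Q (fun h => pr φ h ^ 2) t)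
      linarith)
  have e0 : ∀ F : (V N → ℤ) → ℝ, Et (wt b univ ∅ M) Q F 0 = ex b univ ∅ M F := by
    intro F
    rw [hE]
    congr 1
    funext h
    ring
  have e1 : ∀ F : (V N → ℤ) → ℝ, Et (wt b univ ∅ M) Q F 1 =
      ex b univ ∅ (fun h => M h + Q h) F := by
    intro F
    rw [hE]
    congr 1
    funext h
    ring
  rw [e0, e1, e0, e1] at h1
  refine (le_abs_self _).trans (h1.trans ?_)
  refine mul_le_mul_of_nonneg_left (Real.sqrt_le_sqrt ?_) (Real.sqrt_nonneg C)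
  linarith

/-- sub-Gaussian bound for every mass form `≥ τ` -/
theorem cosh_le (hb : 0 ≤ b) {N : ℕ} [NeZero N] {τ : ℝ} (hτ : 0 < τ) {M R : (V N → ℤ) → ℝ}
    (hR : SQ R) (hM : ∀ h, full τ h + R h = M h) (φ : V N → ℝ) :
    ex b univ ∅ M (fun h => Real.cosh (pr φ h)) ≤ Real.exp ((∑ x, φ x ^ 2) / (2 * τ)) := by
  classical
  have e1 : (full τ : (V N → ℤ) → ℝ) = mf (τ • (1 : Matrix (V N) (V N) ℝ)) := by
    funext h
    rw [mf_sum, H37.qf_smul_one, full_eq]
  have sqf : SQ (full τ : (V N → ℤ) → ℝ) := by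
    rw [e1]
    refine sq_mf (by rw [Matrix.transpose_smul, Matrix.transpose_one]) fun u => ?_
    rw [H37.qf_smul_one]
    positivity
  have cof : Coe univ ∅ (full τ : (V N → ℤ) → ℝ) := coe_of_full hτ fun h => le_rfl
  have h1 := ex_mono (es := univ) (es' := univ) (X := ∅) (X' := ∅) (Q := full τ)
      (R := R) hb subset_rfl subset_rfl sqf hR cof (inc_cosh φ)
  have e2 : (fun h => full τ h + R h) = M := funext hM
  rw [e2] at h1
  refine le_trans h1 ?_
  have hS := H612.subG_wt (N := N) hb hτ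
  have hE : EM (wM (wT b N) (τ • (1 : Matrix (V N) (V N) ℝ))) :=
    H864.em_wTM hb hτ fun u => by rw [H37.qf_smul_one]
  have e3 : ex b univ ∅ (full τ) (fun h : V N → ℤ => Real.cosh (lin φ h)) =
      1 / 2 * (Ex (H37.wt N b τ) 0 (fun h => Real.exp (li φ h)) +
        Ex (H37.wt N b τ) 0 (fun h => Real.exp (li (-φ) h))) := by
    rw [e1, ex_mf]
    have g1 : H104.Gr fun h : V N → ℤ => Real.exp (li φ h) := H104.Gr.exp_li φ
    have g2 : H104.Gr fun h : V N → ℤ => Real.exp (li (-φ) h) := H104.Gr.exp_li (-φ)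
    unfold H37.wt
    rw [← H104.Ex_add hE g1 g2, ← H104.Ex_cmul]
    congr 1
    funext h
    rw [Real.cosh_eq]
    have : li (-φ) h = -lin φ h := by
      unfold li lin
      rw [← sum_neg_distrib]
      exact sum_congr rfl fun x _ => by rw [Pi.neg_apply]; ring
    rw [this]
    have e4 : li φ h = lin φ h := rfl
    rw [e4]
    ring
  rw [e3]
  have k1 := hS φ
  have k2 := hS (-φ)
  have e5 : ∑ x, (-φ) x ^ 2 = ∑ x, φ x ^ 2 := sum_congr rfl fun x _ => by
    rw [Pi.neg_apply, neg_sq]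
  rw [e5] at k2
  linarith

/-- fourth moments for every mass form `≥ τ` -/
theorem mom4_le (hb : 0 ≤ b) {N : ℕ} [NeZero N] {τ : ℝ} (hτ : 0 < τ) {M R : (V N → ℤ) → ℝ}
    (hR : SQ R) (hM : ∀ h, full τ h + R h = M h) (φ : V N → ℝ) :
    ex b univ ∅ M (fun h => pr φ h ^ 4) ≤ 48 * ((∑ x, φ x ^ 2) / τ) ^ 2 := by
  classical
  set S : ℝ := ∑ x, φ x ^ 2 with hS
  have hS0 : 0 ≤ S := sum_nonneg fun x _ => sq_nonneg _
  rcases hS0.eq_or_lt with h0 | h0
  · have hz : ∀ x, φ x = 0 := by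
      intro x
      have := (sum_eq_zero_iff_of_nonneg fun x _ => sq_nonneg (φ x)).1 h0.symm x (mem_univ x)
      exact pow_eq_zero_iff (by norm_num) |>.1 this
    have : ∀ h : V N → ℤ, pr φ h ^ 4 = 0 := by
      intro h
      have : pr φ h = 0 := by
        unfold pr
        exact sum_eq_zero fun x _ => by rw [hz x, zero_mul]
      rw [this]
      norm_num
    simp only [this]
    have e : ex b univ ∅ M (fun _ : V N → ℤ => (0 : ℝ)) = 0 := by
      unfold ex
      simp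
    rw [e]
    positivity
  · -- scaling
    have sqf : SQ (full τ : (V N → ℤ) → ℝ) := by
      have e1 : (full τ : (V N → ℤ) → ℝ) = mf (τ • (1 : Matrix (V N) (V N) ℝ)) := by
        funext h
        rw [mf_sum, H37.qf_smul_one, full_eq]
      rw [e1]
      refine sq_mf (by rw [Matrix.transpose_smul, Matrix.transpose_one]) fun u => ?_
      rw [H37.qf_smul_one]
      positivity
    have sqM : SQ M := (sqf.add hR).congr fun k => (hM k).symm
    have coM : Coe univ ∅ M := coe_of_full hτ fun h => by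
      have := hR.nonneg h
      rw [← hM]
      linarith
    have sg : SG (wt b univ ∅ M) := sg_wt hb sqM.nonneg sqM.even coM
    set s : ℝ := √(τ / S) with hs
    have hs0 : 0 < s := Real.sqrt_pos.2 (by positivity)
    have hs2 : s ^ 2 = τ / S := Real.sq_sqrt (by positivity)
    have h1 := cosh_le hb hτ hR hM fun x => s * φ x
    have e1 : (∑ x, (s * φ x) ^ 2) / (2 * τ) = 1 / 2 := by
      have : ∑ x, (s * φ x) ^ 2 = s ^ 2 * S := by
        rw [hS, mul_sum]
        exact sum_congr rfl fun x _ => by ring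
      rw [this, hs2]
      field_simp
    rw [e1] at h1
    have e2 : ∀ h : V N → ℤ, pr (fun x => s * φ x) h = s * pr φ h := by
      intro h
      unfold pr
      rw [mul_sum]
      exact sum_congr rfl fun x _ => by ring
    simp only [e2] at h1
    have gc : H22.Gr fun h : V N → ℤ => Real.cosh (s * pr φ h) := by
      have := H22.Gr.cosh (V := V N) fun x => s * φ x
      refine this.mono fun h => ?_
      have e4 : lin (fun x => s * φ x) h = s * pr φ h := e2 h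
      rw [e4]
    have h2 : ex b univ ∅ M (fun h => pr φ h ^ 4) ≤
        ex b univ ∅ M (fun h => 24 / s ^ 4 * Real.cosh (s * pr φ h)) := by
      refine ex_le hb sg (gr_pow4 φ) (gc.const_mul _) fun h _ => ?_
      have h3 := pow4_le_cosh (s * pr φ h)
      rw [mul_pow] at h3
      rw [div_mul_eq_mul_div, le_div_iff₀ (by positivity)]
      linarith
    rw [ex_smul] at h2
    have h3 : Real.exp (1 / 2) ≤ 2 := by
      have h4 : Real.exp (1 / 2) ^ 2 ≤ 2 ^ 2 := by
        rw [← Real.exp_nat_mul]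
        have : Real.exp 1 < 2.7182818286 := Real.exp_one_lt_d9
        norm_num
        linarith
      exact (pow_le_pow_iff_left₀ (Real.exp_pos _).le (by norm_num) (by norm_num)).1 h4
    have h4 : 24 / s ^ 4 = 24 * (S / τ) ^ 2 := by
      have : s ^ 4 = (s ^ 2) ^ 2 := by ring
      rw [this, hs2]
      field_simp
    rw [h4] at h2
    have h5 : 0 ≤ 24 * (S / τ) ^ 2 := by positivity
    have h6 := mul_le_mul_of_nonneg_left (h1.trans h3) h5
    linarith

/-- **(F2)** switching a fine mass -/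
theorem fine_G (hb : 0 ≤ b) : ∃ C c : ℝ, 0 < C ∧ 0 < c ∧
    ∀ (N : ℕ) [NeZero N] (t : ℝ), 0 < t → 9 ≤ t * (N : ℝ) ^ 2 →
    ∀ l : ℕ, l ∣ N → t * (l : ℝ) ^ 2 ≤ 1 →
    ∀ (a s : ℝ) (M₀ M : Matrix (V N) (V N) ℝ), 0 < a → 0 ≤ s → s ≤ t →
      M = M₀ + s • (1 - cellP N l) → MasM t a M₀ M → ∀ u : V N → ℝ,
      0 ≤ qf (Gm (wM (wT b N) M₀)) u - qf (Gm (wM (wT b N) M)) u ∧
      qf (Gm (wM (wT b N) M₀)) u - qf (Gm (wM (wT b N) M)) u ≤
        C * ((∑ x, u x ^ 2) / a) * √(t * (N : ℝ) ^ 2) * (t * (l : ℝ) ^ 2) ^ c := by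
  obtain ⟨C, c, hC, hc, hU⟩ := fine_energy (b := b) hb
  refine ⟨√48 * √(C / 2), c / 2, by positivity, by positivity, ?_⟩
  intro N _ t ht htN l hl htl a s M₀ M ha hs hst hMs hM u
  have hm := hM.mas ha
  rw [qf_Gm_ex hb ha hM.lo, qf_Gm_ex hb ha fun v => (hM.lo v).trans (hM.mid v)]
  refine ⟨Dm_nonneg hb hm u, ?_⟩
  have hl0 : 0 < l := Nat.pos_of_dvd_of_pos hl (NeZero.pos N)
  have hl1 : (0 : ℝ) < l := by exact_mod_cast hl0
  have hF := hU N t ht htN l hl0 hl htl _ _ hm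
  have e1 : mf M = fun h => mf M₀ h + s * Qf l h := by
    funext h
    rw [mf_sum, mf_sum, hMs, H37.qf_add_mat, Qf_eq hl]
    congr 1
    rw [H864.qf_smul_mat]
  have sQ : SQ fun h : V N → ℤ => s * Qf l h := (sq_Qf l).smul hs
  have h4 : ∀ v : ℝ, 0 ≤ v → v ≤ 1 → ex b univ ∅ (fun h => mf M₀ h + v * (s * Qf l h))
      (fun h => pr u h ^ 4) ≤ 48 * ((∑ x, u x ^ 2) / a) ^ 2 := by
    intro v hv _
    refine mom4_le hb ha (R := fun h => mf (M₀ - a • 1) h + v * (s * Qf l h)) ?_ ?_ u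
    · refine SQ.add (sq_mf ?_ fun w => ?_) (sQ.smul hv)
      · rw [Matrix.transpose_sub, hM.s0, Matrix.transpose_smul, Matrix.transpose_one]
      · have := hM.lo w
        rw [H864.qf_sub_mat, H37.qf_smul_one]
        linarith
    · intro h
      rw [mf_sum, mf_sum, H864.qf_sub_mat, H37.qf_smul_one, full_eq]
      ring
  have h5 := stepT hb hm.sq0 hm.co0 sQ (φ := u) (by positivity) h4
    (D := t * (C * (N : ℝ) ^ 2 * (t * (l : ℝ) ^ 2) ^ c)) (by
      rw [← e1, ex_smul, ex_smul, ← mul_sub]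
      calc s * (ex b univ ∅ (mf M₀) (Qf l) - ex b univ ∅ (mf M) (Qf l)) ≤
            s * (C * (N : ℝ) ^ 2 * (t * (l : ℝ) ^ 2) ^ c) :=
            mul_le_mul_of_nonneg_left hF.2 hs
        _ ≤ _ := mul_le_mul_of_nonneg_right hst (by positivity))
  rw [← e1] at h5
  refine h5.trans_eq ?_
  have hS : 0 ≤ (∑ x, u x ^ 2) / a := by positivity
  have e2 : √(48 * ((∑ x, u x ^ 2) / a) ^ 2) = √48 * ((∑ x, u x ^ 2) / a) := by
    rw [Real.sqrt_mul (by norm_num), Real.sqrt_sq hS]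
  have e3 : √(t * (C * (N : ℝ) ^ 2 * (t * (l : ℝ) ^ 2) ^ c) / 2) =
      √(C / 2) * √(t * (N : ℝ) ^ 2) * (t * (l : ℝ) ^ 2) ^ (c / 2) := by
    have e4 : t * (C * (N : ℝ) ^ 2 * (t * (l : ℝ) ^ 2) ^ c) / 2 =
        (C / 2) * (t * (N : ℝ) ^ 2) * (t * (l : ℝ) ^ 2) ^ c := by ring
    have e5 : √((t * (l : ℝ) ^ 2) ^ c) = (t * (l : ℝ) ^ 2) ^ (c / 2) := by
      rw [Real.sqrt_eq_rpow, ← Real.rpow_mul (by positivity)]
      congr 1
      ring
    rw [e4, Real.sqrt_mul (by positivity), Real.sqrt_mul (by positivity), e5]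
  rw [e2, e3]
  ring

end Vale.Agent.P159.H375
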