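import Vale.Agent.P159.H159.FineN
import Vale.Agent.P159.H883.Twr4
import Vale.Agent.P159.H963.NeuR

/-!
P159, module FINE (helper375), part 3: FINE at the level of values: expectations of bounded
functions (charges `cos 2 π q hbar`), including masses that vanish on all cell modes.
-/

namespace Vale.Agent.P159.H375

open Finset Matrix Filter Topology
open Vale.Agent.P159.TM.H104 (EM Ex Cv li nh Gr)
open Vale.Agent.P159.TM.Spec (V)
open Vale.Agent.P159.TM.SpecC (wT)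
open Vale.Agent.P159.H37 (qf re wM Gm cob cellP Ev)
open Vale.Agent.P159.H159 (MasN fine_N Et_nM fine_nonneg)
open Vale.Agent.P159.H963 (GrI pin Neu Pn ntr nM GW MF gw_wT eq2)
open Vale.Agent.P159.H864 (MC)

noncomputable section

/-- path lemma for functions bounded by one -/
theorem val_path {X : Type*} {w Q F : X → ℝ} (hw : ∀ x, 0 ≤ w x) (hQ : ∀ x, 0 ≤ Q x)
    (hs : Summable w) (h0 : ∃ x, 0 < w x) (hQ2 : Summable fun x => w x * Q x ^ 2)
    (hF : ∀ x, |F x| ≤ 1) :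
    |TM.H574.Et w Q F 0 - TM.H574.Et w Q F 1| ≤
      √((TM.H574.Et w Q Q 0 - TM.H574.Et w Q Q 1) / 2) := by
  have hF2 : ∀ x, F x ^ 2 ≤ 1 := fun x => by
    rw [← sq_abs]
    exact pow_le_one₀ (abs_nonneg _) (hF x)
  have sF : Summable fun x => w x * F x ^ 2 := by
    refine Summable.of_nonneg_of_le (fun x => mul_nonneg (hw x) (sq_nonneg _)) (fun x => ?_) hs
    calc w x * F x ^ 2 ≤ w x * 1 := mul_le_mul_of_nonneg_left (hF2 x) (hw x)
      _ = w x := mul_one _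
  have h1 := TM.H574.path hw hQ hs h0 sF hQ2 (S := 1) zero_le_one (by
    intro v hv
    rw [one_pow]
    unfold TM.H574.Ct
    have h2 := mul_self_nonneg (TM.H574.Et w Q F v)
    have h3 : TM.H574.Et w Q (fun x => F x * F x) v ≤ 1 := by
      unfold TM.H574.Et
      have hexp : ∀ x, Real.exp (-(v / 2) * Q x) ≤ 1 := fun x => by
        refine Real.exp_le_one_iff.2 ?_
        have := mul_nonneg (by linarith [hv.1] : (0 : ℝ) ≤ v / 2) (hQ x)
        linarith
      have hE0 : ∀ x, 0 ≤ w x * 1 * Real.exp (-(v / 2) * Q x) := fun x =>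
        mul_nonneg (mul_nonneg (hw x) zero_le_one) (Real.exp_pos _).le
      have s1 : Summable fun x => w x * 1 * Real.exp (-(v / 2) * Q x) := by
        refine Summable.of_nonneg_of_le hE0 (fun x => ?_) hs
        rw [mul_one]
        exact mul_le_of_le_one_right (hw x) (hexp x)
      have s2 : Summable fun x => w x * (F x * F x) * Real.exp (-(v / 2) * Q x) := by
        refine Summable.of_nonneg_of_le (fun x => mul_nonneg (mul_nonneg (hw x)
          (mul_self_nonneg _)) (Real.exp_pos _).le) (fun x => ?_) s1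
        refine mul_le_mul_of_nonneg_right (mul_le_mul_of_nonneg_left ?_ (hw x)) (Real.exp_pos _).le
        have := hF2 x
        nlinarith
      have hle : TM.H574.At w Q (fun x => F x * F x) v ≤ TM.H574.At w Q (fun _ => 1) v := by
        unfold TM.H574.At
        refine s2.tsum_le_tsum (fun x => ?_) s1
        refine mul_le_mul_of_nonneg_right (mul_le_mul_of_nonneg_left ?_ (hw x)) (Real.exp_pos _).le
        have := hF2 x
        nlinarith
      have hnn : 0 ≤ TM.H574.At w Q (fun _ => 1) v := tsum_nonneg hE0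
      exact div_le_one_of_le₀ hle hnn
    linarith)
  rwa [one_mul] at h1

section tor

variable {N : ℕ} [NeZero N] {b : ℝ}

/-- **(FV, neutral)** values: `|E_{M₀} F - E_{M₀ + s (1 - P)} F| ≤ C √(t N²) (t l²)^c`, `|F| ≤ 1` -/
theorem val_N (hb : 0 ≤ b) : ∃ C c : ℝ, 0 < C ∧ 0 < c ∧
    ∀ (N : ℕ) [NeZero N] (t : ℝ), 0 < t → 9 ≤ t * (N : ℝ) ^ 2 →
    ∀ l : ℕ, l ∣ N → t * (l : ℝ) ^ 2 ≤ 1 →
    ∀ (a s : ℝ) (M₀ : Matrix (V N) (V N) ℝ) (m₀ : ℝ), 0 ≤ s → s ≤ t →
      MasN t a M₀ m₀ (M₀ + s • (1 - cellP N l)) m₀ →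
      ∀ (x₀ : V N) (F : (V N → ℤ) → ℝ), (∀ h, |F h| ≤ 1) →
      |Ex (nM (wT b N) M₀ m₀ x₀) 0 F -
        Ex (nM (wT b N) (M₀ + s • (1 - cellP N l)) m₀ x₀) 0 F| ≤
        C * √(t * (N : ℝ) ^ 2) * (t * (l : ℝ) ^ 2) ^ c := by
  obtain ⟨C, c, hC, hc, hU⟩ := fine_N (b := b) hb
  refine ⟨√(C / 2), c / 2, by positivity, by positivity, ?_⟩
  intro N _ t ht htN l hl htl a s M₀ m₀ hs hst hM x₀ F hF
  have hw := gw_wT (N := N) hb
  have hFi := (hU N t ht htN l hl htl a M₀ _ m₀ m₀ hM x₀).2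
  set Q : Matrix (V N) (V N) ℝ := s • (1 - cellP N l) with hQ
  have hQ0 : ∀ h : V N → ℤ, 0 ≤ qf Q (re h) := fun h => by
    rw [hQ, H864.qf_smul_mat]
    exact mul_nonneg hs (fine_nonneg hl _)
  have hE0 := hw.em_nM hM.mf0 x₀
  have gQ : Gr fun h : V N → ℤ => qf Q (re h) := H447.gr_qf Q
  have s1 : Summable (nM (wT b N) M₀ m₀ x₀) := by
    refine (hE0.summ (Gr.const 1) 0).congr fun h => ?_
    rw [TM.H104.li_zero, Real.exp_zero, mul_one, one_mul]
  have s3 : Summable fun h => nM (wT b N) M₀ m₀ x₀ h * (qf Q (re h)) ^ 2 := by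
    refine (hE0.summ (gQ.mul gQ) 0).congr fun h => ?_
    rw [TM.H104.li_zero, Real.exp_zero, mul_one]
    ring
  have h1 := val_path (w := nM (wT b N) M₀ m₀ x₀) (Q := fun h => qf Q (re h)) (F := F)
    hE0.nn hQ0 s1 hE0.pos s3 hF
  rw [Et_nM, Et_nM, Et_nM, Et_nM, zero_smul, add_zero, one_smul] at h1
  refine h1.trans ?_
  have hD : Ex (nM (wT b N) M₀ m₀ x₀) 0 (fun h => qf Q (re h)) -
      Ex (nM (wT b N) (M₀ + Q) m₀ x₀) 0 (fun h => qf Q (re h)) ≤
      t * (C * (N : ℝ) ^ 2 * (t * (l : ℝ) ^ 2) ^ c) := by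
    have e2 : (fun h : V N → ℤ => qf Q (re h)) = fun h => s * qf (1 - cellP N l) (re h) := by
      funext h
      rw [hQ, H864.qf_smul_mat]
    rw [e2, TM.H104.Ex_cmul, TM.H104.Ex_cmul, ← mul_sub]
    calc _ ≤ s * (C * (N : ℝ) ^ 2 * (t * (l : ℝ) ^ 2) ^ c) := mul_le_mul_of_nonneg_left hFi hs
      _ ≤ _ := mul_le_mul_of_nonneg_right hst (by positivity)
  refine (Real.sqrt_le_sqrt (div_le_div_of_nonneg_right hD zero_le_two)).trans_eq ?_
  have e4 : t * (C * (N : ℝ) ^ 2 * (t * (l : ℝ) ^ 2) ^ c) / 2 =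
      (C / 2) * (t * (N : ℝ) ^ 2) * (t * (l : ℝ) ^ 2) ^ c := by ring
  have e5 : √((t * (l : ℝ) ^ 2) ^ c) = (t * (l : ℝ) ^ 2) ^ (c / 2) := by
    rw [Real.sqrt_eq_rpow, ← Real.rpow_mul (by positivity)]
    congr 1
    ring
  rw [e4, Real.sqrt_mul (by positivity), Real.sqrt_mul (by positivity), e5]

lemma MC_split (N l : ℕ) [NeZero N] (t a : ℝ) :
    MC N l t a = a • (1 : Matrix (V N) (V N) ℝ) + (t - a) • (1 - cellP N l) := by
  rw [H864.MC_eq]
  module

lemma masN_MC {l : ℕ} (hl : l ∣ N) {t a : ℝ} (ha : 0 < a) (hat : a ≤ t) :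
    MasN t a (a • (1 : Matrix (V N) (V N) ℝ)) a
      (a • (1 : Matrix (V N) (V N) ℝ) + (t - a) • (1 - cellP N l)) a where
  mf0 := H963.mf_smul ha
  mf1 := by
    have := H159.nez_div hl
    rw [← MC_split]
    exact H963.mf_MC hl ha hat
  apos := ha
  lo u _ := by rw [H37.qf_smul_one]
  mid u _ := by
    rw [H37.qf_add_mat, H864.qf_smul_mat (t - a)]
    have := mul_nonneg (sub_nonneg.2 hat) (fine_nonneg hl u)
    linarith
  up u _ := by
    have := H159.nez_div hl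
    rw [← MC_split]
    exact H864.qf_MC_le hl hat u

/-- **(FV, charges)** the scalar mass `a` against the cell mass `MC N l t a`, any real
`0 < a ≤ t`: the activities of all charges, without the constant mode factor -/
theorem val_om (hb : 0 ≤ b) : ∃ C c : ℝ, 0 < C ∧ 0 < c ∧
    ∀ (N : ℕ) [NeZero N] (t : ℝ), 0 < t → 9 ≤ t * (N : ℝ) ^ 2 →
    ∀ l : ℕ, l ∣ N → t * (l : ℝ) ^ 2 ≤ 1 → ∀ a : ℝ, 0 < a → a ≤ t →
    ∀ (x₀ : V N) (q : ℤ),
      |Ex (nM (wT b N) (MC N l t a) a x₀) 0 (H963.cq q 0) -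
        Ex (nM (wT b N) (a • (1 : Matrix (V N) (V N) ℝ)) a x₀) 0 (H963.cq q 0)| ≤
        C * √(t * (N : ℝ) ^ 2) * (t * (l : ℝ) ^ 2) ^ c := by
  obtain ⟨C, c, hC, hc, hU⟩ := val_N (b := b) hb
  refine ⟨C, c, hC, hc, ?_⟩
  intro N _ t ht htN l hl htl a ha hat x₀ q
  rw [abs_sub_comm, MC_split]
  exact hU N t ht htN l hl htl a (t - a) _ a (sub_nonneg.2 hat) (by linarith)
    (masN_MC hl ha hat) x₀ _ fun h => Real.abs_cos_le_one _

end tor

/-! ### the massless limits -/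

section lim

variable {V : Type} [Fintype V]

lemma em_of_le {μ K : (V → ℤ) → ℝ} (hμ : EM μ) (hK : ∀ h, 0 ≤ K h) (hle : ∀ h, K h ≤ μ h)
    (hp : ∃ h, 0 < K h) : EM K where
  nn := hK
  pos := hp
  sum C := Summable.of_nonneg_of_le (fun h => mul_nonneg (hK h) (Real.exp_pos _).le)
    (fun h => mul_le_mul_of_nonneg_right (hle h) (Real.exp_pos _).le) (hμ.sum C)

/-- dominated convergence of tilted sums -/
theorem lim_T_dom {μ : (V → ℤ) → ℝ} (hμ : EM μ) {K : ℝ → (V → ℤ) → ℝ} {K₀ : (V → ℤ) → ℝ}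
    {f : Filter ℝ} (hle : ∀ᶠ a in f, ∀ h, 0 ≤ K a h ∧ K a h ≤ μ h)
    (hlim : ∀ h, Tendsto (fun a => K a h) f (𝓝 (K₀ h))) (J : V → ℝ) {F : (V → ℤ) → ℝ}
    (hF : Gr F) :
    Tendsto (fun a => TM.H104.T (K a) J F) f (𝓝 (TM.H104.T K₀ J F)) := by
  unfold TM.H104.T
  have hab : Gr fun h => |F h| := by
    obtain ⟨C, hC⟩ := hF
    exact ⟨C, fun h => by rw [abs_abs]; exact hC h⟩
  refine tendsto_tsum_of_dominated_convergence (hμ.summ hab J) (fun h => ?_) ?_
  · exact ((hlim h).const_mul (F h)).mul_const _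
  · filter_upwards [hle] with a ha h
    rw [Real.norm_eq_abs, abs_mul, abs_mul, abs_of_nonneg (ha h).1, abs_of_pos (Real.exp_pos _)]
    exact mul_le_mul_of_nonneg_right (mul_le_mul_of_nonneg_left (ha h).2 (abs_nonneg _))
      (Real.exp_pos _).le

/-- dominated convergence of expectations -/
theorem lim_Ex_dom {μ : (V → ℤ) → ℝ} (hμ : EM μ) {K : ℝ → (V → ℤ) → ℝ} {K₀ : (V → ℤ) → ℝ}
    (hK₀ : EM K₀) {f : Filter ℝ} (hle : ∀ᶠ a in f, ∀ h, 0 ≤ K a h ∧ K a h ≤ μ h)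
    (hlim : ∀ h, Tendsto (fun a => K a h) f (𝓝 (K₀ h))) (J : V → ℝ) {F : (V → ℤ) → ℝ}
    (hF : Gr F) : Tendsto (fun a => Ex (K a) J F) f (𝓝 (Ex K₀ J F)) := by
  have h1 := lim_T_dom hμ hle hlim J hF
  have h2 := lim_T_dom hμ hle hlim J (Gr.const (V := V) 1)
  exact h1.div h2 (TM.H104.T_one_pos hK₀ J).ne'

end lim

section limtor

variable {N : ℕ} [NeZero N] {b : ℝ}

lemma em_pin_wT (hb : 0 < b) (x₀ : V N) : EM (pin (wT b N) x₀) := by
  have h := H883.em_pin_wTD (N := N) hb 0 x₀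
  rwa [H770.wTD_zero] at h

/-- the pinned weight with a mass matrix that is nonnegative, nothing more -/
lemma em_pin_wM (hb : 0 < b) {M : Matrix (V N) (V N) ℝ} (hM : ∀ u, 0 ≤ qf M u) (x₀ : V N) :
    EM (pin (wM (wT b N) M) x₀) := by
  have hw := gw_wT (N := N) hb.le
  refine em_of_le (em_pin_wT hb x₀)
    (H963.pin_nonneg (fun h => mul_nonneg (hw.nn h) (Real.exp_pos _).le) x₀) (fun h => ?_)
    ⟨0, ?_⟩
  · unfold pin wM
    by_cases h0 : h x₀ = 0
    · rw [if_pos h0, if_pos h0]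
      refine mul_le_of_le_one_right (hw.nn h) (Real.exp_le_one_iff.2 ?_)
      linarith [hM (re h)]
    · rw [if_neg h0, if_neg h0]
  · rw [H963.pin_of_zero (h := (0 : V N → ℤ)) rfl]
    unfold wM
    exact mul_pos hw.pos (Real.exp_pos _)

/-- **massless limits**: `M a` neutral forms converging to a nonnegative form -/
theorem lim_pin (hb : 0 < b) {M : ℝ → Matrix (V N) (V N) ℝ} {M₀ : Matrix (V N) (V N) ℝ}
    {f : Filter ℝ} (h0 : ∀ u, 0 ≤ qf M₀ u) (hM : ∀ᶠ a in f, ∀ u, 0 ≤ qf (M a) u)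
    (hlim : ∀ u, Tendsto (fun a => qf (M a) u) f (𝓝 (qf M₀ u))) (x₀ : V N) (J : V N → ℝ)
    {F : (V N → ℤ) → ℝ} (hF : Gr F) :
    Tendsto (fun a => Ex (pin (wM (wT b N) (M a)) x₀) J F) f
      (𝓝 (Ex (pin (wM (wT b N) M₀) x₀) J F)) := by
  have hw := gw_wT (N := N) hb.le
  refine lim_Ex_dom (em_pin_wT hb x₀) (em_pin_wM hb h0 x₀) ?_ (fun h => ?_) J hF
  · filter_upwards [hM] with a ha h
    unfold pin wM
    by_cases h0 : h x₀ = 0
    · rw [if_pos h0, if_pos h0]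
      exact ⟨mul_nonneg (hw.nn h) (Real.exp_pos _).le, mul_le_of_le_one_right (hw.nn h)
        (Real.exp_le_one_iff.2 (by linarith [ha (re h)]))⟩
    · rw [if_neg h0, if_neg h0]
      exact ⟨le_refl _, le_refl _⟩
  · unfold pin wM
    by_cases h0 : h x₀ = 0
    · simp only [if_pos h0]
      exact ((Real.continuous_exp.tendsto _).comp ((hlim (re h)).div_const 2).neg).const_mul _
    · simp only [if_neg h0]
      exact tendsto_const_nhds

lemma wM_zero (w : (V N → ℤ) → ℝ) : wM w (0 : Matrix (V N) (V N) ℝ) = w := by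
  funext h
  unfold wM
  have : qf (0 : Matrix (V N) (V N) ℝ) (re h) = 0 := by
    unfold qf
    simp
  rw [this]
  simp

lemma qf_ntr_nn {M : Matrix (V N) (V N) ℝ} {m : ℝ} (hm : 0 ≤ m)
    (hM : ∀ u, m * ∑ x, u x ^ 2 ≤ qf M u) (u : V N → ℝ) : 0 ≤ qf (ntr M m) u := by
  have h1 := H963.qf_ntr M m u
  have h2 := H159.sum_Pn_sq u
  have h3 : 0 ≤ ∑ x, ((Pn : Matrix (V N) (V N) ℝ) *ᵥ u) x ^ 2 := sum_nonneg fun _ _ => sq_nonneg _
  have h4 := hM u
  have h5 : m / (Fintype.card (V N) : ℝ) * (∑ x, u x) ^ 2 =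
      m * ((∑ x, u x) ^ 2 / Fintype.card (V N)) := by ring
  have h6 : m * ((∑ x, u x) ^ 2 / (Fintype.card (V N) : ℝ)) ≤ m * ∑ x, u x ^ 2 :=
    mul_le_mul_of_nonneg_left (by linarith) hm
  linarith

/-- scalar masses `a → 0`: the massless pinned model -/
theorem lim_scalar (hb : 0 < b) (x₀ : V N) (J : V N → ℝ) {F : (V N → ℤ) → ℝ} (hF : Gr F) :
    Tendsto (fun a : ℝ => Ex (nM (wT b N) (a • (1 : Matrix (V N) (V N) ℝ)) a x₀) J F)
      (𝓝[>] 0) (𝓝 (Ex (pin (wT b N) x₀) J F)) := by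
  have h := lim_pin (b := b) hb (M := fun a : ℝ => ntr (a • (1 : Matrix (V N) (V N) ℝ)) a)
    (M₀ := 0) (f := 𝓝[>] (0 : ℝ)) (fun u => by unfold qf; simp) (by
      filter_upwards [self_mem_nhdsWithin] with a ha u
      have ha : 0 < a := ha
      exact qf_ntr_nn ha.le (fun v => by rw [H37.qf_smul_one]) u) (fun u => by
      have e0 : qf (0 : Matrix (V N) (V N) ℝ) u = 0 := by unfold qf; simp
      have e : (fun a : ℝ => qf (ntr (a • (1 : Matrix (V N) (V N) ℝ)) a) u) = fun a : ℝ =>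
          a * (∑ x, u x ^ 2 - (∑ x, u x) ^ 2 / Fintype.card (V N)) := by
        funext a
        have h1 := H963.qf_ntr (a • (1 : Matrix (V N) (V N) ℝ)) a u
        rw [H37.qf_smul_one] at h1
        have h5 : a / (Fintype.card (V N) : ℝ) * (∑ x, u x) ^ 2 =
          a * ((∑ x, u x) ^ 2 / Fintype.card (V N)) := by ring
        rw [h5] at h1
        linarith
      rw [e0, e]
      have hc : Continuous fun a : ℝ =>
          a * (∑ x, u x ^ 2 - (∑ x, u x) ^ 2 / (Fintype.card (V N) : ℝ)) := by fun_prop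
      have h2 := (hc.tendsto 0).mono_left (nhdsWithin_le_nhds (s := Set.Ioi (0 : ℝ)))
      rwa [zero_mul] at h2) x₀ J hF
  rw [wM_zero] at h
  exact h

/-- cell masses `a → 0`: the mass `t` on the fine modes only -/
theorem lim_cell (hb : 0 < b) {l : ℕ} (hl : l ∣ N) {t : ℝ} (ht : 0 < t) (x₀ : V N) (J : V N → ℝ)
    {F : (V N → ℤ) → ℝ} (hF : Gr F) :
    Tendsto (fun a : ℝ => Ex (nM (wT b N) (MC N l t a) a x₀) J F)
      (𝓝[>] 0) (𝓝 (Ex (pin (wM (wT b N) (t • (1 - cellP N l))) x₀) J F)) := by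
  have := H159.nez_div hl
  refine lim_pin (b := b) hb (M := fun a : ℝ => ntr (MC N l t a) a)
    (M₀ := t • (1 - cellP N l)) (f := 𝓝[>] (0 : ℝ)) (fun u => by
      rw [H864.qf_smul_mat]
      exact mul_nonneg ht.le (fine_nonneg hl u)) (by
      filter_upwards [Ioo_mem_nhdsGT ht] with a ha u
      exact qf_ntr_nn ha.1.le (H864.qf_MC_ge hl ha.2.le) u) (fun u => by
      have e : (fun a : ℝ => qf (ntr (MC N l t a) a) u) = fun a : ℝ =>
          t * ∑ x, u x ^ 2 - (t - a) * qf (cellP N l) u -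
            a * ((∑ x, u x) ^ 2 / Fintype.card (V N)) := by
        funext a
        have h1 := H963.qf_ntr (MC N l t a) a u
        rw [H864.qf_MC] at h1
        have h5 : a / (Fintype.card (V N) : ℝ) * (∑ x, u x) ^ 2 =
          a * ((∑ x, u x) ^ 2 / Fintype.card (V N)) := by ring
        rw [h5] at h1
        linarith
      have e0 : qf (t • (1 - cellP N l)) u = t * ∑ x, u x ^ 2 - (t - 0) * qf (cellP N l) u -
            0 * ((∑ x, u x) ^ 2 / Fintype.card (V N)) := by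
        rw [H864.qf_smul_mat, H864.qf_sub_mat]
        have : qf (1 : Matrix (V N) (V N) ℝ) u = ∑ x, u x ^ 2 := by
          have := H37.qf_smul_one (V := V N) 1 u
          rw [one_smul, one_mul] at this
          exact this
        rw [this]
        ring
      rw [e, e0]
      have hc : Continuous fun a : ℝ => t * ∑ x, u x ^ 2 - (t - a) * qf (cellP N l) u -
            a * ((∑ x, u x) ^ 2 / (Fintype.card (V N) : ℝ)) := by fun_prop
      exact (hc.tendsto 0).mono_left (nhdsWithin_le_nhds (s := Set.Ioi (0 : ℝ)))) x₀ J hF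

/-- **(FV0)** masses that vanish on all cell modes: the massless torus against the mass `t` on the
fine modes; values of functions bounded by one -/
theorem val_zero (hb : 0 < b) : ∃ C c : ℝ, 0 < C ∧ 0 < c ∧
    ∀ (N : ℕ) [NeZero N] (t : ℝ), 0 < t → 9 ≤ t * (N : ℝ) ^ 2 →
    ∀ l : ℕ, l ∣ N → t * (l : ℝ) ^ 2 ≤ 1 →
    ∀ (x₀ : V N) (F : (V N → ℤ) → ℝ), (∀ h, |F h| ≤ 1) →
      |Ex (pin (wM (wT b N) (t • (1 - cellP N l))) x₀) 0 F - Ex (pin (wT b N) x₀) 0 F| ≤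
        C * √(t * (N : ℝ) ^ 2) * (t * (l : ℝ) ^ 2) ^ c := by
  obtain ⟨C, c, hC, hc, hU⟩ := val_N (b := b) hb.le
  refine ⟨C, c, hC, hc, ?_⟩
  intro N _ t ht htN l hl htl x₀ F hF
  have gF : Gr F := Gr.of_bdd (C := 1) hF
  have h1 := ((lim_cell (b := b) hb hl ht x₀ 0 gF).sub (lim_scalar (b := b) hb x₀ 0 gF)).abs
  refine le_of_tendsto h1 ?_
  filter_upwards [Ioo_mem_nhdsGT ht] with a ha
  rw [abs_sub_comm, MC_split]
  exact hU N t ht htN l hl htl a (t - a) _ a (sub_nonneg.2 ha.2.le) (by linarith [ha.1])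
    (masN_MC hl ha.1 ha.2.le) x₀ _ hF

/-- monotonicity: raising the mass of the fine modes raises the activities -/
theorem om_fine_mono (hb : 0 ≤ b) {l : ℕ} (hl : l ∣ N) {t a : ℝ} (ha : 0 < a) (hat : a ≤ t)
    (q : ℤ) : H896.om (wT b N) (a • (1 : Matrix (V N) (V N) ℝ)) q ≤
      H896.om (wT b N) (MC N l t a) q := by
  have ht : 0 < t := ha.trans_le hat
  have := H159.nez_div hl
  have hcomm : MC N l t a * (1 - cellP N l) = t • (1 - cellP N l) := by
    rw [H864.MC_eq, Matrix.sub_mul, Matrix.smul_mul, Matrix.one_mul, Matrix.smul_mul,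
      Matrix.mul_sub, Matrix.mul_one, H864.cellP_mul_self hl, sub_self, smul_zero, sub_zero]
  have hQQ : (1 - cellP N l : Matrix (V N) (V N) ℝ) * (1 - cellP N l) = 1 - cellP N l := by
    rw [Matrix.mul_sub, Matrix.mul_one, Matrix.sub_mul, Matrix.one_mul, H864.cellP_mul_self hl, sub_self,
      sub_zero]
  have hch := H896.chn_proj (M := MC N l t a) (Q := 1 - cellP N l) (τ := t)
    (σ := (t - a) / (t * a)) (H864.MC_tr N l t a)
    (fun u => le_trans (by positivity) (H864.qf_MC_ge hl hat u)) (H159.fine_tr N l) hQQ hcomm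
    ht.le (div_nonneg (sub_nonneg.2 hat) (by positivity))
  have e1 : (t - a) / (t * a) * t ^ 2 / (1 + (t - a) / (t * a) * t) = t - a := by
    have : 1 + (t - a) / (t * a) * t = t / a := by
      field_simp
      ring
    rw [this]
    field_simp
  rw [e1] at hch
  have e2 : MC N l t a - (t - a) • (1 - cellP N l) = a • (1 : Matrix (V N) (V N) ℝ) := by
    rw [MC_split]
    abel
  rw [e2] at hch
  exact H896.om_mono hch (H896.wm_t hb ha) q

/-- **(FV, charges, two sided)** -/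
theorem val_om2 (hb : 0 ≤ b) : ∃ C c : ℝ, 0 < C ∧ 0 < c ∧
    ∀ (N : ℕ) [NeZero N] (t : ℝ), 0 < t → 9 ≤ t * (N : ℝ) ^ 2 →
    ∀ l : ℕ, l ∣ N → t * (l : ℝ) ^ 2 ≤ 1 → ∀ a : ℝ, 0 < a → a ≤ t →
    ∀ (q : ℤ),
      0 ≤ H896.om (wT b N) (MC N l t a) q -
        H896.om (wT b N) (a • (1 : Matrix (V N) (V N) ℝ)) q ∧
      H896.om (wT b N) (MC N l t a) q -
        H896.om (wT b N) (a • (1 : Matrix (V N) (V N) ℝ)) q ≤
        eq2 (V N) a q * (C * √(t * (N : ℝ) ^ 2) * (t * (l : ℝ) ^ 2) ^ c) := by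
  obtain ⟨C, c, hC, hc, hU⟩ := val_om (b := b) hb
  refine ⟨C, c, hC, hc, ?_⟩
  intro N _ t ht htN l hl htl a ha hat q
  refine ⟨sub_nonneg.2 (om_fine_mono hb hl ha hat q), ?_⟩
  have := H159.nez_div hl
  have hw := gw_wT (N := N) hb
  rw [hw.om_eq (H963.mf_MC hl ha hat)
      (H896.wm_wT hb ha (H864.MC_tr N l t a) (H864.qf_MC_ge hl hat)) (0 : V N) q,
    hw.om_eq (H963.mf_smul ha) (H896.wm_t hb ha) (0 : V N) q, ← mul_sub]
  exact mul_le_mul_of_nonneg_left ((le_abs_self _).trans (hU N t ht htN l hl htl a ha hat 0 q))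
    (H963.eq2_pos a q).le

/-- the massless activity is below the one with mass on the fine modes -/
theorem val_zero_mono (hb : 0 < b) {l : ℕ} (hl : l ∣ N) {t : ℝ} (ht : 0 < t) (x₀ : V N) (q : ℤ) :
    Ex (pin (wT b N) x₀) 0 (H963.cq q 0) ≤
      Ex (pin (wM (wT b N) (t • (1 - cellP N l))) x₀) 0 (H963.cq q 0) := by
  have gF : Gr (H963.cq (V := V N) q 0) := H963.gr_cq q 0
  have := H159.nez_div hl
  have hw := gw_wT (N := N) hb.le
  refine le_of_tendsto_of_tendsto (lim_scalar (b := b) hb x₀ 0 gF)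
    (lim_cell (b := b) hb hl ht x₀ 0 gF) ?_
  filter_upwards [Ioo_mem_nhdsGT ht] with a ha
  have h1 := om_fine_mono (N := N) hb.le hl ha.1 ha.2.le q
  rw [hw.om_eq (H963.mf_MC hl ha.1 ha.2.le)
      (H896.wm_wT hb.le ha.1 (H864.MC_tr N l t a) (H864.qf_MC_ge hl ha.2.le)) x₀ q,
    hw.om_eq (H963.mf_smul ha.1) (H896.wm_t hb.le ha.1) x₀ q] at h1
  exact le_of_mul_le_mul_left h1 (H963.eq2_pos a q)

end limtor

end

end Vale.Agent.P159.H375
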