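import Vale.Agent.P159.H375.FineV
import Vale.Agent.P159.H896.FlowT
import Vale.Agent.P159.H896.Four

/-!
P159, module FINE (helper375), part 5: mass forms that vanish on modes. Exponential moments of the
integer weight as soon as the constant mode is massive, the standing hypotheses `WM`, and the limits
of all quantities (`Ex`, `Lg`, `Gm`, `ZM`, `Zn`, `Zq`, `Ph`, `om`) along decreasing mass forms.
-/

set_option linter.unusedSectionVars false

namespace Vale.Agent.P159.H375

open Finset Matrix Filter Topology MeasureTheory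
open Vale.Agent.P159.TM.H104 (EM Ex Cv Lg li nh Gr)
open Vale.Agent.P159.TM.SpecC (wT Tor)
open Vale.Agent.P159.H37 (qf bf re wM Gm Cm cellP ZM Zn Zq Zs)
open Vale.Agent.P159.H963 (GrI pin spl gw_wT)
open Vale.Agent.P159.H896 (WM Ph om)

noncomputable section

/-! ### exponential moments -/

section gen

variable {V : Type} [Fintype V] [DecidableEq V]

lemma abs_sum_re_le (k : V → ℤ) : |∑ x, re k x| ≤ nh k := by
  unfold nh re
  exact Finset.abs_sum_le_sum_abs _ _

/-- **exponential moments from the mass of the constant mode alone** -/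
theorem em_wM_const [Nonempty V] {w : (V → ℤ) → ℝ} (hw : GrI w) (hw0 : ∀ h, 0 ≤ w h)
    (hwp : 0 < w 0) {x₀ : V} (hE : EM (pin w x₀)) {M : Matrix V V ℝ} {a : ℝ} (ha : 0 < a)
    (hM : ∀ u : V → ℝ, a * ((∑ x, u x) ^ 2 / Fintype.card V) ≤ qf M u) : EM (wM w M) where
  nn h := mul_nonneg (hw0 h) (Real.exp_pos _).le
  pos := ⟨0, mul_pos hwp (Real.exp_pos _)⟩
  sum C := by
    have hN1 : (1 : ℝ) ≤ Fintype.card V := by exact_mod_cast Fintype.card_pos (α := V)
    have hN : (0 : ℝ) < Fintype.card V := by linarith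
    set N : ℝ := (Fintype.card V : ℝ) with hNd
    set B : ℝ := |C| * N + 1 with hB
    have hB0 : 0 < B := by positivity
    have s1 : Summable fun k : {k : V → ℤ // k x₀ = 0} =>
        w k.1 * Real.exp ((|C| + B) * nh k.1) := by
      refine ((hE.sum (|C| + B)).comp_injective
        (i := fun k : {k : V → ℤ // k x₀ = 0} => k.1) Subtype.val_injective).congr fun k => ?_
      simp only [Function.comp_apply]
      rw [H963.pin_of_zero k.2]
    have s2 : Summable fun n : ℤ => Real.exp (B ^ 2 * N / (2 * a)) * Real.exp (-|(n : ℝ)|) :=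
      TM.H104.summable_exp_abs.mul_left _
    have s3 := s1.mul_of_nonneg s2 (fun k => mul_nonneg (hw0 _) (Real.exp_pos _).le)
      (fun n => mul_nonneg (Real.exp_pos _).le (Real.exp_pos _).le)
    rw [← (spl x₀).summable_iff]
    refine Summable.of_nonneg_of_le (fun p => ?_) (fun p => ?_) s3
    · exact mul_nonneg (mul_nonneg (hw0 _) (Real.exp_pos _).le) (Real.exp_pos _).le
    obtain ⟨k, n⟩ := p
    have hsp : spl x₀ (k, n) = fun x => k.1 x + n := rfl
    simp only [Function.comp_apply, hsp]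
    unfold wM
    rw [hw k.1 n]
    have h1 : nh (fun x => k.1 x + n) ≤ nh k.1 + N * |(n : ℝ)| := by
      unfold nh
      have : ∀ x : V, |((k.1 x + n : ℤ) : ℝ)| ≤ |(k.1 x : ℝ)| + |(n : ℝ)| := fun x => by
        push_cast
        exact abs_add_le _ _
      refine (Finset.sum_le_sum fun x _ => this x).trans ?_
      rw [Finset.sum_add_distrib, Finset.sum_const, Finset.card_univ, nsmul_eq_mul]
    set X : ℝ := ∑ x, re (fun x => k.1 x + n) x with hX
    have hX2 : X = ∑ x, re k.1 x + N * n := by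
      rw [hX]
      unfold re
      push_cast
      rw [Finset.sum_add_distrib, Finset.sum_const, Finset.card_univ, nsmul_eq_mul]
    have h2 : N * |(n : ℝ)| ≤ |X| + nh k.1 := by
      have h3 : N * (n : ℝ) = X - ∑ x, re k.1 x := by rw [hX2]; ring
      have h4 : N * |(n : ℝ)| = |N * (n : ℝ)| := by rw [abs_mul, abs_of_pos hN]
      rw [h4, h3]
      exact (abs_sub _ _).trans (add_le_add le_rfl (abs_sum_re_le _))
    have h5 := hM (re fun x => k.1 x + n)
    rw [← hX] at h5
    have hnh : 0 ≤ nh k.1 := Finset.sum_nonneg fun _ _ => abs_nonneg _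
    have h6 : |(n : ℝ)| ≤ N * |(n : ℝ)| := by nlinarith [abs_nonneg (n : ℝ)]
    -- the quadratic form beats `B |X|`
    have h7 : B * |X| ≤ a * (X ^ 2 / N) / 2 + B ^ 2 * N / (2 * a) := by
      have h8 : a * (X ^ 2 / N) / 2 + B ^ 2 * N / (2 * a) - B * |X| =
          (a * |X| - B * N) ^ 2 / (2 * a * N) := by
        rw [← sq_abs X]
        field_simp
        ring
      have h9 : 0 ≤ (a * |X| - B * N) ^ 2 / (2 * a * N) := by positivity
      linarith
    have h10 : C * nh (fun x => k.1 x + n) ≤ |C| * nh k.1 + |C| * (N * |(n : ℝ)|) := by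
      have h11 : 0 ≤ nh (fun x => k.1 x + n) := Finset.sum_nonneg fun _ _ => abs_nonneg _
      calc C * nh (fun x => k.1 x + n) ≤ |C| * nh (fun x => k.1 x + n) :=
            mul_le_mul_of_nonneg_right (le_abs_self C) h11
        _ ≤ |C| * (nh k.1 + N * |(n : ℝ)|) := mul_le_mul_of_nonneg_left h1 (abs_nonneg C)
        _ = _ := by ring
    have h12 : (|C| * N + 1) * |(n : ℝ)| ≤ B * (|X| + nh k.1) := by
      have h13 : |(n : ℝ)| ≤ |X| + nh k.1 := h6.trans h2
      exact mul_le_mul_of_nonneg_left h13 hB0.le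
    have h14 : -(qf M (re fun x => k.1 x + n) / 2) + C * nh (fun x => k.1 x + n) ≤
        (|C| + B) * nh k.1 + (B ^ 2 * N / (2 * a) + -|(n : ℝ)|) := by
      nlinarith
    calc w k.1 * Real.exp (-(qf M (re fun x => k.1 x + n) / 2)) *
          Real.exp (C * nh fun x => k.1 x + n)
        = w k.1 * Real.exp (-(qf M (re fun x => k.1 x + n) / 2) +
            C * nh fun x => k.1 x + n) := by rw [mul_assoc, ← Real.exp_add]
      _ ≤ w k.1 * Real.exp ((|C| + B) * nh k.1 + (B ^ 2 * N / (2 * a) + -|(n : ℝ)|)) :=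
          mul_le_mul_of_nonneg_left (Real.exp_le_exp.2 h14) (hw0 _)
      _ = w k.1 * Real.exp ((|C| + B) * nh k.1) *
            (Real.exp (B ^ 2 * N / (2 * a)) * Real.exp (-|(n : ℝ)|)) := by
          rw [Real.exp_add, Real.exp_add, mul_assoc]

end gen

section tor

variable {N : ℕ} [NeZero N] {b : ℝ}

/-- **the torus weight with a mass on the constant mode only** -/
theorem em_wT0 (hb : 0 < b) {M : Matrix (Tor N) (Tor N) ℝ} {a : ℝ} (ha : 0 < a)
    (hM : ∀ u : Tor N → ℝ, a * ((∑ x, u x) ^ 2 / (N : ℝ) ^ 2) ≤ qf M u) :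
    EM (wM (wT b N) M) := by
  have hw := gw_wT (N := N) hb.le
  refine em_wM_const hw.grd hw.nn hw.pos (em_pin_wT hb (0 : Tor N)) ha fun u => ?_
  have e : (Fintype.card (Tor N) : ℝ) = (N : ℝ) ^ 2 := by
    rw [Fintype.card_prod, ZMod.card]
    push_cast
    ring
  rw [e]
  exact hM u

/-- **standing hypotheses with zero modes** -/
theorem wm_wT0 (hb : 0 < b) {M : Matrix (Tor N) (Tor N) ℝ} {a : ℝ} (ha : 0 < a) (hS : Mᵀ = M)
    (hM : ∀ u : Tor N → ℝ, a * ((∑ x, u x) ^ 2 / (N : ℝ) ^ 2) ≤ qf M u) : WM (wT b N) M where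
  sym := hS
  em := em_wT0 hb ha hM
  ev := H789.wT_even
  per := H896.wT_per
  dg := H896.dg_mass hS (H896.dg_wT hb.le N)

lemma col_cellP {l : ℕ} (hl : l ∣ N) (u : Tor N → ℝ) :
    ∑ x, (cellP N l *ᵥ u) x = ∑ x, u x := by
  have h1 : ∑ x, ((1 - cellP N l : Matrix (Tor N) (Tor N) ℝ) *ᵥ u) x = 0 := by
    simp only [Matrix.mulVec, dotProduct]
    rw [Finset.sum_comm]
    refine Finset.sum_eq_zero fun y _ => ?_
    rw [← Finset.sum_mul]
    have h2 : ∑ x, (1 - cellP N l : Matrix (Tor N) (Tor N) ℝ) x y = 0 := by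
      rw [← H159.fine_row hl y]
      refine Finset.sum_congr rfl fun x _ => ?_
      have := congrFun (congrFun (H159.fine_tr N l) y) x
      rw [← this]
      rfl
    rw [h2, zero_mul]
  have h3 : ∀ x, ((1 - cellP N l : Matrix (Tor N) (Tor N) ℝ) *ᵥ u) x =
      u x - (cellP N l *ᵥ u) x := fun x => by
    rw [Matrix.sub_mulVec, Matrix.one_mulVec, Pi.sub_apply]
  simp only [h3, Finset.sum_sub_distrib] at h1
  linarith

/-- the constant mode is carried by the cells -/
lemma const_le_cellP {l : ℕ} (hl : l ∣ N) (u : Tor N → ℝ) :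
    (∑ x, u x) ^ 2 / (N : ℝ) ^ 2 ≤ qf (cellP N l) u := by
  have := H159.nez_div hl
  have hN : (0 : ℝ) < N := by exact_mod_cast NeZero.pos N
  rw [div_le_iff₀ (by positivity), ← col_cellP hl u]
  have h1 := Finset.sum_mul_sq_le_sq_mul_sq univ (fun x => (cellP N l *ᵥ u) x) (fun _ => (1 : ℝ))
  simp only [mul_one, one_pow, Finset.sum_const, Finset.card_univ, nsmul_eq_mul] at h1
  have e : (Fintype.card (Tor N) : ℝ) = (N : ℝ) ^ 2 := by
    rw [Fintype.card_prod, ZMod.card]
    push_cast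
    ring
  rw [e] at h1
  have h2 : qf (cellP N l) u = ∑ x, (cellP N l *ᵥ u) x ^ 2 := by
    have h3 : qf (cellP N l) u = (cellP N l *ᵥ u) ⬝ᵥ (cellP N l *ᵥ u) := by
      rw [H37.qf_eq]
      conv_lhs => rw [← H864.cellP_mul_self hl, ← Matrix.mulVec_mulVec, Matrix.dotProduct_mulVec,
        ← Matrix.mulVec_transpose, H864.cellP_tr]
    rw [h3]
    simp only [dotProduct]
    exact Finset.sum_congr rfl fun x _ => by ring
  rw [h2]
  exact h1

/-- **masses that live on the coarse cells**: `M ≥ a P_l` is enough -/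
theorem wm_cell (hb : 0 < b) {l : ℕ} (hl : l ∣ N) {M : Matrix (Tor N) (Tor N) ℝ} {a : ℝ}
    (ha : 0 < a) (hS : Mᵀ = M) (hM : ∀ u : Tor N → ℝ, a * qf (cellP N l) u ≤ qf M u) :
    WM (wT b N) M :=
  wm_wT0 hb ha hS fun u => (mul_le_mul_of_nonneg_left (const_le_cellP hl u) ha.le).trans (hM u)

/-- helper889's mass form: `t` on the fine modes, `0` between the cells `l` and `l'`, `t'` on the
cells `l'` -/
def MB (N l l' : ℕ) [NeZero N] (t t' : ℝ) : Matrix (Tor N) (Tor N) ℝ :=
  t • (1 - cellP N l) + t' • cellP N l'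

lemma MB_tr (N l l' : ℕ) [NeZero N] (t t' : ℝ) : (MB N l l' t t')ᵀ = MB N l l' t t' := by
  unfold MB
  rw [Matrix.transpose_add, Matrix.transpose_smul, Matrix.transpose_smul, H159.fine_tr,
    H864.cellP_tr]

lemma qf_MB (N l l' : ℕ) [NeZero N] (t t' : ℝ) (u : Tor N → ℝ) :
    qf (MB N l l' t t') u = t * qf (1 - cellP N l) u + t' * qf (cellP N l') u := by
  unfold MB
  rw [H37.qf_add_mat, H864.qf_smul_mat, H864.qf_smul_mat]

theorem wm_MB (hb : 0 < b) {l l' : ℕ} (hl : l ∣ N) (hl' : l' ∣ N) {t t' : ℝ} (ht : 0 ≤ t)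
    (ht' : 0 < t') : WM (wT b N) (MB N l l' t t') :=
  wm_cell hb hl' ht' (MB_tr N l l' t t') fun u => by
    rw [qf_MB]
    have := mul_nonneg ht (H159.fine_nonneg hl u)
    linarith

end tor

/-! ### limits along decreasing mass forms -/

section lim

variable {V : Type} [Fintype V] {w : (V → ℤ) → ℝ} {M : Matrix V V ℝ} {f : Filter ℝ}
  {Ms : ℝ → Matrix V V ℝ}

/-- mass forms converging from above -/
structure Dwn (f : Filter ℝ) (Ms : ℝ → Matrix V V ℝ) (M : Matrix V V ℝ) : Prop where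
  sym : ∀ᶠ s in f, (Ms s)ᵀ = Ms s
  ge : ∀ᶠ s in f, ∀ u, qf M u ≤ qf (Ms s) u
  lim : ∀ u, Tendsto (fun s => qf (Ms s) u) f (𝓝 (qf M u))

/-- `M + s S`, `s → 0+` -/
theorem dwn_add {S : Matrix V V ℝ} (hM : Mᵀ = M) (hS : Sᵀ = S) (hS0 : ∀ u, 0 ≤ qf S u) :
    Dwn (𝓝[>] 0) (fun s : ℝ => M + s • S) M where
  sym := Filter.Eventually.of_forall fun s => by
    rw [Matrix.transpose_add, hM, Matrix.transpose_smul, hS]
  ge := by
    filter_upwards [self_mem_nhdsWithin] with s hs u
    have hs : 0 < s := hs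
    rw [H37.qf_add_mat, H864.qf_smul_mat]
    have := mul_nonneg hs.le (hS0 u)
    linarith
  lim u := by
    have e : (fun s : ℝ => qf (M + s • S) u) = fun s : ℝ => qf M u + s * qf S u := by
      funext s
      rw [H37.qf_add_mat, H864.qf_smul_mat]
    have hc : Continuous fun s : ℝ => qf M u + s * qf S u := by fun_prop
    have h := (hc.tendsto 0).mono_left (nhdsWithin_le_nhds (s := Set.Ioi (0 : ℝ)))
    rw [zero_mul, add_zero] at h
    rw [e]
    exact h

lemma gr_at (z : V) : Gr fun k : V → ℤ => (k z : ℝ) := by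
  classical
  have h := Gr.li (V := V) (Pi.single z 1)
  refine (congrArg Gr (funext fun k => ?_)).mp h
  unfold li
  rw [Finset.sum_eq_single z]
  · simp
  · intro x _ hx
    rw [Pi.single_eq_of_ne hx, zero_mul]
  · intro hz
    exact absurd (Finset.mem_univ z) hz

lemma Dwn.wle (h : Dwn f Ms M) (hw0 : ∀ k, 0 ≤ w k) :
    ∀ᶠ s in f, ∀ k, 0 ≤ wM w (Ms s) k ∧ wM w (Ms s) k ≤ wM w M k := by
  filter_upwards [h.ge] with s hs k
  refine ⟨mul_nonneg (hw0 k) (Real.exp_pos _).le, mul_le_mul_of_nonneg_left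
    (Real.exp_le_exp.2 ?_) (hw0 k)⟩
  have := hs (re k)
  linarith

lemma Dwn.wlim (h : Dwn f Ms M) (k : V → ℤ) :
    Tendsto (fun s => wM w (Ms s) k) f (𝓝 (wM w M k)) := by
  unfold wM
  exact ((Real.continuous_exp.tendsto _).comp ((h.lim (re k)).div_const 2).neg).const_mul _

theorem Dwn.Ex (h : Dwn f Ms M) (hE : EM (wM w M)) (J : V → ℝ) {F : (V → ℤ) → ℝ} (hF : Gr F) :
    Tendsto (fun s => TM.H104.Ex (wM w (Ms s)) J F) f (𝓝 (TM.H104.Ex (wM w M) J F)) :=
  lim_Ex_dom hE hE (h.wle (H896.w_nonneg hE)) h.wlim J hF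

theorem Dwn.Zs (h : Dwn f Ms M) (hE : EM (wM w M)) (J : V → ℝ) :
    Tendsto (fun s => H37.Zs (wM w (Ms s)) J) f (𝓝 (H37.Zs (wM w M) J)) :=
  lim_T_dom hE (h.wle (H896.w_nonneg hE)) h.wlim J (Gr.const 1)

theorem Dwn.Lg (h : Dwn f Ms M) (hE : EM (wM w M)) (J : V → ℝ) :
    Tendsto (fun s => TM.H104.Lg (wM w (Ms s)) J) f (𝓝 (TM.H104.Lg (wM w M) J)) :=
  ((Real.continuousAt_log (TM.H104.T_one_pos hE J).ne').tendsto).comp (h.Zs hE J)

theorem Dwn.Cm (h : Dwn f Ms M) (hE : EM (wM w M)) (J : V → ℝ) (x y : V) :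
    Tendsto (fun s => H37.Cm (wM w (Ms s)) J x y) f (𝓝 (H37.Cm (wM w M) J x y)) := by
  have e : ∀ s, H37.Cm (wM w (Ms s)) J x y = TM.H104.Ex (wM w (Ms s)) J
      (fun k => (k x : ℝ) * (k y : ℝ)) - TM.H104.Ex (wM w (Ms s)) J (fun k => (k x : ℝ)) *
        TM.H104.Ex (wM w (Ms s)) J (fun k => (k y : ℝ)) := fun s => rfl
  have e0 : H37.Cm (wM w M) J x y = TM.H104.Ex (wM w M) J
      (fun k => (k x : ℝ) * (k y : ℝ)) - TM.H104.Ex (wM w M) J (fun k => (k x : ℝ)) *
        TM.H104.Ex (wM w M) J (fun k => (k y : ℝ)) := rfl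
  simp only [e, e0]
  have gx : ∀ z : V, Gr fun k : V → ℤ => (k z : ℝ) := fun z => gr_at z
  exact (h.Ex hE J ((gx x).mul (gx y))).sub ((h.Ex hE J (gx x)).mul (h.Ex hE J (gx y)))

theorem Dwn.qf_Cm (h : Dwn f Ms M) (hE : EM (wM w M)) (J u : V → ℝ) :
    Tendsto (fun s => qf (H37.Cm (wM w (Ms s)) J) u) f (𝓝 (qf (H37.Cm (wM w M) J) u)) := by
  unfold qf
  exact tendsto_finsetSum _ fun x _ => tendsto_finsetSum _ fun y _ =>
    ((h.Cm hE J x y).const_mul (u x)).mul_const (u y)

theorem Dwn.ZM (h : Dwn f Ms M) (hM : Mᵀ = M) (hE : EM (wM w M)) (F : V → ℝ) :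
    Tendsto (fun s => H37.ZM w (Ms s) F) f (𝓝 (H37.ZM w M F)) := by
  unfold H37.ZM
  have hw0 := H896.w_nonneg hE
  refine tendsto_tsum_of_dominated_convergence (H896.summable_ZM hM hE F) (fun k => ?_) ?_
  · exact ((Real.continuous_exp.tendsto _).comp ((h.lim (re k - F)).div_const 2).neg).const_mul _
  · filter_upwards [h.ge] with s hs k
    rw [Real.norm_eq_abs, abs_of_nonneg (mul_nonneg (hw0 k) (Real.exp_pos _).le)]
    refine mul_le_mul_of_nonneg_left (Real.exp_le_exp.2 ?_) (hw0 k)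
    have := hs (re k - F)
    linarith

lemma ZM_mono_mass {M' : Matrix V V ℝ} (hM : Mᵀ = M) (hE : EM (wM w M)) (hM' : M'ᵀ = M')
    (hle : ∀ u, qf M u ≤ qf M' u) (F : V → ℝ) : 0 ≤ H37.ZM w M' F ∧ H37.ZM w M' F ≤ H37.ZM w M F := by
  have hw0 := H896.w_nonneg hE
  have hE' : EM (wM w M') := em_of_le hE
    (fun k => mul_nonneg (hw0 k) (Real.exp_pos _).le)
    (fun k => mul_le_mul_of_nonneg_left (Real.exp_le_exp.2 (by linarith [hle (re k)])) (hw0 k))
    (by
      obtain ⟨k, hk⟩ := hE.pos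
      refine ⟨k, mul_pos ?_ (Real.exp_pos _)⟩
      unfold wM at hk
      exact (mul_pos_iff_of_pos_right (Real.exp_pos _)).1 hk)
  constructor
  · exact tsum_nonneg fun k => mul_nonneg (hw0 k) (Real.exp_pos _).le
  · refine (H896.summable_ZM hM' hE' F).tsum_le_tsum (fun k => ?_) (H896.summable_ZM hM hE F)
    refine mul_le_mul_of_nonneg_left (Real.exp_le_exp.2 ?_) (hw0 k)
    have := hle (re k - F)
    linarith

theorem Dwn.Zq [f.IsCountablyGenerated] (h : Dwn f Ms M) (hW : WM w M) (q : ℤ) (F : V → ℝ) :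
    Tendsto (fun s => H37.Zq w (Ms s) q F) f (𝓝 (H37.Zq w M q F)) := by
  unfold H37.Zq
  have hcF : Continuous fun c : ℝ => fun x => F x + c := by fun_prop
  have hph : Continuous fun c : ℝ => Complex.exp (-(2 * Real.pi * q * c) * Complex.I) := by
    fun_prop
  have hn : ∀ c : ℝ, ‖Complex.exp (-(2 * Real.pi * q * c) * Complex.I)‖ = 1 := fun c =>
    H963.norm_chr q c
  refine intervalIntegral.tendsto_integral_filter_of_dominated_convergence
    (fun c => H37.ZM w M fun x => F x + c) ?_ ?_ ?_ ?_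
  · filter_upwards [h.sym, h.ge] with s hs hge
    have hWs : WM w (Ms s) := hW.mono hs hge
    exact (((Complex.continuous_ofReal.comp ((H896.continuous_ZM hWs).comp hcF)).mul
      hph).aestronglyMeasurable)
  · filter_upwards [h.sym, h.ge] with s hs hge
    refine Filter.Eventually.of_forall fun c _ => ?_
    have h1 := ZM_mono_mass hW.sym hW.em hs hge fun x => F x + c
    rw [norm_mul, hn, mul_one, Complex.norm_real, Real.norm_of_nonneg h1.1]
    exact h1.2
  · exact ((H896.continuous_ZM hW).comp hcF).intervalIntegrable _ _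
  · refine Filter.Eventually.of_forall fun c _ => ?_
    exact ((Complex.continuous_ofReal.tendsto _).comp
      (h.ZM hW.sym hW.em fun x => F x + c)).mul_const _

theorem Dwn.Zn [f.IsCountablyGenerated] (h : Dwn f Ms M) (hW : WM w M) (F : V → ℝ) :
    Tendsto (fun s => H37.Zn w (Ms s) F) f (𝓝 (H37.Zn w M F)) := by
  unfold H37.Zn
  have hcF : Continuous fun c : ℝ => fun x => F x + c := by fun_prop
  refine intervalIntegral.tendsto_integral_filter_of_dominated_convergence
    (fun c => H37.ZM w M fun x => F x + c) ?_ ?_ ?_ ?_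
  · filter_upwards [h.sym, h.ge] with s hs hge
    have hWs : WM w (Ms s) := hW.mono hs hge
    exact ((H896.continuous_ZM hWs).comp hcF).aestronglyMeasurable
  · filter_upwards [h.sym, h.ge] with s hs hge
    refine Filter.Eventually.of_forall fun c _ => ?_
    have h1 := ZM_mono_mass hW.sym hW.em hs hge fun x => F x + c
    rw [Real.norm_of_nonneg h1.1]
    exact h1.2
  · exact ((H896.continuous_ZM hW).comp hcF).intervalIntegrable _ _
  · exact Filter.Eventually.of_forall fun c _ => h.ZM hW.sym hW.em fun x => F x + c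

theorem Dwn.Ph [f.IsCountablyGenerated] (h : Dwn f Ms M) (hW : WM w M) (q : ℤ) (F : V → ℝ) :
    Tendsto (fun s => H896.Ph w (Ms s) q F) f (𝓝 (H896.Ph w M q F)) := by
  unfold H896.Ph
  exact (h.Zq hW q F).div ((Complex.continuous_ofReal.tendsto _).comp (h.Zn hW F))
    (Complex.ofReal_ne_zero.2 (H896.Zn_pos hW F).ne')

theorem Dwn.om [f.IsCountablyGenerated] (h : Dwn f Ms M) (hW : WM w M) (q : ℤ) :
    Tendsto (fun s => H896.om w (Ms s) q) f (𝓝 (H896.om w M q)) := by
  have h1 := (Complex.continuous_re.tendsto _).comp (h.Ph hW q 0)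
  rw [H896.Ph_zero hW, Complex.ofReal_re] at h1
  refine h1.congr' ?_
  filter_upwards [h.sym, h.ge] with s hs hge
  simp only [Function.comp_apply]
  rw [H896.Ph_zero (hW.mono hs hge), Complex.ofReal_re]

end lim

end

end Vale.Agent.P159.H375
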