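import Vale.Agent.P159.H375.AclD
import Vale.Agent.P159.H276.DownT

/-!
P159 / H375: upper bound of the cell form `acl N l b T T` at every real mass `T <= t'` from the flat
profile at `t'` only (monotonicity of the neutral self energy in the mass; helper363's rows 5739,
6059: `T` in `[t_n, 4 t_n]`, `FL` at `4 t_n`).
-/

namespace Vale.Agent.P159.H375

open Finset Matrix Filter Topology
open Vale.Agent.P159.TM.H764 (Gh cN sN dt ch EE frm grd hatu pw)
open Vale.Agent.P159.TM.Spec (V)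
open Vale.Agent.P159.TM.SpecC (wT)
open Vale.Agent.P159.TM.H859 (dirE)
open Vale.Agent.P159.H37 (qf wt Pik Ght)
open Vale.Agent.P159.H963 (Neu Pn Gnc Gn Gnh Pin PinC)
open Vale.Agent.P159.H864 (MC GM Gc Gck PiCk sym TI cen rd cobV lapM als Wl)
open Vale.Agent.P159.H363 (acl ti_acl sym_acl sym_acl_zero sym_acl_eq sym_acl_nonneg sym_acl_le)
open Vale.Agent.P159.H462 (Dom)
open Vale.Agent.P159.H972 (FL)

noncomputable section

variable {N l : ℕ} [NeZero N] [NeZero (N / l)] {b t τ : ℝ}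

/-- upper half of the flat profile -/
def FU (b t a η : ℝ) (N : ℕ) [NeZero N] : Prop :=
  ∃ z a' : ℝ, 0 ≤ z ∧ z * (N : ℝ) ^ 2 ≤ η ∧ a' ≤ a + η ∧ ∀ k : V N, k ≠ 0 →
    Pin N b t k ≤ z + a' * EE k + η * EE k ^ 2 / t

/-- the upper half at a smaller mass -/
theorem FU_of_FL (hb : 0 < b) {T t a η : ℝ} (hT : 0 < T) (h : T ≤ t) (hF : FL b t a η N) :
    FU b T a η N := by
  obtain ⟨z, a1, hz0, hz1, ha, hP⟩ := hF
  have hη0 : 0 ≤ η := (abs_nonneg _).trans ha
  have ha' := (abs_le.1 ha).2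
  refine ⟨z, a1, hz0, hz1, by linarith, fun k hk => ?_⟩
  have h1 := H276.Pin_mono (N := N) hb hT h hk
  have h2 := (abs_le.1 (hP k hk)).2
  have h3 : η * EE k ^ 2 / t ≤ η * EE k ^ 2 / T :=
    div_le_div_of_nonneg_left (by positivity) hT h
  linarith

/-- **top of the cell form from the flat profile**: `acl(k) ≤ (a + 3 η + 20 t l²) EE k` -/
theorem sym_acl_up (hb : 0 < b) (hl : l ∣ N) (ht : 0 < t) {a η : ℝ} (ha1 : 1 ≤ a) (ha2 : a ≤ 2)
    (hη0 : 0 ≤ η) (hη : η ≤ 1) (hν : t * (l : ℝ) ^ 2 ≤ 1 / 4) (hF : FU b t a η N) (k : V (N / l)) :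
    sym (acl N l b t t) k ≤ (a + 3 * η + 20 * (t * (l : ℝ) ^ 2)) * EE k := by
  have hlp : (0 : ℝ) < l := by exact_mod_cast H864.l_pos hl
  have hN : (0 : ℝ) < N := by exact_mod_cast NeZero.pos N
  obtain ⟨z, a1, hz0, hz1, ha, hP⟩ := hF
  set ν : ℝ := t * (l : ℝ) ^ 2 with hνd
  have hν0 : 0 < ν := by positivity
  have hE0 := TM.H764.EE_nonneg k
  by_cases hk : k = 0
  · rw [hk, sym_acl_zero hl hb.le ht le_rfl]
    have h1 := TM.H764.EE_nonneg (0 : V (N / l))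
    positivity
  set E : ℝ := EE k with hEd
  have hA0 := sym_acl_le (N := N) hb.le hl ht (le_refl t) k
  rw [← hνd] at hA0
  by_cases hEν : ν ≤ E
  · refine hA0.trans (hEν.trans ?_)
    have : 1 ≤ a + 3 * η + 20 * ν := by linarith
    nlinarith
  push Not at hEν
  obtain ⟨p, hp, hpk⟩ := H864.exists_cen (N := N) hl k
  have hp0 : p ≠ 0 := by
    rintro rfl
    exact hk (by rw [← hpk, H864.rd_zero hl])
  have hEp := TM.H764.EE_nonneg p
  have hlap := lap_cen (N := N) hl hp (by rw [hpk]; linarith)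
  rw [hpk, ← hEd] at hlap
  set x : ℝ := (l : ℝ) ^ 2 * EE p with hxd
  have hx0 : 0 ≤ x := by positivity
  have hx1 : x ≤ E * (1 + ν / 2) := hlap.trans (mul_le_mul_of_nonneg_left (by linarith) hE0)
  have hx2 : x ≤ 9 / 8 * ν := by
    have : E * (1 + ν / 2) ≤ ν * (9 / 8) := mul_le_mul hEν.le (by linarith) (by positivity) hν0.le
    linarith
  have hup := PinC_up (N := N) hb hl ht hp hp0 (by rw [← hxd]; linarith)
  rw [← hxd] at hup
  have hPp' := hP p hp0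
  -- `l² Pin ≤ x (a + 3η)`
  have hmin := EE_ge_min (N := N) hp0
  have hzz : (l : ℝ) ^ 2 * z ≤ η / 16 * x := by
    have h1 : z ≤ η / (N : ℝ) ^ 2 := by
      rw [le_div_iff₀ (by positivity)]
      exact hz1
    have h2 : η / (N : ℝ) ^ 2 ≤ η / 16 * EE p := by
      have h3 := mul_le_mul_of_nonneg_left hmin (show 0 ≤ η / 16 by positivity)
      refine le_trans (le_of_eq ?_) h3
      field_simp
    have h4 := mul_le_mul_of_nonneg_left (h1.trans h2) (sq_nonneg (l : ℝ))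
    refine h4.trans (le_of_eq ?_)
    rw [hxd]
    ring
  have hquad : (l : ℝ) ^ 2 * (η * EE p ^ 2 / t) ≤ 9 / 8 * η * x := by
    have e1 : (l : ℝ) ^ 2 * (η * EE p ^ 2 / t) = η * x * (x / ν) := by
      rw [hxd, hνd]
      field_simp
    rw [e1]
    have h1 : x / ν ≤ 9 / 8 := by
      rw [div_le_iff₀ hν0]
      exact hx2
    have h2 := mul_le_mul_of_nonneg_left h1 (show 0 ≤ η * x by positivity)
    linarith
  have ha' := ha
  have hPin : (l : ℝ) ^ 2 * Pin N b t p ≤ x * (a + 9 / 4 * η) := by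
    have h1 : Pin N b t p ≤ z + a1 * EE p + η * EE p ^ 2 / t := by linarith
    have h2 := mul_le_mul_of_nonneg_left h1 (sq_nonneg (l : ℝ))
    have e1 : (l : ℝ) ^ 2 * (z + a1 * EE p + η * EE p ^ 2 / t) =
        (l : ℝ) ^ 2 * z + a1 * x + (l : ℝ) ^ 2 * (η * EE p ^ 2 / t) := by
      rw [hxd]
      ring
    rw [e1] at h2
    have h3 : a1 * x ≤ (a + η) * x := mul_le_mul_of_nonneg_right (by linarith) hx0
    nlinarith
  have hPin0 := H963.Pin_nonneg (N := N) hb ht hp0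
  have hPC0 := H963.PinC_nonneg (N := N) hb hl ht (le_refl t) hk
  -- the cell form
  have hA : sym (acl N l b t t) k ≤ (l : ℝ) ^ 2 * PinC N l b t t k := by
    rw [sym_acl_eq hb hl ht (le_refl t) hk]
    refine mul_le_mul_of_nonneg_left ?_ (sq_nonneg _)
    rw [div_le_iff₀ (by positivity)]
    nlinarith
  refine hA.trans ?_
  rw [hpk] at hup
  have hup2 : (l : ℝ) ^ 2 * PinC N l b t t k ≤
      (l : ℝ) ^ 2 * Pin N b t p + 2 * x * (ν + (l : ℝ) ^ 2 * Pin N b t p) := by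
    have h1 : PinC N l b t t k ≤ Pin N b t p + 2 * x * (t + Pin N b t p) := by linarith
    have h2 := mul_le_mul_of_nonneg_left h1 (sq_nonneg (l : ℝ))
    refine h2.trans (le_of_eq ?_)
    rw [hνd]
    ring
  exact hup2.trans (top_arith hη0 hη ha1 ha2 hν0 hν hE0 hx0 hx1 hx2 hPin)

/-- the quadratic form of the cell form, literal shape of the V modules -/
theorem acl_up (hb : 0 < b) (hl : l ∣ N) (ht : 0 < t) {a η : ℝ} (ha1 : 1 ≤ a) (ha2 : a ≤ 2)
    (hη0 : 0 ≤ η) (hη : η ≤ 1) (hν : t * (l : ℝ) ^ 2 ≤ 1 / 4) (hF : FU b t a η N) (u : V (N / l) → ℝ) :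
    (acl N l b t t *ᵥ u) ⬝ᵥ u ≤ (a + 3 * η + 20 * (t * (l : ℝ) ^ 2)) * dirE u := by
  have ht1 := ti_acl (N := N) hb.le hl ht (le_refl t)
  have ht2 : TI ((a + 3 * η + 20 * (t * (l : ℝ) ^ 2)) • (lapM : Matrix (V (N / l)) (V (N / l)) ℝ)) :=
    H864.ti_lapM.smul _
  have h1 := (H864.qf_le_iff ht1 ht2).2 (fun k => by
    rw [H864.sym_smul, H864.sym_lapM]
    exact sym_acl_up hb hl ht ha1 ha2 hη0 hη hν hF k) u
  have e : grd u = dirE u := by
    unfold TM.H764.grd TM.H859.dirE TM.H764.Q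
    rw [Finset.sum_add_distrib]
  rw [H864.qf_smul_mat, H864.qf_lapM, e] at h1
  rw [dotProduct_comm, ← H37.qf_eq]
  exact h1


/-- **every real mass below the mass of the flat profile**, symbols -/
theorem sym_acl_topT (hb : 0 < b) (hl : l ∣ N) {T t a η : ℝ} (hT : 0 < T) (h : T ≤ t)
    (ha1 : 1 ≤ a) (ha2 : a ≤ 2) (hη : η ≤ 1) (hν : T * (l : ℝ) ^ 2 ≤ 1 / 4)
    (hF : FL b t a η N) (k : V (N / l)) :
    sym (acl N l b T T) k ≤ (a + 3 * η + 20 * (T * (l : ℝ) ^ 2)) * EE k := by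
  have hη0 : 0 ≤ η := by
    obtain ⟨z, a1, _, _, ha, _⟩ := hF
    exact (abs_nonneg _).trans ha
  exact sym_acl_up hb hl hT ha1 ha2 hη0 hη hν (FU_of_FL hb hT h hF) k

/-- **every real mass below the mass of the flat profile**, quadratic form -/
theorem acl_topT (hb : 0 < b) (hl : l ∣ N) {T t a η : ℝ} (hT : 0 < T) (h : T ≤ t)
    (ha1 : 1 ≤ a) (ha2 : a ≤ 2) (hη : η ≤ 1) (hν : T * (l : ℝ) ^ 2 ≤ 1 / 4)
    (hF : FL b t a η N) (u : V (N / l) → ℝ) :
    (acl N l b T T *ᵥ u) ⬝ᵥ u ≤ (a + 3 * η + 20 * (T * (l : ℝ) ^ 2)) * dirE u := by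
  have hη0 : 0 ≤ η := by
    obtain ⟨z, a1, _, _, ha, _⟩ := hF
    exact (abs_nonneg _).trans ha
  exact acl_up hb hl hT ha1 ha2 hη0 hη hν (FU_of_FL hb hT h hF) u

end

end Vale.Agent.P159.H375
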