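import Vale.Agent.P159.TM.H574.Mom4
import Vale.Agent.P159.TM.H574.Muv

/-!
P159, module UV1, part 1: tools for the pinned box `SpecI.ex b es X Q`.
-/

open Filter Topology

namespace Vale.Agent.P159.H375

open Vale.Agent.P159.TM
open Vale.Agent.P159.TM.H22 (SG Gle lin)
open Vale.Agent.P159.TM.SpecI
open Vale.Agent.P159.TM.H574
open Vale.Agent.P159.H353 (wI wI_nonneg wI_neg wI_zero_pos)
open Finset

section gen

variable {n : ℕ} [NeZero n] {b : ℝ}

lemma gr_pow4 (ρ : V n → ℝ) : H22.Gr fun h : V n → ℤ => pr ρ h ^ 4 := by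
  refine ((gr_sq (V := V n) ρ).mul (gr_sq ρ)).mono fun h => ?_
  have : pr ρ h = lin ρ h := rfl
  rw [this, show lin ρ h ^ 4 = lin ρ h ^ 2 * lin ρ h ^ 2 by ring]

/-- pinned set, `e^{-u} ≥ 1 - u` -/
theorem lower_pin (hb : 0 ≤ b) {M : (V n → ℤ) → ℝ} (hM : SQ M) {X : Finset (V n)}
    (hX : X.Nonempty) (g : V n → ℝ) :
    ex b (inn n) X (fun _ => 0) (fun h => pr g h ^ 2) -
        1 / 2 * ex b (inn n) X (fun _ => 0) (fun h => pr g h ^ 2 * M h) ≤
      ex b (inn n) X M (fun h => pr g h ^ 2) := by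
  classical
  have sg0 : SG (wt b (inn n) X (fun _ => 0)) :=
    sg_wt hb (fun _ => le_rfl) (fun _ => rfl) (coe_pin hX _)
  have sgM : SG (wt b (inn n) X M) := sg_wt hb hM.nonneg hM.even (coe_pin hX _)
  have hgM : H22.Gr M := hM.gr
  have hw : ∀ h : V n → ℤ, wt b (inn n) X M h =
      wt b (inn n) X (fun _ => 0) h * Real.exp (-(M h / 2)) := by
    intro h
    unfold wt
    rw [neg_zero, zero_div, Real.exp_zero, mul_one, neg_div]
  have gF : H22.Gr fun h : V n → ℤ => pr g h ^ 2 := gr_sq g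
  have s1 := sg0.sum gF
  have s2 := sg0.sum (gF.mul hgM)
  have s3 := sgM.sum gF
  have z0 := MM_one_pos hb sg0
  have zM := MM_one_pos hb sgM
  have hZ : H22.MM (wt b (inn n) X M) (fun _ => 1) ≤
      H22.MM (wt b (inn n) X (fun _ => 0)) fun _ => 1 := by
    refine (sgM.sum (H22.Gr.const (1 : ℝ))).tsum_le_tsum (fun h => ?_)
      (sg0.sum (H22.Gr.const (1 : ℝ)))
    rw [hw, mul_one, mul_one]
    refine mul_le_of_le_one_right (sg0.nonneg h) (Real.exp_le_one_iff.2 ?_)
    have := hM.nonneg h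
    linarith
  have hN : H22.MM (wt b (inn n) X (fun _ => 0)) (fun h => pr g h ^ 2) -
      1 / 2 * H22.MM (wt b (inn n) X (fun _ => 0)) (fun h => pr g h ^ 2 * M h) ≤
      H22.MM (wt b (inn n) X M) fun h => pr g h ^ 2 := by
    unfold H22.MM
    rw [← tsum_mul_left, ← s1.tsum_sub (s2.mul_left (1 / 2))]
    refine (s1.sub (s2.mul_left (1 / 2))).tsum_le_tsum (fun h => ?_) s3
    rw [hw]
    have h3 := Real.add_one_le_exp (-(M h / 2))
    have h4 : 0 ≤ wt b (inn n) X (fun _ => 0) h * pr g h ^ 2 :=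
      mul_nonneg (sg0.nonneg h) (sq_nonneg _)
    nlinarith
  have hN0 : 0 ≤ H22.MM (wt b (inn n) X M) fun h => pr g h ^ 2 :=
    tsum_nonneg fun h => mul_nonneg (sgM.nonneg h) (sq_nonneg _)
  rw [ex_eq, ex_eq, ex_eq]
  calc _ = (H22.MM (wt b (inn n) X (fun _ => 0)) (fun h => pr g h ^ 2) -
        1 / 2 * H22.MM (wt b (inn n) X (fun _ => 0)) (fun h => pr g h ^ 2 * M h)) /
          H22.MM (wt b (inn n) X (fun _ => 0)) (fun _ => 1) := by ring
    _ ≤ H22.MM (wt b (inn n) X M) (fun h => pr g h ^ 2) /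
          H22.MM (wt b (inn n) X (fun _ => 0)) (fun _ => 1) := by
        gcongr
    _ ≤ _ := div_le_div_of_nonneg_left hN0 zM hZ

/-- the mass form matters only on pinned configurations -/
lemma ex_mass_congr {es : Finset (V n × Bool)} {X : Finset (V n)} {Q Q' : (V n → ℤ) → ℝ}
    (h : ∀ h : V n → ℤ, (∀ x ∈ X, h x = 0) → Q h = Q' h) (F : (V n → ℤ) → ℝ) :
    ex b es X Q F = ex b es X Q' F := by
  classical
  have hw : ∀ h, wt b es X Q h = wt b es X Q' h := by
    intro k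
    unfold wt
    by_cases hk : ∀ x ∈ X, k x = 0
    · rw [h k hk]
    · simp only [if_neg hk, zero_mul]
  unfold ex
  simp only [hw]

/-- the functional matters only on pinned configurations -/
lemma ex_fun_congr {es : Finset (V n × Bool)} {X : Finset (V n)} {Q : (V n → ℤ) → ℝ}
    {F G : (V n → ℤ) → ℝ} (h : ∀ h : V n → ℤ, (∀ x ∈ X, h x = 0) → F h = G h) :
    ex b es X Q F = ex b es X Q G := by
  classical
  unfold ex
  congr 1
  refine tsum_congr fun k => ?_
  by_cases hk : ∀ x ∈ X, k x = 0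
  · rw [h k hk]
  · unfold wt
    simp only [if_neg hk, zero_mul]

/-- edges with both ends pinned drop out -/
theorem ex_univ_pin (hb : 0 ≤ b) {X : Finset (V n)} (Q : (V n → ℤ) → ℝ)
    (hX : ∀ e : V n × Bool, e ∉ inn n → e.1 ∈ X ∧ tgt e ∈ X) (F : (V n → ℤ) → ℝ) :
    ex b univ X Q F = ex b (inn n) X Q F := by
  classical
  have hc : 0 < ∏ _e ∈ univ \ inn n, wI b 0 := prod_pos fun e _ => wI_zero_pos hb
  have hw : ∀ h : V n → ℤ, wt b univ X Q h =
      (∏ _e ∈ univ \ inn n, wI b 0) * wt b (inn n) X Q h := by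
    intro h
    unfold wt
    by_cases h1 : ∀ x ∈ X, h x = 0
    · rw [if_pos h1, ← prod_sdiff (subset_univ (inn n))]
      have : ∏ e ∈ univ \ inn n, wI b (h (tgt e) - h e.1) = ∏ _e ∈ univ \ inn n, wI b 0 := by
        refine prod_congr rfl fun e he => ?_
        obtain ⟨h2, h3⟩ := hX e (mem_sdiff.1 he).2
        rw [h1 _ h2, h1 _ h3, sub_zero]
      rw [this]
      ring
    · rw [if_neg h1]
      ring
  unfold ex
  simp only [hw, mul_assoc, tsum_mul_left]
  rw [mul_div_mul_left _ _ hc.ne']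

/-- the edges which wrap around are far from a square inside -/
lemma wrap_pin {p : ℕ × ℕ} {L : ℕ} (hp1 : 1 ≤ p.1) (hp2 : 1 ≤ p.2) (h1 : p.1 + L + 1 ≤ n)
    (h2 : p.2 + L + 1 ≤ n) (e : V n × Bool) (he : e ∉ inn n) :
    e.1 ∈ (bx p L : Finset (V n))ᶜ ∧ tgt e ∈ (bx p L : Finset (V n))ᶜ := by
  obtain ⟨x, o⟩ := e
  have l1 := ZMod.val_lt x.1
  have l2 := ZMod.val_lt x.2
  rw [mem_compl, mem_compl, mem_bx, mem_bx]
  cases o
  · rw [mem_inn_false] at he
    have hv : x.1.val = n - 1 := by omega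
    have ht : (tgt (x, false)).1.val = 0 := by
      have : (tgt (x, false)).1 = 0 := by
        unfold tgt
        simp only [Bool.false_eq_true, if_false]
        have e1 : x.1 = ((n - 1 : ℕ) : ZMod n) := by
          rw [← hv, ZMod.natCast_zmod_val]
        rw [e1]
        have e2 : (1 : ZMod n) = ((1 : ℕ) : ZMod n) := by simp
        rw [e2, ← Nat.cast_add, Nat.sub_add_cancel (by omega)]
        simp
      rw [this, ZMod.val_zero]
    simp only
    omega
  · rw [mem_inn_true] at he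
    have hv : x.2.val = n - 1 := by omega
    have ht : (tgt (x, true)).2.val = 0 := by
      have : (tgt (x, true)).2 = 0 := by
        unfold tgt
        simp only [if_true]
        have e1 : x.2 = ((n - 1 : ℕ) : ZMod n) := by
          rw [← hv, ZMod.natCast_zmod_val]
        rw [e1]
        have e2 : (1 : ZMod n) = ((1 : ℕ) : ZMod n) := by simp
        rw [e2, ← Nat.cast_add, Nat.sub_add_cancel (by omega)]
        simp
      rw [this, ZMod.val_zero]
    simp only
    omega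

/-- **one step of the mass path in a pinned box** -/
theorem stepP (hb : 0 ≤ b) {X : Finset (V n)} (hX : X.Nonempty) {M Q : (V n → ℤ) → ℝ}
    (hM : SQ M) (hQ : SQ Q) {φ : V n → ℝ} {C D : ℝ} (hC0 : 0 ≤ C)
    (hC : ∀ t : ℝ, 0 ≤ t → t ≤ 1 → ex b (inn n) X (fun h => M h + t * Q h)
      (fun h => pr φ h ^ 4) ≤ C)
    (hD : ex b (inn n) X M Q - ex b (inn n) X (fun h => M h + Q h) Q ≤ D) :
    ex b (inn n) X M (fun h => pr φ h ^ 2) -
      ex b (inn n) X (fun h => M h + Q h) (fun h => pr φ h ^ 2) ≤ √C * √(D / 2) := by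
  classical
  have sg : SG (wt b (inn n) X M) := sg_wt hb hM.nonneg hM.even (coe_pin hX _)
  have gQ := hQ.gr
  have hs : Summable (wt b (inn n) X M) :=
    (sg.sum (H22.Gr.const (1 : ℝ))).congr fun h => mul_one _
  have h0 : ∃ x, 0 < wt b (inn n) X M x := ⟨0, wt_zero_pos hb _ _ _⟩
  have g2 : H22.Gr fun h : V n → ℤ => pr φ h ^ 2 := gr_sq φ
  have hF : Summable fun h => wt b (inn n) X M h * (pr φ h ^ 2) ^ 2 :=
    (sg.sum (g2.mul g2)).congr fun h => by ring
  have hQ2 : Summable fun h => wt b (inn n) X M h * (Q h) ^ 2 :=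
    (sg.sum (gQ.mul gQ)).congr fun h => by ring
  have hE : ∀ (F : (V n → ℤ) → ℝ) (t : ℝ), Et (wt b (inn n) X M) Q F t =
      ex b (inn n) X (fun h => M h + t * Q h) F := by
    intro F t
    have e : ∀ h, wt b (inn n) X (fun h => M h + t * Q h) h =
        wt b (inn n) X M h * Real.exp (-(t / 2) * Q h) := by
      intro h
      unfold wt
      rw [show -(M h + t * Q h) / 2 = -(M h) / 2 + -(t / 2) * Q h by ring, Real.exp_add]
      ring
    unfold Et At ex
    congr 1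
    · exact tsum_congr fun h => by rw [e]; ring
    · exact tsum_congr fun h => by rw [e]; ring
  have h1 := path (w := wt b (inn n) X M) (Q := Q)
    (F := fun h => pr φ h ^ 2) (S := √C) sg.nonneg hQ.nonneg hs h0 hF hQ2
    (Real.sqrt_nonneg C) (by
      intro t ht
      rw [Real.sq_sqrt hC0]
      unfold Ct
      have h2 := hC t ht.1 ht.2
      have e1 : Et (wt b (inn n) X M) Q (fun x => pr φ x ^ 2 * pr φ x ^ 2) t =
          ex b (inn n) X (fun h => M h + t * Q h) (fun h => pr φ h ^ 4) := by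
        rw [hE]
        congr 1
        funext h
        ring
      rw [e1]
      have := mul_self_nonneg (Et (wt b (inn n) X M) Q (fun h => pr φ h ^ 2) t)
      linarith)
  have e0 : ∀ F : (V n → ℤ) → ℝ, Et (wt b (inn n) X M) Q F 0 = ex b (inn n) X M F := by
    intro F
    rw [hE]
    congr 1
    funext h
    ring
  have e1 : ∀ F : (V n → ℤ) → ℝ, Et (wt b (inn n) X M) Q F 1 =
      ex b (inn n) X (fun h => M h + Q h) F := by
    intro F
    rw [hE]
    congr 1
    funext h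
    ring
  rw [e0, e1, e0, e1] at h1
  refine (le_abs_self _).trans (h1.trans ?_)
  refine mul_le_mul_of_nonneg_left (Real.sqrt_le_sqrt ?_) (Real.sqrt_nonneg C)
  linarith

/-- exponential moment of a neutral functional at scale `r` in the pinned box, any mass form -/
lemma neut_cosh_r (hb : 0 ≤ b) {X : Finset (V n)} (hX : X.Nonempty) {q : ℕ × ℕ} {r : ℕ}
    (hr : 2 ≤ r) (h1 : q.1 + r ≤ n) (h2 : q.2 + r ≤ n) {ψ : V n → ℝ} (hs : ∑ x, ψ x = 0)
    (hg : ∀ x, x ∉ bx q r → ψ x = 0) (hg1 : ∀ x, |ψ x| ≤ 1 / (r : ℝ) ^ 2) :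
    ex b (inn n) X (fun _ => 0) (fun h => Real.cosh (pr ψ h / 2)) ≤ Real.exp (b * 3) := by
  have hgr : H928.IsGrid (H928.ss n) (H928.tt n)
      (fun i j => H928.vp n (q.1 + i) (q.2 + j)) r r := H928.grid_V.shift h1 h2
  obtain ⟨a, a1, a2, a3⟩ := H928.flow_neutral (r := r) (by omega) hgr
    (fun i j => ψ (H928.vp n (q.1 + i) (q.2 + j)))
    (by rw [← H928.sum_coord h1 h2 hg, hs]) (fun i j _ _ => hg1 _)
  have hr' : (2 : ℝ) ≤ r := by exact_mod_cast hr
  have e : ∀ h : V n → ℤ, pr ψ h / 2 =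
      H928.lf (H928.ss n) (H928.tt n) (fun e => (1 / 2) * a e) h := by
    intro h
    rw [H928.lf_smul, H928.pr_coord h1 h2 hg, a1]
    unfold H928.lf
    ring
  rw [H928.ex_inn hb]
  simp only [e]
  refine H928.cosh_bare_sq H928.conn_V (fun _ => hb) (fun _ => le_rfl) (by exact_mod_cast hX)
    (fun e => ?_) ?_ hb
  · rw [abs_mul, abs_of_pos (by norm_num : (0 : ℝ) < 1 / 2)]
    have h3 := a2 e
    have h4 : 3 / (r : ℝ) ≤ 3 / 2 := div_le_div_of_nonneg_left (by norm_num) (by norm_num) hr'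
    linarith
  · have h5 : ∑ e, (1 / 2 * a e) ^ 2 = 1 / 4 * ∑ e, a e ^ 2 := by
      rw [mul_sum]
      exact sum_congr rfl fun e _ => by ring
    rw [h5]
    linarith

/-- fourth moment of a neutral functional in the pinned box, any mass form -/
theorem mom4_pin (hb : 0 ≤ b) {X : Finset (V n)} (hX : X.Nonempty) {q : ℕ × ℕ} {r : ℕ}
    (hr : 2 ≤ r) (h1 : q.1 + r ≤ n) (h2 : q.2 + r ≤ n) {ψ : V n → ℝ} (hs : ∑ x, ψ x = 0)
    (hg : ∀ x, x ∉ bx q r → ψ x = 0) (hg1 : ∀ x, |ψ x| ≤ 1 / (r : ℝ) ^ 2)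
    {M : (V n → ℤ) → ℝ} (hM : SQ M) :
    ex b (inn n) X M (fun h => pr ψ h ^ 4) ≤ 384 * Real.exp (b * 3) := by
  have sgM : SG (wt b (inn n) X M) := sg_wt hb hM.nonneg hM.even (coe_pin hX _)
  have F0 : ∀ h : V n → ℤ, Real.cosh (pr ψ h / 2) =
      Real.cosh (lin (fun x => 1 / 2 * ψ x) h) := fun h => by
    rw [lin_hsmul]
    rfl
  have iF : Inc fun h : V n → ℤ => Real.cosh (pr ψ h / 2) := by
    simp only [F0]
    exact inc_cosh _
  have up : ex b (inn n) X M (fun h => Real.cosh (pr ψ h / 2)) ≤ Real.exp (b * 3) := by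
    have h3 := ex_mono (es := inn n) (es' := inn n) (X := X) (X' := X) (Q := fun _ => 0)
      (R := M) hb subset_rfl subset_rfl SQ.zero hM (coe_pin hX _) iF
    simp only [zero_add] at h3
    exact h3.trans (neut_cosh_r hb hX hr h1 h2 hs hg hg1)
  have h4 : ex b (inn n) X M (fun h => pr ψ h ^ 4) ≤
      ex b (inn n) X M (fun h => 384 * Real.cosh (pr ψ h / 2)) := by
    refine ex_le hb sgM (gr_pow4 ψ) (iF.1.const_mul _) fun h _ => ?_
    have h5 := pow4_le_cosh (pr ψ h / 2)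
    have h6 : (pr ψ h / 2) ^ 4 = pr ψ h ^ 4 / 16 := by ring
    rw [h6] at h5
    linarith
  refine h4.trans ?_
  rw [ex_smul]
  exact mul_le_mul_of_nonneg_left up (by norm_num)

/-- second moment from the fourth -/
lemma mom2_of_4 (hb : 0 ≤ b) {es : Finset (V n × Bool)} {X : Finset (V n)}
    {M : (V n → ℤ) → ℝ} (sg : SG (wt b es X M)) (ψ : V n → ℝ) {A : ℝ}
    (h : ex b es X M (fun h => pr ψ h ^ 4) ≤ A) :
    ex b es X M (fun h => pr ψ h ^ 2) ≤ A + 1 := by
  have e3 : ex b es X M (fun _ => (1 : ℝ)) = 1 := by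
    rw [ex_eq]
    exact div_self (MM_one_pos hb sg).ne'
  have hle : ex b es X M (fun h => pr ψ h ^ 2) ≤ ex b es X M (fun h => pr ψ h ^ 4 + 1) := by
    refine ex_le hb sg (gr_sq ψ) ((gr_pow4 ψ).add (H22.Gr.const 1)) fun x _ => ?_
    nlinarith [sq_nonneg (pr ψ x ^ 2 - 1), sq_nonneg (pr ψ x ^ 2)]
  rw [ex_add sg (gr_pow4 ψ) (H22.Gr.const 1), e3] at hle
  linarith

/-- drop the mass, cut out a square, from a pinned state -/
theorem upper_pin (hb : 0 ≤ b) {M : (V n → ℤ) → ℝ} (hM : SQ M) {X : Finset (V n)}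
    (hX : X.Nonempty) {p : ℕ × ℕ} {s : ℕ} (h1 : p.1 + s ≤ n) (h2 : p.2 + s ≤ n) (hs : 1 ≤ s)
    {g : V n → ℝ} (hg : ∑ x, g x = 0) (hsu : ∀ x, x ∉ bx p s → g x = 0) :
    ex b (inn n) X M (fun h => pr g h ^ 2) ≤
      ex b (eb p s) ((bx p s)ᶜ ∪ {cnr p}) (fun _ => 0) (fun h => pr g h ^ 2) := by
  classical
  obtain ⟨y, hy⟩ := hX
  set M' : (V n → ℤ) → ℝ := fun h => M h + 1 * lin (Pi.single y 1) h ^ 2 with hM'
  have ly : ∀ h : V n → ℤ, lin (Pi.single y 1) h = (h y : ℝ) := by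
    intro h
    unfold lin
    simp [Pi.single_apply]
  have sM' : SQ M' := hM.add (SQ.one zero_le_one _)
  have cM' : Coe (inn n) ∅ M' := by
    refine ⟨4 * n + 1, by positivity, fun h _ x => ?_⟩
    have o1 := osc_inn h x
    have o2 := osc_inn h y
    have hT := Tv_nonneg (inn n) h
    have h3 : |(h y : ℝ)| ≤ √(M' h) := by
      rw [← Real.sqrt_sq_eq_abs]
      refine Real.sqrt_le_sqrt ?_
      simp only [hM', ly, one_mul]
      linarith [hM.nonneg h]
    have e : (h x : ℝ) = ((h x : ℝ) - h (cnr (0, 0))) - ((h y : ℝ) - h (cnr (0, 0))) + h y := by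
      ring
    rw [e]
    refine (abs_add_le _ _).trans ?_
    have h4 := abs_sub ((h x : ℝ) - h (cnr (0, 0))) ((h y : ℝ) - h (cnr (0, 0)))
    have h5 : (0 : ℝ) ≤ 4 * n * √(M' h) := by positivity
    nlinarith [Real.sqrt_nonneg (M' h)]
  have e1 : ex b (inn n) X M (fun h => pr g h ^ 2) = ex b (inn n) X M' (fun h => pr g h ^ 2) := by
    refine ex_mass_congr (fun h hh => ?_) _
    simp only [hM', ly, hh y hy]
    simp
  rw [e1]
  have h5 := ex_mono (es := inn n) (es' := inn n) (X := ∅) (X' := X) (Q := M')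
    (R := fun _ => 0) hb subset_rfl (empty_subset X) sM' SQ.zero cM' (inc_sq g)
  simp only [add_zero] at h5
  exact h5.trans (upper_gen hb sM' cM' h1 h2 hs hg hsu)

end gen

end Vale.Agent.P159.H375
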