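import Vale.Agent.P159.H37.Gau

/-!
P159 / H375: crude moments of the standard Gaussian measure of `I → ℝ`:
`∫ (1 + |g|²)^k ≤ C_k (#I + 1)^k`, and `∫_{Bad} (1 + |g|²)^4 ≤ 10^6 (#I + 1)^4 √p` when `Bad` has
probability at most `p`.
-/

set_option linter.unusedSectionVars false

namespace Vale.Agent.P159.H375

open MeasureTheory ProbabilityTheory Finset
open Vale.Agent.P159.H37

noncomputable section

variable {I : Type*} [Fintype I]

/-- an even power is bounded by exponentials -/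
lemma pow_le_expo {s : ℝ} (hs : 0 < s) (k : ℕ) (x : ℝ) :
    x ^ (2 * k) ≤ (2 * k).factorial / s ^ (2 * k) * (Real.exp (s * x) + Real.exp (-s * x)) := by
  have h1 := Real.pow_div_factorial_le_exp (s * |x|) (by positivity) (2 * k)
  have h2 : Real.exp (s * |x|) ≤ Real.exp (s * x) + Real.exp (-s * x) := by
    rcases abs_cases x with ⟨h, _⟩ | ⟨h, _⟩
    · rw [h]
      linarith [Real.exp_pos (-s * x)]
    · rw [h]
      have : s * -x = -s * x := by ring
      rw [this]
      linarith [Real.exp_pos (s * x)]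
  have h3 : x ^ (2 * k) = |x| ^ (2 * k) := by
    rw [pow_mul, pow_mul, sq_abs]
  have hf : (0 : ℝ) < (2 * k).factorial := by exact_mod_cast Nat.factorial_pos _
  rw [div_le_iff₀ hf, mul_pow] at h1
  rw [h3, div_mul_eq_mul_div, le_div_iff₀ (by positivity)]
  calc |x| ^ (2 * k) * s ^ (2 * k) = s ^ (2 * k) * |x| ^ (2 * k) := by ring
    _ ≤ Real.exp (s * |x|) * (2 * k).factorial := h1
    _ ≤ (Real.exp (s * x) + Real.exp (-s * x)) * (2 * k).factorial := by gcongr
    _ = _ := by ring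

lemma exp_coord [DecidableEq I] (i : I) (s : ℝ) (g : I → ℝ) :
    Real.exp (s * g i) = Real.exp (∑ j, (Pi.single i s : I → ℝ) j * g j) := by
  congr 1
  rw [Finset.sum_eq_single i (fun j _ hj => by rw [Pi.single_eq_of_ne hj, zero_mul])
    (fun h => absurd (Finset.mem_univ i) h), Pi.single_eq_same]

lemma int_exp_coord (i : I) (s : ℝ) :
    Integrable (fun g : I → ℝ => Real.exp (s * g i)) (gau I) := by
  classical
  simp only [exp_coord i s]
  exact integrable_exp_lin _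

lemma exp_coord_eq (i : I) (s : ℝ) : ∫ g, Real.exp (s * g i) ∂(gau I) = Real.exp (s ^ 2 / 2) := by
  classical
  simp only [exp_coord i s]
  rw [gau_exp]
  congr 2
  rw [Finset.sum_eq_single i (fun j _ hj => by rw [Pi.single_eq_of_ne hj]; simp)
    (fun h => absurd (Finset.mem_univ i) h), Pi.single_eq_same]

lemma int_pow_i (i : I) (k : ℕ) : Integrable (fun g : I → ℝ => g i ^ (2 * k)) (gau I) := by
  refine (((int_exp_coord i 1).add (int_exp_coord i (-1))).const_mul
    ((2 * k).factorial / (1 : ℝ) ^ (2 * k))).mono'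
    (Measurable.aestronglyMeasurable (by fun_prop)) (Filter.Eventually.of_forall fun g => ?_)
  rw [Real.norm_eq_abs, abs_of_nonneg (by rw [pow_mul]; positivity)]
  exact pow_le_expo one_pos k (g i)

/-- even moments of one coordinate -/
lemma mom_coord (i : I) (k : ℕ) {s : ℝ} (hs : 0 < s) :
    ∫ g, g i ^ (2 * k) ∂(gau I) ≤ (2 * k).factorial / s ^ (2 * k) * (2 * Real.exp (s ^ 2 / 2)) := by
  have h1 : ∫ g, g i ^ (2 * k) ∂(gau I) ≤ ∫ g, (2 * k).factorial / s ^ (2 * k) *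
      (Real.exp (s * g i) + Real.exp (-s * g i)) ∂(gau I) :=
    integral_mono (int_pow_i i k)
      (((int_exp_coord i s).add (int_exp_coord i (-s))).const_mul _) fun g => pow_le_expo hs k (g i)
  refine h1.trans (le_of_eq ?_)
  rw [integral_const_mul, integral_add (int_exp_coord i s) (int_exp_coord i (-s)), exp_coord_eq,
    exp_coord_eq, neg_sq]
  ring

/-- the power mean inequality for `1 + |g|²` -/
lemma pow_sum_le (k : ℕ) (g : I → ℝ) :
    (1 + ∑ i, g i ^ 2) ^ (k + 1) ≤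
      ((Fintype.card I : ℝ) + 1) ^ k * (1 + ∑ i, g i ^ (2 * (k + 1))) := by
  have h1 := pow_sum_div_card_le_sum_pow (s := (Finset.univ : Finset (Option I)))
    (f := fun o : Option I => o.elim (1 : ℝ) fun i => g i ^ 2) (fun o _ => by
      rcases o with _ | i
      · simp
      · simp only [Option.elim]
        positivity) k
  rw [Fintype.sum_option, Fintype.sum_option, Finset.card_univ, Fintype.card_option,
    div_le_iff₀ (by positivity)] at h1
  simp only [Option.elim, one_pow, Nat.cast_add, Nat.cast_one] at h1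
  refine h1.trans (le_of_eq ?_)
  rw [mul_comm]
  congr 2
  refine Finset.sum_congr rfl fun i _ => ?_
  rw [← pow_mul]

lemma int_sum_pow (k : ℕ) : Integrable (fun g : I → ℝ => (1 + ∑ i, g i ^ 2) ^ k) (gau I) := by
  rcases k with _ | k
  · simp
  · have hi : Integrable (fun g : I → ℝ => ∑ i, g i ^ (2 * (k + 1))) (gau I) :=
      integrable_finsetSum (f := fun (i : I) (g : I → ℝ) => g i ^ (2 * (k + 1))) Finset.univ
        fun i _ => int_pow_i i (k + 1)
    have hi2 : Integrable (fun g : I → ℝ => ((Fintype.card I : ℝ) + 1) ^ k *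
        (1 + ∑ i, g i ^ (2 * (k + 1)))) (gau I) := ((integrable_const (1 : ℝ)).add hi).const_mul _
    refine hi2.mono'
      (Measurable.aestronglyMeasurable (by fun_prop)) (Filter.Eventually.of_forall fun g => ?_)
    rw [Real.norm_eq_abs, abs_of_nonneg (by positivity)]
    exact pow_sum_le k g

/-- **moments of `1 + |g|²`** -/
theorem mom_le (k : ℕ) {s C : ℝ} (hs : 0 < s)
    (hC : (2 * k).factorial / s ^ (2 * k) * (2 * Real.exp (s ^ 2 / 2)) ≤ C) (hC1 : 1 ≤ C) :
    ∫ g, (1 + ∑ i, g i ^ 2) ^ k ∂(gau I) ≤ C * ((Fintype.card I : ℝ) + 1) ^ k := by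
  rcases k with _ | k
  · simpa using hC1
  have hi : Integrable (fun g : I → ℝ => ∑ i, g i ^ (2 * (k + 1))) (gau I) :=
    integrable_finsetSum (f := fun (i : I) (g : I → ℝ) => g i ^ (2 * (k + 1))) Finset.univ
      fun i _ => int_pow_i i (k + 1)
  have h1 : ∫ g, (1 + ∑ i, g i ^ 2) ^ (k + 1) ∂(gau I) ≤
      ∫ g, ((Fintype.card I : ℝ) + 1) ^ k * (1 + ∑ i, g i ^ (2 * (k + 1))) ∂(gau I) :=
    integral_mono (int_sum_pow (k + 1)) (((integrable_const (1 : ℝ)).add hi).const_mul _)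
      fun g => pow_sum_le k g
  have h2 : ∫ g : I → ℝ, ∑ i, g i ^ (2 * (k + 1)) ∂(gau I) ≤ Fintype.card I * C := by
    rw [integral_finsetSum _ fun i _ => int_pow_i i (k + 1)]
    refine (Finset.sum_le_sum fun i _ => (mom_coord i (k + 1) hs).trans hC).trans (le_of_eq ?_)
    rw [Finset.sum_const, Finset.card_univ, nsmul_eq_mul]
  rw [integral_const_mul, integral_add (integrable_const _) hi, integral_const] at h1
  have h3 : (gau I).real Set.univ = 1 := by simp
  rw [h3, one_smul] at h1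
  refine h1.trans ?_
  have hn : (0 : ℝ) ≤ Fintype.card I := Nat.cast_nonneg _
  calc ((Fintype.card I : ℝ) + 1) ^ k * (1 + ∫ g : I → ℝ, ∑ i, g i ^ (2 * (k + 1)) ∂(gau I))
      ≤ ((Fintype.card I : ℝ) + 1) ^ k * (C + Fintype.card I * C) := by gcongr
    _ = C * ((Fintype.card I : ℝ) + 1) ^ (k + 1) := by ring

lemma exp8_le : Real.exp 8 ≤ 3000 := by
  have h1 := Real.exp_one_lt_d9
  have h2 : Real.exp 8 = Real.exp 1 ^ 8 := by
    rw [← Real.exp_nat_mul]
    norm_num
  rw [h2]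
  calc Real.exp 1 ^ 8 ≤ (2.7182818286 : ℝ) ^ 8 := by gcongr
    _ ≤ 3000 := by norm_num

/-- **fourth power** -/
theorem mom_four :
    ∫ g, (1 + ∑ i, g i ^ 2) ^ 4 ∂(gau I) ≤ 10 ^ 6 * ((Fintype.card I : ℝ) + 1) ^ 4 := by
  refine mom_le 4 (s := 2) two_pos ?_ (by norm_num)
  have h1 : Real.exp (2 ^ 2 / 2) ≤ 3000 := (Real.exp_le_exp.2 (by norm_num)).trans exp8_le
  have h2 : ((2 * 4).factorial : ℝ) = 40320 := by norm_num [Nat.factorial]
  have h3 : Real.exp (2 ^ 2 / 2) ≤ 9 := by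
    have h4 : Real.exp (2 ^ 2 / 2) = Real.exp 1 ^ 2 := by
      rw [← Real.exp_nat_mul]
      norm_num
    rw [h4]
    have h5 := Real.exp_one_lt_d9
    calc Real.exp 1 ^ 2 ≤ (2.7182818286 : ℝ) ^ 2 := by gcongr
      _ ≤ 9 := by norm_num
  rw [h2]
  calc (40320 : ℝ) / 2 ^ (2 * 4) * (2 * Real.exp (2 ^ 2 / 2)) ≤ 40320 / 2 ^ (2 * 4) * (2 * 9) := by
        gcongr
    _ ≤ 10 ^ 6 := by norm_num

/-- eighth power -/
theorem mom_eight :
    ∫ g, (1 + ∑ i, g i ^ 2) ^ 8 ∂(gau I) ≤ 10 ^ 8 * ((Fintype.card I : ℝ) + 1) ^ 8 := by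
  refine mom_le 8 (s := 4) (by norm_num) ?_ (by norm_num)
  have h2 : ((2 * 8).factorial : ℝ) = 20922789888000 := by norm_num [Nat.factorial]
  have h3 : Real.exp (4 ^ 2 / 2) ≤ 3000 := by
    have : (4 ^ 2 / 2 : ℝ) = 8 := by norm_num
    rw [this]
    exact exp8_le
  rw [h2]
  calc (20922789888000 : ℝ) / 4 ^ (2 * 8) * (2 * Real.exp (4 ^ 2 / 2)) ≤
      20922789888000 / 4 ^ (2 * 8) * (2 * 3000) := by gcongr
    _ ≤ 10 ^ 8 := by norm_num

/-- Cauchy-Schwarz on a set -/
lemma cs_set {S : Set (I → ℝ)} {f : (I → ℝ) → ℝ}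
    (hf : Integrable f (gau I)) (hf2 : Integrable (fun g => f g ^ 2) (gau I)) :
    ∫ g in S, f g ∂(gau I) ≤ √(∫ g, f g ^ 2 ∂(gau I)) * √((gau I).real S) := by
  obtain ⟨A, hA⟩ : ∃ A : ℝ, A = ∫ g, f g ^ 2 ∂(gau I) := ⟨_, rfl⟩
  obtain ⟨p, hp⟩ : ∃ p : ℝ, p = (gau I).real S := ⟨_, rfl⟩
  have hA0 : 0 ≤ A := by rw [hA]; exact integral_nonneg fun g => sq_nonneg _
  have hp0 : 0 ≤ p := by rw [hp]; exact measureReal_nonneg
  rw [← hA, ← hp]
  -- `2 ∫_S f ≤ c ∫ f² + c⁻¹ p`
  have key : ∀ c : ℝ, 0 < c → 2 * ∫ g in S, f g ∂(gau I) ≤ c * A + c⁻¹ * p := by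
    intro c hc
    have h1 : 2 * ∫ g in S, f g ∂(gau I) ≤ ∫ g in S, (c * f g ^ 2 + c⁻¹) ∂(gau I) := by
      rw [← integral_const_mul]
      refine integral_mono (hf.integrableOn.const_mul 2)
        ((hf2.integrableOn.const_mul c).add (integrable_const _)) fun g => ?_
      beta_reduce
      have h2 : 0 ≤ c⁻¹ * (c * f g - 1) ^ 2 := by positivity
      have h3 : c⁻¹ * (c * f g - 1) ^ 2 = c * f g ^ 2 - 2 * f g + c⁻¹ := by
        field_simp
        ring
      linarith
    refine h1.trans ?_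
    rw [integral_add (hf2.integrableOn.const_mul c) (integrable_const _), integral_const_mul,
      setIntegral_const, smul_eq_mul, ← hp, mul_comm p]
    have h4 : ∫ g in S, f g ^ 2 ∂(gau I) ≤ A := by
      rw [hA]
      exact setIntegral_le_integral hf2 (Filter.Eventually.of_forall fun g => sq_nonneg _)
    have h5 := mul_le_mul_of_nonneg_left h4 hc.le
    linarith
  obtain ⟨x, hx⟩ : ∃ x : ℝ, x = ∫ g in S, f g ∂(gau I) := ⟨_, rfl⟩
  rw [← hx] at key ⊢
  by_contra hc
  push Not at hc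
  have hx0 : 0 < x := lt_of_le_of_lt (by positivity) hc
  have h1 : A * p < x ^ 2 := by
    have h2 := pow_lt_pow_left₀ hc (by positivity) two_ne_zero
    rwa [mul_pow, Real.sq_sqrt hA0, Real.sq_sqrt hp0] at h2
  -- choose `c = (p + δ) / x`
  have h3 : ∃ δ : ℝ, 0 < δ ∧ A * (p + δ) < x ^ 2 := by
    refine ⟨(x ^ 2 - A * p) / (2 * (A + 1)), by have : 0 < x ^ 2 - A * p := by linarith
                                                positivity, ?_⟩
    have h4 : A * ((x ^ 2 - A * p) / (2 * (A + 1))) ≤ (x ^ 2 - A * p) / 2 := by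
      rw [mul_div_assoc', div_le_div_iff₀ (by positivity) (by norm_num)]
      nlinarith
    nlinarith
  obtain ⟨δ, hδ, hlt⟩ := h3
  have h5 := key ((p + δ) / x) (by positivity)
  have h6 : (p + δ) / x * A < x := by
    rw [div_mul_eq_mul_div, div_lt_iff₀ hx0]
    nlinarith
  have h7 : ((p + δ) / x)⁻¹ * p ≤ x := by
    rw [inv_div, div_mul_eq_mul_div, div_le_iff₀ (by positivity)]
    nlinarith
  linarith

/-- **crude moments off a good set** (helper462, row 7248 (4)); no measurability needed -/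
theorem bad_l2 {Bad : Set (I → ℝ)} {p : ℝ} (hp : (gau I).real Bad ≤ p) :
    ∫ g in Bad, (1 + ∑ i, g i ^ 2) ^ 4 ∂(gau I) ≤ 10 ^ 6 * ((Fintype.card I : ℝ) + 1) ^ 4 * √p := by
  have e8 : (fun g : I → ℝ => ((1 + ∑ i, g i ^ 2) ^ 4) ^ 2) = fun g => (1 + ∑ i, g i ^ 2) ^ 8 := by
    funext g
    rw [← pow_mul]
  have h1 := cs_set (S := Bad) (f := fun g : I → ℝ => (1 + ∑ i, g i ^ 2) ^ 4) (int_sum_pow 4)
    (by rw [e8]; exact int_sum_pow 8)
  refine h1.trans ?_
  have h2 : √(∫ g : I → ℝ, ((1 + ∑ i, g i ^ 2) ^ 4) ^ 2 ∂(gau I)) ≤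
      10 ^ 6 * ((Fintype.card I : ℝ) + 1) ^ 4 := by
    rw [e8]
    refine Real.sqrt_le_iff.2 ⟨by positivity, mom_eight.trans ?_⟩
    rw [mul_pow, ← pow_mul, ← pow_mul]
    gcongr
    · norm_num
    · norm_num
  exact mul_le_mul h2 (Real.sqrt_le_sqrt hp) (Real.sqrt_nonneg _) (by positivity)

end

end Vale.Agent.P159.H375
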