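import Vale.Agent.P159.H375.Lev
import Vale.Agent.P159.TM.H574.Crude

/-!
P159, module UV1, part 3: energies of the cells of one level, in the box `[2^K, 2^(K+1))²` with zero
boundary conditions, hardly feel the mass of their own level.
-/

open Filter Topology

namespace Vale.Agent.P159.H375

open Vale.Agent.P159.TM
open Vale.Agent.P159.TM.H22 (SG Gle lin)
open Vale.Agent.P159.TM.SpecI
open Vale.Agent.P159.TM.H574
open Vale.Agent.P159.H353 (wI wI_nonneg wI_neg wI_zero_pos)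
open Finset

variable {n : ℕ} [NeZero n] {b : ℝ}

/-- **good cells** -/
theorem good (hb : 0 ≤ b) {C₁ c₁ C₂ : ℝ} (hC₁ : 0 < C₁) (hC₂ : 0 < C₂)
    (hI : ∀ (n : ℕ) [NeZero n] (r m : ℕ) (p : ℕ × ℕ), 2 ≤ r → 1 ≤ m →
    1 ≤ p.1 → 1 ≤ p.2 → p.1 + (2 * m + 1) * r + 1 ≤ n → p.2 + (2 * m + 1) * r + 1 ≤ n →
    ∀ g : V n → ℝ, ∑ x, g x = 0 → (∀ x, x ∉ bx (p.1 + m * r, p.2 + m * r) r → g x = 0) →
      (∀ x, |g x| ≤ 1 / (r : ℝ) ^ 2) →
      ex b (eb p ((2 * m + 1) * r)) ((bx p ((2 * m + 1) * r))ᶜ ∪ {cnr p}) (fun _ => 0)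
          (fun h => pr g h ^ 2) -
        ex b (inn n) (bx p ((2 * m + 1) * r))ᶜ (fun _ => 0) (fun h => pr g h ^ 2) ≤
      C₁ * (m : ℝ) ^ (-c₁))
    (hZ : ∀ (n : ℕ) [NeZero n] (p : ℕ × ℕ) (L : ℕ), 1 ≤ p.1 → 1 ≤ p.2 →
    p.1 + L + 1 ≤ n → p.2 + L + 1 ≤ n →
    (∀ (r : ℕ) (d : ℕ × ℕ), 2 ≤ r → p.1 ≤ d.1 → p.2 ≤ d.2 → d.1 + r ≤ p.1 + L →
      d.2 + r ≤ p.2 + L → ∀ g : V n → ℝ, ∑ x, g x = 0 → (∀ x, x ∉ bx d r → g x = 0) →
      (∀ x, |g x| ≤ 1 / (r : ℝ) ^ 2) →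
      ex b (inn n) (bx p L)ᶜ (fun _ => 0) (fun h => pr g h ^ 4) ≤ C₂) ∧
    ∀ (q : ℕ) (c : ℕ × ℕ), 1 ≤ q → q ≤ L → p.1 ≤ c.1 * q → p.2 ≤ c.2 * q →
      (c.1 + 1) * q ≤ p.1 + L → (c.2 + 1) * q ≤ p.2 + L →
      ex b (inn n) (bx p L)ᶜ (fun _ => 0) (fun h => SpecI.avg q c h ^ 4) ≤ C₂ * ((L : ℝ) / q) ^ 2)
    {K i : ℕ} (hi : i + 1 ≤ K) (hn : 2 ^ (K + 1) + 1 ≤ n) {t : ℝ} (ht : 0 ≤ t)
    {m : ℕ} (hm1 : 1 ≤ m) {d : ℕ × ℕ}
    (hd1 : 2 ^ i + m ≤ d.1 / 2) (hd2 : 2 ^ i + m ≤ d.2 / 2)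
    (hd3 : d.1 / 2 + m + 1 ≤ 2 ^ (i + 1)) (hd4 : d.2 / 2 + m + 1 ≤ 2 ^ (i + 1)) :
    ex b (inn n) (XK n K) (mz t K i) (fun h => Dc (2 ^ (K - (i + 1))) d h ^ 2) -
      ex b (inn n) (XK n K) (mz t K (i + 1)) (fun h => Dc (2 ^ (K - (i + 1))) d h ^ 2) ≤
      9 * C₁ * (m : ℝ) ^ (-c₁) +
        t * 4 ^ (K - (i + 1)) * (41 / 2 * C₂ * (2 * (2 * m + 1)) ^ 3) := by
  classical
  obtain ⟨a1, ha1⟩ := Nat.exists_eq_add_of_le' (show m ≤ d.1 / 2 by omega)
  obtain ⟨a2, ha2⟩ := Nat.exists_eq_add_of_le' (show m ≤ d.2 / 2 by omega)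
  set q := 2 ^ (K - (i + 1)) with hq
  have hq1 : 1 ≤ q := Nat.one_le_two_pow
  set r := 2 * q with hr
  have hKr : 2 ^ K = 2 ^ i * r := by
    rw [hr, hq, ← pow_succ', ← pow_add]
    congr 1
    omega
  have h2K : 2 ^ (K + 1) = 2 * 2 ^ K := pow_succ' 2 K
  have h2i : 2 ^ (i + 1) = 2 * 2 ^ i := pow_succ' 2 i
  have hi1 : 1 ≤ 2 ^ i := Nat.one_le_two_pow
  set p : ℕ × ℕ := (a1 * r, a2 * r) with hp
  have b1 : 2 ^ K ≤ a1 * r := by rw [hKr]; exact Nat.mul_le_mul_right r (by omega)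
  have b2 : 2 ^ K ≤ a2 * r := by rw [hKr]; exact Nat.mul_le_mul_right r (by omega)
  have f1 : (a1 + 2 * m + 1) * r ≤ 2 * 2 ^ K := by
    have : (a1 + 2 * m + 1) * r ≤ 2 * 2 ^ i * r := Nat.mul_le_mul_right r (by omega)
    calc _ ≤ _ := this
      _ = _ := by rw [hKr]; ring
  have f2 : (a2 + 2 * m + 1) * r ≤ 2 * 2 ^ K := by
    have : (a2 + 2 * m + 1) * r ≤ 2 * 2 ^ i * r := Nat.mul_le_mul_right r (by omega)
    calc _ ≤ _ := this
      _ = _ := by rw [hKr]; ring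
  have g1 : (a1 + 2 * m + 1) * r = a1 * r + (2 * m + 1) * r := by ring
  have g2 : (a2 + 2 * m + 1) * r = a2 * r + (2 * m + 1) * r := by ring
  set L := (2 * m + 1) * r with hL
  have hmr : m * r + r ≤ L := by
    rw [hL]
    have : (2 * m + 1) * r = m * r + m * r + r := by ring
    omega
  have hK1 : 1 ≤ 2 ^ K := Nat.one_le_two_pow
  have hP1 : d.1 / 2 * r = a1 * r + m * r := by rw [ha1]; ring
  have hP2 : d.2 / 2 * r = a2 * r + m * r := by rw [ha2]; ring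
  -- the functional
  set g : V n → ℝ := dc q d with hg
  have q1 : (d.1 / 2 + 1) * (2 * q) ≤ n := by
    rw [← hr]
    have : (d.1 / 2 + 1) * r = d.1 / 2 * r + r := by ring
    omega
  have q2 : (d.2 / 2 + 1) * (2 * q) ≤ n := by
    rw [← hr]
    have : (d.2 / 2 + 1) * r = d.2 / 2 * r + r := by ring
    omega
  have hg0 : ∑ x, g x = 0 := sum_dc hq1 d
  have hgb : ∀ x, |g x| ≤ 3 / (r : ℝ) ^ 2 := fun x => (dc_facts hq1 q1 q2 x).1
  have hgs : ∀ x, x ∉ bx (p.1 + m * r, p.2 + m * r) r → g x = 0 := fun x hx => by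
    refine (dc_facts hq1 q1 q2 x).2 ?_
    rw [← hr, hP1, hP2]
    exact hx
  have hgs2 : ∀ x, x ∉ bx p L → g x = 0 := fun x hx => by
    refine hgs x fun h3 => hx ?_
    rw [mem_bx] at h3 ⊢
    simp only [hp] at h3 ⊢
    omega
  have hDg : ∀ h : V n → ℤ, Dc q d h = pr g h := fun h => Dc_lin q d h
  simp only [hDg]
  -- the same, divided by three
  set g' : V n → ℝ := fun x => g x / 3 with hg'
  have hg'0 : ∑ x, g' x = 0 := by
    rw [hg', ← sum_div, hg0, zero_div]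
  have hg'b : ∀ x, |g' x| ≤ 1 / (r : ℝ) ^ 2 := fun x => by
    rw [hg']
    simp only
    rw [abs_div, abs_of_pos (show (0 : ℝ) < 3 by norm_num), div_le_iff₀ (by norm_num)]
    calc |g x| ≤ 3 / (r : ℝ) ^ 2 := hgb x
      _ = _ := by ring
  have hg's : ∀ x, x ∉ bx (p.1 + m * r, p.2 + m * r) r → g' x = 0 := fun x hx => by
    rw [hg']
    simp only
    rw [hgs x hx, zero_div]
  have hpr : ∀ h : V n → ℤ, pr g h = 3 * pr g' h := fun h => by
    unfold pr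
    rw [mul_sum]
    exact sum_congr rfl fun x _ => by rw [hg']; ring
  -- upper and lower bounds
  have up := upper_pin (g := g) (p := p) (s := L) hb (sq_mz (n := n) ht K i) (XK_ne hn)
    (by simp only [hp]; omega) (by simp only [hp]; omega) (by omega) hg0 hgs2
  have hX : ((bx p L : Finset (V n))ᶜ).Nonempty := by
    refine ⟨pt 0 0, mem_compl.2 fun h3 => ?_⟩
    rw [pt_mem_bx (by omega) (by omega)] at h3
    simp only [hp] at h3
    omega
  have hXX : XK n K ⊆ (bx p L : Finset (V n))ᶜ := by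
    unfold XK
    intro x hx
    rw [mem_compl, mem_bx] at hx ⊢
    simp only [hp] at hx ⊢
    omega
  have lo1 : ex b (inn n) (bx p L)ᶜ (mz t K (i + 1)) (fun h => pr g h ^ 2) ≤
      ex b (inn n) (XK n K) (mz t K (i + 1)) (fun h => pr g h ^ 2) := by
    have := ex_mono (es := inn n) (es' := inn n) (X := XK n K) (X' := (bx p L)ᶜ)
      (Q := mz t K (i + 1)) (R := fun _ => 0) hb subset_rfl hXX (sq_mz ht K (i + 1)) SQ.zero
      (coe_pin (XK_ne hn) _) (inc_sq g)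
    simp only [add_zero] at this
    exact this
  have lo := lower_pin (X := (bx p L : Finset (V n))ᶜ) hb (sq_mz (n := n) ht K (i + 1)) hX g
  have idw := hI n r m p (by omega) hm1 (by simp only [hp]; omega) (by simp only [hp]; omega)
    (by simp only [hp]; omega) (by simp only [hp]; omega) g' hg'0 hg's hg'b
  rw [← hL] at idw
  have idw2 : ex b (eb p L) ((bx p L)ᶜ ∪ {cnr p}) (fun _ => 0) (fun h => pr g h ^ 2) -
      ex b (inn n) (bx p L)ᶜ (fun _ => 0) (fun h => pr g h ^ 2) ≤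
      9 * (C₁ * (m : ℝ) ^ (-c₁)) := by
    have e : (fun h : V n → ℤ => pr g h ^ 2) = fun h => 9 * pr g' h ^ 2 := by
      funext h
      rw [hpr]
      ring
    rw [e, ex_smul, ex_smul, ← mul_sub]
    exact mul_le_mul_of_nonneg_left idw (by norm_num)
  -- the mass term
  have sg0 : SG (wt b (inn n) (bx p L)ᶜ (fun _ => 0)) :=
    sg_wt hb (fun _ => le_rfl) (fun _ => rfl) (coe_pin hX _)
  set l : ℝ := 2 * (2 * m + 1) with hl
  have hm1' : (1 : ℝ) ≤ m := by exact_mod_cast hm1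
  have hl0 : 0 < l := by rw [hl]; positivity
  set T := Ico (2 * a1) (2 * (a1 + 2 * m + 1)) ×ˢ Ico (2 * a2) (2 * (a2 + 2 * m + 1)) with hT
  have hTc : (T.card : ℝ) = l ^ 2 := by
    rw [hT, card_product, Nat.card_Ico, Nat.card_Ico,
      show 2 * (a1 + 2 * m + 1) - 2 * a1 = 2 * (2 * m + 1) by omega,
      show 2 * (a2 + 2 * m + 1) - 2 * a2 = 2 * (2 * m + 1) by omega, hl]
    push_cast
    ring
  have h2ii : 2 ^ (i + 1 + 1) = 4 * 2 ^ i := by ring
  have hTsub : T ⊆ cl (i + 1) := by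
    intro c hc
    rw [hT, mem_product, mem_Ico, mem_Ico] at hc
    rw [mem_cl]
    omega
  have e1 : p.1 = 2 * a1 * q := by simp only [hp, hr]; ring
  have e2 : p.2 = 2 * a2 * q := by simp only [hp, hr]; ring
  have e3 : p.1 + L = 2 * (a1 + 2 * m + 1) * q := by simp only [hp, hL, hr]; ring
  have e4 : p.2 + L = 2 * (a2 + 2 * m + 1) * q := by simp only [hp, hL, hr]; ring
  set τ : ℝ := t * 4 ^ (K - (i + 1)) with hτ
  have hτ0 : 0 ≤ τ := by positivity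
  have hmass : ∀ h : V n → ℤ, (∀ x ∈ (bx p L : Finset (V n))ᶜ, h x = 0) →
      mz t K (i + 1) h = τ * ∑ c ∈ T, SpecI.avg q c h ^ 2 := by
    intro h hh
    unfold mz
    rw [← sum_subset hTsub]
    · intro c hc hcT
      rw [mem_cl] at hc
      rw [hT, mem_product, mem_Ico, mem_Ico] at hcT
      have hK2 : 2 * 2 ^ K = 2 ^ (i + 1 + 1) * q := by
        rw [hKr, hr, h2ii]
        ring
      have k1 : (c.1 + 1) * q ≤ n := by
        have : (c.1 + 1) * q ≤ 2 ^ (i + 1 + 1) * q := Nat.mul_le_mul_right q (by omega)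
        omega
      have k2 : (c.2 + 1) * q ≤ n := by
        have : (c.2 + 1) * q ≤ 2 ^ (i + 1 + 1) * q := Nat.mul_le_mul_right q (by omega)
        omega
      rw [← hq, avg_eq_zero k1 k2 hh, zero_pow (by norm_num)]
      rw [e3, e4, e1, e2]
      by_cases c1 : 2 * a1 ≤ c.1
      · by_cases c2 : c.1 < 2 * (a1 + 2 * m + 1)
        · by_cases c3 : 2 * a2 ≤ c.2
          · have c4 : 2 * (a2 + 2 * m + 1) ≤ c.2 := by omega
            exact Or.inr (Or.inr (Or.inr (Nat.mul_le_mul_right q c4)))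
          · exact Or.inr (Or.inr (Or.inl (Nat.mul_le_mul_right q (by omega))))
        · exact Or.inr (Or.inl (Nat.mul_le_mul_right q (by omega)))
      · exact Or.inl (Nat.mul_le_mul_right q (by omega))
  have gA : ∀ c : ℕ × ℕ, H22.Gr fun h : V n → ℤ => SpecI.avg q c h ^ 4 := fun c => by
    have h3 := (gr_sq (V := V n) (avc q c)).mul (gr_sq (avc q c))
    simp only [avg_lin]
    refine h3.mono fun h => ?_
    rw [show lin (avc q c) h ^ 4 = lin (avc q c) h ^ 2 * lin (avc q c) h ^ 2 by ring]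
  have gP : H22.Gr fun h : V n → ℤ => pr g h ^ 4 := gr_pow4 g
  have hterm : ∀ h : V n → ℤ, (∀ x ∈ (bx p L : Finset (V n))ᶜ, h x = 0) →
      pr g h ^ 2 * mz t K (i + 1) h ≤ τ *
        ∑ c ∈ T, (l / 2 * pr g h ^ 4 + 1 / (2 * l) * SpecI.avg q c h ^ 4) := by
    intro h hh
    rw [hmass h hh, mul_left_comm]
    refine mul_le_mul_of_nonneg_left ?_ hτ0
    rw [mul_sum]
    refine sum_le_sum fun c _ => ?_
    have e : l / 2 * pr g h ^ 4 + 1 / (2 * l) * SpecI.avg q c h ^ 4 -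
        pr g h ^ 2 * SpecI.avg q c h ^ 2 =
        1 / (2 * l) * (l * pr g h ^ 2 - SpecI.avg q c h ^ 2) ^ 2 := by
      field_simp
      ring
    have : 0 ≤ 1 / (2 * l) * (l * pr g h ^ 2 - SpecI.avg q c h ^ 2) ^ 2 := by positivity
    linarith
  have hZ' := hZ n p L (by simp only [hp]; omega) (by simp only [hp]; omega)
    (by simp only [hp]; omega) (by simp only [hp]; omega)
  have hP4 : ex b (inn n) (bx p L)ᶜ (fun _ => 0) (fun h => pr g h ^ 4) ≤ 81 * C₂ := by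
    have h3 := hZ'.1 r (p.1 + m * r, p.2 + m * r) (by omega) (by simp) (by simp)
      (by simp only; omega) (by simp only; omega) g' hg'0 hg's hg'b
    have e : (fun h : V n → ℤ => pr g h ^ 4) = fun h => 81 * pr g' h ^ 4 := by
      funext h
      rw [hpr]
      ring
    rw [e, ex_smul]
    exact mul_le_mul_of_nonneg_left h3 (by norm_num)
  have hqL : (L : ℝ) / q = l := by
    have : (q : ℝ) ≠ 0 := by exact_mod_cast (by omega : q ≠ 0)
    rw [hL, hr, hl]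
    push_cast
    field_simp
  have hA4 : ∀ c ∈ T, ex b (inn n) (bx p L)ᶜ (fun _ => 0)
      (fun h => SpecI.avg q c h ^ 4) ≤ C₂ * l ^ 2 := by
    intro c hc
    rw [hT, mem_product, mem_Ico, mem_Ico] at hc
    have h3 := hZ'.2 q c hq1 (by omega) (by rw [e1]; exact Nat.mul_le_mul_right q (by omega))
      (by rw [e2]; exact Nat.mul_le_mul_right q (by omega))
      (by rw [e3]; exact Nat.mul_le_mul_right q (by omega))
      (by rw [e4]; exact Nat.mul_le_mul_right q (by omega))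
    rwa [hqL] at h3
  have gPM : H22.Gr fun h : V n → ℤ => pr g h ^ 2 * mz t K (i + 1) h :=
    (gr_sq (V := V n) g).mul (sq_mz ht K (i + 1)).gr
  have gT : ∀ c ∈ T, H22.Gr fun h : V n → ℤ =>
      l / 2 * pr g h ^ 4 + 1 / (2 * l) * SpecI.avg q c h ^ 4 := fun c _ =>
    (gP.const_mul _).add ((gA c).const_mul _)
  have hbig : ex b (inn n) (bx p L)ᶜ (fun _ => 0)
      (fun h => pr g h ^ 2 * mz t K (i + 1) h) ≤ τ * (41 * C₂ * l ^ 3) := by
    refine (ex_le hb sg0 gPM ((gr_sum T gT).const_mul _) hterm).trans ?_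
    rw [ex_smul, ex_sum sg0 T gT]
    refine mul_le_mul_of_nonneg_left ?_ hτ0
    calc ∑ c ∈ T, ex b (inn n) (bx p L)ᶜ (fun _ => 0)
          (fun h => l / 2 * pr g h ^ 4 + 1 / (2 * l) * SpecI.avg q c h ^ 4) ≤
          ∑ _c ∈ T, (l / 2 * (81 * C₂) + 1 / (2 * l) * (C₂ * l ^ 2)) := by
          refine sum_le_sum fun c hc => ?_
          rw [ex_add sg0 (gP.const_mul _) ((gA c).const_mul _), ex_smul, ex_smul]
          refine add_le_add (mul_le_mul_of_nonneg_left hP4 (by positivity))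
            (mul_le_mul_of_nonneg_left (hA4 c hc) (by positivity))
      _ = 41 * C₂ * l ^ 3 := by
          rw [sum_const, nsmul_eq_mul, hTc]
          field_simp
          ring
  have e5 : τ * (41 / 2 * C₂ * l ^ 3) = 1 / 2 * (τ * (41 * C₂ * l ^ 3)) := by ring
  rw [e5]
  linarith

/-- crude bound for all cells -/
theorem crudeZ (hb : 0 ≤ b) {K i : ℕ} (hi : i + 1 ≤ K) (hn : 2 ^ (K + 1) + 1 ≤ n) {t : ℝ}
    (ht : 0 ≤ t) {c : ℕ × ℕ} (hc : c ∈ cl (i + 1)) :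
    ex b (inn n) (XK n K) (mz t K i) (fun h => Dc (2 ^ (K - (i + 1))) c h ^ 2) ≤
      9 * (384 * Real.exp (b * 3) + 1) := by
  classical
  rw [mem_cl] at hc
  set q := 2 ^ (K - (i + 1)) with hq
  have hq1 : 1 ≤ q := Nat.one_le_two_pow
  have hKr : 2 ^ K = 2 ^ i * (2 * q) := by
    rw [hq, ← pow_succ', ← pow_add]
    congr 1
    omega
  have h2K : 2 ^ (K + 1) = 2 * 2 ^ K := pow_succ' 2 K
  have h2i : 2 ^ (i + 1) = 2 * 2 ^ i := pow_succ' 2 i
  have h2ii : 2 ^ (i + 1 + 1) = 4 * 2 ^ i := by ring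
  have hK2 : 2 * 2 ^ K = 2 * 2 ^ i * (2 * q) := by
    rw [hKr]
    ring
  have q1 : (c.1 / 2 + 1) * (2 * q) ≤ n := by
    have : (c.1 / 2 + 1) * (2 * q) ≤ 2 * 2 ^ i * (2 * q) := Nat.mul_le_mul_right _ (by omega)
    omega
  have q2 : (c.2 / 2 + 1) * (2 * q) ≤ n := by
    have : (c.2 / 2 + 1) * (2 * q) ≤ 2 * 2 ^ i * (2 * q) := Nat.mul_le_mul_right _ (by omega)
    omega
  set g : V n → ℝ := dc q c with hg
  have hg0 : ∑ x, g x = 0 := sum_dc hq1 c
  have hgb : ∀ x, |g x| ≤ 3 / ((2 * q : ℕ) : ℝ) ^ 2 := fun x => (dc_facts hq1 q1 q2 x).1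
  have hgs : ∀ x, x ∉ bx (c.1 / 2 * (2 * q), c.2 / 2 * (2 * q)) (2 * q) → g x = 0 :=
    fun x => (dc_facts hq1 q1 q2 x).2
  have hDg : ∀ h : V n → ℤ, Dc q c h = pr g h := fun h => Dc_lin q c h
  simp only [hDg]
  set g' : V n → ℝ := fun x => g x / 3 with hg'
  have hg'0 : ∑ x, g' x = 0 := by
    rw [hg', ← sum_div, hg0, zero_div]
  have hg'b : ∀ x, |g' x| ≤ 1 / ((2 * q : ℕ) : ℝ) ^ 2 := fun x => by
    rw [hg']
    simp only
    rw [abs_div, abs_of_pos (show (0 : ℝ) < 3 by norm_num), div_le_iff₀ (by norm_num)]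
    calc |g x| ≤ 3 / ((2 * q : ℕ) : ℝ) ^ 2 := hgb x
      _ = _ := by ring
  have hg's : ∀ x, x ∉ bx (c.1 / 2 * (2 * q), c.2 / 2 * (2 * q)) (2 * q) → g' x = 0 :=
    fun x hx => by
      rw [hg']
      simp only
      rw [hgs x hx, zero_div]
  have hpr : ∀ h : V n → ℤ, pr g h = 3 * pr g' h := fun h => by
    unfold pr
    rw [mul_sum]
    exact sum_congr rfl fun x _ => by rw [hg']; ring
  have e1 : (c.1 / 2 + 1) * (2 * q) = c.1 / 2 * (2 * q) + 2 * q := by ring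
  have e2 : (c.2 / 2 + 1) * (2 * q) = c.2 / 2 * (2 * q) + 2 * q := by ring
  have h4 := mom4_pin hb (XK_ne hn) (q := (c.1 / 2 * (2 * q), c.2 / 2 * (2 * q))) (r := 2 * q)
    (by omega) (by simp only; omega) (by simp only; omega) hg'0 hg's hg'b (sq_mz (n := n) ht K i)
  have sg : SG (wt b (inn n) (XK n K) (mz t K i)) :=
    sg_wt hb (sq_mz ht K i).nonneg (sq_mz ht K i).even (coe_pin (XK_ne hn) _)
  have h2 := mom2_of_4 hb sg g' h4
  have e4 : (fun h : V n → ℤ => pr g h ^ 2) = fun h => 9 * pr g' h ^ 2 := by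
    funext h
    rw [hpr]
    ring
  rw [e4, ex_smul]
  linarith

end Vale.Agent.P159.H375
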