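import Vale.Agent.P159.H889.Vform
import Vale.Agent.P159.H340.Al4
import Vale.Agent.P159.H30.Hsn
import Vale.Agent.P159.H239.Typ
import Vale.Agent.P159.H864.Cel4

/-!
P159 / H375: (P4) of helper889's row 6471, general letters: the Hilbert-Schmidt distance of the form
after a window and the change of cells (`Acx`) and the neutral form of the new cells (`anw`).
`hs_gen` : from typical sources at the cells `l`, posterior and fine mass `T`, prior `τ' / 2`, and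
`Pin N b T p ≤ c₁ EE p`.
-/

set_option linter.unusedSectionVars false

namespace Vale.Agent.P159.H375

open Finset Matrix MeasureTheory
open Vale.Agent.P159.H37
open Vale.Agent.P159.TM
open Vale.Agent.P159.TM.H764 (EE cN pw)
open Vale.Agent.P159.TM.H104 (EM)
open Vale.Agent.P159.TM.Spec (V)
open Vale.Agent.P159.H864 (sym cen rd rd1 als Wl)
open Vale.Agent.P159.H963 (nwt obsN nMC Pin PinC Gnh Gnc Gn)
open Vale.Agent.P159.H730 (wN ThN)
open Vale.Agent.P159.H239 (TypE)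
open Vale.Agent.P159.H363 (Nf acl rel)
open Vale.Agent.P159.H896 (Ah Acx)
open Vale.Agent.P159.H708 (Ac)
open Vale.Agent.P159.H340 (anw)

noncomputable section

variable {N l : ℕ} [NeZero N] [NeZero (N / l)] {b : ℝ}

/-- at a central alias the two Laplacians are comparable -/
lemma EE_cen_le3 (hl : l ∣ N) {p : V N} (hp : cen l p) :
    (l : ℝ) ^ 2 * EE p ≤ 3 * EE (rd p : V (N / l)) := by
  have key : ∀ z : ZMod N, 2 * l * z.valMinAbs.natAbs ≤ N →
      (l : ℝ) ^ 2 * (1 - cN z) ≤ 3 * (1 - cN (rd1 z : ZMod (N / l))) := by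
    intro z hz
    have h1 := H864.pw_cen hz
    have hlp : (0 : ℝ) < l := by exact_mod_cast H864.l_pos hl
    have h2 : cN (rd1 z : ZMod (N / l)) = Real.cos (l * pw z) := by
      have h3 : (rd1 z : ZMod (N / l)) = ((z.valMinAbs : ℤ) : ZMod (N / l)) := by
        rw [← H864.rd1_intCast hl, ZMod.coe_valMinAbs]
      rw [h3, H764.cN_int]
      congr 1
      unfold pw
      have hNl := H864.Nl (N := N) hl
      have hn : (0 : ℝ) < ((N / l : ℕ) : ℝ) := by exact_mod_cast NeZero.pos (N / l)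
      rw [← hNl]
      field_simp
    rw [h2, H764.cN_pw]
    have h4 : |(l : ℝ) * pw z| ≤ Real.pi := by
      rw [abs_mul, abs_of_pos hlp, mul_comm]
      exact h1
    have h5 := H764.one_sub_cos_low h4
    have h6 := Real.one_sub_sq_div_two_le_cos (x := pw z)
    have h7 : Real.pi ^ 2 ≤ 12 := by
      have := Real.pi_lt_d2
      nlinarith [Real.pi_pos]
    have h8 : (l : ℝ) ^ 2 * (1 - Real.cos (pw z)) ≤ (l : ℝ) ^ 2 * (pw z ^ 2 / 2) :=
      mul_le_mul_of_nonneg_left (by linarith) (by positivity)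
    have h9 : (l : ℝ) ^ 2 * (pw z ^ 2 / 2) ≤ 3 * (2 / Real.pi ^ 2 * ((l : ℝ) * pw z) ^ 2) := by
      have h10 : 3 * (2 / Real.pi ^ 2 * ((l : ℝ) * pw z) ^ 2) =
          (12 / Real.pi ^ 2) * ((l : ℝ) ^ 2 * (pw z ^ 2 / 2)) := by
        field_simp
        ring
      rw [h10]
      refine le_mul_of_one_le_left (by positivity) ?_
      rw [le_div_iff₀ (by positivity)]
      linarith
    linarith
  have h1 := key p.1 hp.1
  have h2 := key p.2 hp.2
  have e1 : EE p = 2 * (1 - cN p.1) + 2 * (1 - cN p.2) := rfl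
  have e2 : EE (rd p : V (N / l)) =
      2 * (1 - cN (rd1 p.1 : ZMod (N / l))) + 2 * (1 - cN (rd1 p.2 : ZMod (N / l))) := rfl
  rw [e1, e2]
  nlinarith

/-- **upper bound of the cell self energy at the scalar mass** -/
lemma PinC_top (hb : 0 < b) (hl : l ∣ N) {T c₁ : ℝ} (hT : 0 < T) (hc₁ : 0 ≤ c₁)
    (hup : ∀ p : V N, p ≠ 0 → Pin N b T p ≤ c₁ * EE p) {k : V (N / l)} (hk : k ≠ 0) :
    T + PinC N l b T T k ≤ 36 * (T + 3 * c₁ * (EE k / (l : ℝ) ^ 2)) := by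
  have hlp : (0 : ℝ) < l := by exact_mod_cast H864.l_pos hl
  obtain ⟨p, hp, hpk⟩ := H864.exists_cen (N := N) hl k
  have hp0 : p ≠ 0 := by
    rintro rfl
    exact hk (by rw [← hpk, H864.rd_zero hl])
  have h1 : Gnh N b T p * Wl l p ≤ sym (Gnc N l b T T) k := by
    rw [H963.Gnc_self, H864.sym_Gc hl (H963.ti_Gn hb.le hT), ← hpk]
    unfold H864.als
    exact Finset.single_le_sum (f := fun q : V N => sym (Gn N b T) q * Wl l q)
      (s := univ.filter fun q : V N => (rd q : V (N / l)) = rd p)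
      (fun q _ => mul_nonneg (H963.Gnh_nonneg hb.le hT q) (H864.Wl_nonneg q))
      (Finset.mem_filter.2 ⟨Finset.mem_univ p, rfl⟩)
  have hg := H963.Gnh_pos (N := N) hb hT hp0
  have hw := H864.Wl_cen_ge hl hp
  have h2 : Gnh N b T p / 36 ≤ sym (Gnc N l b T T) k := by
    have h3 := mul_le_mul_of_nonneg_left hw hg.le
    linarith
  have e1 : T + PinC N l b T T k = (sym (Gnc N l b T T) k)⁻¹ := by
    unfold PinC
    ring
  have h4 : (sym (Gnc N l b T T) k)⁻¹ ≤ (Gnh N b T p / 36)⁻¹ := inv_anti₀ (by positivity) h2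
  have h5 : (Gnh N b T p / 36)⁻¹ = 36 * (T + Pin N b T p) := by
    unfold Pin
    rw [inv_div]
    ring
  have h6 := hup p hp0
  have h7 := EE_cen_le3 hl hp
  rw [hpk] at h7
  have h8 : EE p ≤ 3 * (EE k / (l : ℝ) ^ 2) := by
    rw [← mul_div_assoc, le_div_iff₀ (by positivity)]
    linarith
  have h9 := mul_le_mul_of_nonneg_left h8 hc₁
  rw [e1]
  linarith

/-- **lower bound of the cell self energy** -/
lemma PinC_bot (hb : 0 < b) (hl : l ∣ N) {t τ : ℝ} (hτ : 0 < τ) (h : τ ≤ t) {k : V (N / l)}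
    (hk : k ≠ 0) : EE k / (l : ℝ) ^ 2 / b ≤ PinC N l b t τ k := by
  have hlp : (0 : ℝ) < l := by exact_mod_cast H864.l_pos hl
  have hE := TM.H764.EE_nonneg k
  have h1 := H859.Gnck_dom (N := N) hb.le hl (κ := 1 / b) hτ h (by positivity)
    (by field_simp; exact le_refl _) k
  have hg := H963.sym_Gnc_pos (N := N) (l := l) hb hl hτ h hk
  have h2 := (le_inv_comm₀ hg (by positivity)).1 h1
  have e1 : τ + 1 / b / (l : ℝ) ^ 2 * EE k = τ + EE k / (l : ℝ) ^ 2 / b := by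
    field_simp
  rw [e1] at h2
  unfold PinC
  linarith

/-- the number `Q` of 30's `hsn` -/
def qH (N : ℕ) (b T c₁ : ℝ) : ℝ := 36 * b * (T * (N : ℝ) ^ 2 / 16 + 3 * c₁)

/-- the hypothesis `hQ` of 30's `hsn` -/
lemma qH_le (hb : 0 < b) (hl : l ∣ N) {T τ' c₁ : ℝ} (hτ' : 0 < τ') (h : τ' ≤ T) (hc₁ : 0 ≤ c₁)
    (hup : ∀ p : V N, p ≠ 0 → Pin N b T p ≤ c₁ * EE p) {k : V (N / l)} (hk : k ≠ 0) :
    τ' + PinC N l b T T k ≤ qH N b T c₁ * PinC N l b T τ' k := by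
  have hT : 0 < T := hτ'.trans_le h
  have hlp : (0 : ℝ) < l := by exact_mod_cast H864.l_pos hl
  have hNp : (0 : ℝ) < N := by exact_mod_cast NeZero.pos N
  have h1 := PinC_top hb hl hT hc₁ hup hk
  have h2 := PinC_bot (t := T) hb hl hτ' h hk
  obtain ⟨E, hE⟩ : ∃ E : ℝ, E = EE k / (l : ℝ) ^ 2 := ⟨_, rfl⟩
  rw [← hE] at h1 h2
  have hgap := H462.EE_gap (N := N / l) hk
  have hNl := H864.Nl (N := N) hl
  have hn : (0 : ℝ) < ((N / l : ℕ) : ℝ) := by exact_mod_cast NeZero.pos (N / l)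
  have h3 : 16 / (N : ℝ) ^ 2 ≤ E := by
    rw [hE, le_div_iff₀ (by positivity)]
    refine le_trans (le_of_eq ?_) hgap
    rw [← hNl]
    field_simp
  have h4 : T ≤ T * (N : ℝ) ^ 2 / 16 * E := by
    have h5 := mul_le_mul_of_nonneg_left h3 (show 0 ≤ T * (N : ℝ) ^ 2 / 16 by positivity)
    refine le_trans (le_of_eq ?_) h5
    field_simp
  have hE0 : 0 ≤ E := le_trans (by positivity) h3
  have h6 : τ' + PinC N l b T T k ≤ 36 * (T * (N : ℝ) ^ 2 / 16 + 3 * c₁) * E := by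
    have : τ' + PinC N l b T T k ≤ 36 * (T + 3 * c₁ * E) := by linarith
    refine this.trans ?_
    have e : 36 * (T * (N : ℝ) ^ 2 / 16 + 3 * c₁) * E =
        36 * (T * (N : ℝ) ^ 2 / 16 * E + 3 * c₁ * E) := by ring
    rw [e]
    linarith
  refine h6.trans ?_
  have h7 : E ≤ b * PinC N l b T τ' k := by
    rw [div_le_iff₀ hb] at h2
    linarith
  have h8 := mul_le_mul_of_nonneg_left h7
    (show 0 ≤ 36 * (T * (N : ℝ) ^ 2 / 16 + 3 * c₁) by positivity)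
  refine h8.trans (le_of_eq ?_)
  unfold qH
  ring

/-- `Θ` from typical sources (helper159) -/
lemma ThN_typ' (hb : 0 < b) (hl : l ∣ N) {T s ρ p : ℝ} (hs : 0 < s) (hsT : s ≤ T)
    (h : TypE N l b T s 1 ρ p) (hp : p ≤ 1 / 2) : ThN N l b T s T ≤ ρ + 2 * p := by
  have hT : 0 < T := hs.trans_le hsT
  have e0 : wN N l b T T = nwt N b T 0 := H963.nMC_self N l b T 0
  have hE : EM (wN N l b T s) := H963.em_nMC hb.le hl hs hsT 0
  have hG := H239.typ_meas (N := N) (b := b) (T := T) hb.le hT 1 ρ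
  have hp0 : 0 ≤ p := h.nonneg hb.le hl hs hsT
  have h1 : 1 - p ≤ Ech (wN N l b T s) 0 (obsN N l (T - s))
      (({J : V N → ℝ | Rs (nwt N b T 0) ((1 : ℝ) • J) ≤ ρ}).indicator fun _ => (1 : ℝ)) := by
    have h2 := H663.Ech_add' (H239.chi_set hE 0 (obsN N l (T - s)) hG)
      (H239.chi_set hE 0 (obsN N l (T - s)) hG.compl)
    have h3 : (fun J : V N → ℝ => (({J : V N → ℝ | Rs (nwt N b T 0) ((1 : ℝ) • J) ≤ ρ}).indicator
        fun _ => (1 : ℝ)) J + (({J : V N → ℝ | Rs (nwt N b T 0) ((1 : ℝ) • J) ≤ ρ}ᶜ).indicator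
        fun _ => (1 : ℝ)) J) = fun _ => (1 : ℝ) := by
      funext J
      exact congrFun (Set.indicator_self_add_compl _ (fun _ : V N → ℝ => (1 : ℝ))) J
    rw [h3, Ech_const hE] at h2
    unfold TypE at h
    linarith
  have h2 := H730.ThN_le (N := N) (l := l) hb hl hs hsT le_rfl (ρ := ρ) (pb := p) hG
    (fun J hJ _ => by
      rw [e0]
      have : Rs (nwt N b T 0) ((1 : ℝ) • J) ≤ ρ := hJ
      rwa [one_smul] at this) h1 (by linarith)
  have h3 : -Real.log (1 - p) ≤ 2 * p := by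
    have h4 : 0 < 1 - p := by linarith
    have h5 := Real.one_sub_inv_le_log_of_pos h4
    have h6 : (1 - p)⁻¹ - 1 ≤ 2 * p := by
      rw [sub_le_iff_le_add, inv_le_comm₀ h4 (by linarith)]
      rw [inv_le_comm₀ (by linarith) h4]
      rw [inv_eq_one_div, div_le_iff₀ h4]
      nlinarith
    linarith
  linarith

/-- **(HS1)** the flow of the form on the same cells -/
theorem hs_one (hb : 0 < b) (hl : l ∣ N) {T τ' c₁ ρ₀ p : ℝ} (hτ' : 0 < τ') (h : τ' < T)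
    (hc₁ : 0 ≤ c₁) (hup : ∀ p : V N, p ≠ 0 → Pin N b T p ≤ c₁ * EE p)
    (hty : TypE N l b T (τ' / 2) 1 ρ₀ p) (hp : p ≤ 1 / 2) :
    ∑ k, rel (Ah N l b T T τ') (acl N l b T τ') k ^ 2 ≤
      (4 * qH N b T c₁ * (ρ₀ + 2 * p)) ^ 2 := by
  have hT : 0 < T := hτ'.trans h
  have hq0 : 0 ≤ qH N b T c₁ := by
    unfold qH
    positivity
  have h1 := H30.hsn (N := N) (l := l) (t := T) (τ := T) (τ' := τ') hb hl hτ' h le_rfl
    (Q := qH N b T c₁) hq0 fun k hk => qH_le hb hl hτ' h.le hc₁ hup hk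
  have h2 := ThN_typ' (N := N) (l := l) hb hl (T := T) (s := τ' / 2) (by linarith) (by linarith)
    hty hp
  have h3 := H730.ThN_nonneg (N := N) (l := l) (b := b) (t := T) (τ' := τ' / 2) (τ := T) hb hl
    (by linarith) (by linarith) le_rfl
  refine h1.trans (pow_le_pow_left₀ (by positivity) ?_ 2)
  exact mul_le_mul_of_nonneg_left h2 (by positivity)

/-- **(P4), general letters** -/
theorem hs_gen {b : ℝ} (hb : 0 < b) : ∃ C c : ℝ, 0 < C ∧ 0 < c ∧
    ∀ (N : ℕ) [NeZero N] (T τ' c₁ : ℝ), 0 < τ' → τ' < T → 9 ≤ T * (N : ℝ) ^ 2 → 0 ≤ c₁ →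
    (∀ p : V N, p ≠ 0 → Pin N b T p ≤ c₁ * EE p) →
    ∀ (l ρ : ℕ) [NeZero (N / l)] [NeZero (N / l / ρ)] [NeZero (N / (l * ρ))], l ∣ N → ρ ∣ N / l →
      T * (l : ℝ) ^ 2 ≤ 1 → ∀ ρ₀ p : ℝ, TypE N l b T (τ' / 2) 1 ρ₀ p → p ≤ 1 / 2 →
      (4 * qH N b T c₁ * (ρ₀ + 2 * p)) ^ 2 ≤ 1 / 4 →
      C * ((τ' * (N : ℝ) ^ 2) ^ 2 * (T * (N : ℝ) ^ 2) * (T * (l : ℝ) ^ 2) ^ c +
          (τ' * (N : ℝ) ^ 2) * (τ' * ((l : ℝ) * ρ) ^ 2)) ≤ 1 / 4 →
      ∑ k, rel (Acx N l ρ b T T τ') (anw N l ρ b τ') k ^ 2 ≤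
        5 * ((4 * qH N b T c₁ * (ρ₀ + 2 * p)) ^ 2 +
          4 * (C * ((τ' * (N : ℝ) ^ 2) ^ 2 * (T * (N : ℝ) ^ 2) * (T * (l : ℝ) ^ 2) ^ c +
          (τ' * (N : ℝ) ^ 2) * (τ' * ((l : ℝ) * ρ) ^ 2)))) := by
  obtain ⟨C, c, hC, hc, hR⟩ := H340.rel_ratio hb
  refine ⟨C, c, hC, hc, ?_⟩
  intro N _ T τ' c₁ hτ' h htN hc₁ hup l ρ _ _ _ hl hρ htl ρ₀ p hty hp hs1 hs2
  have h1 := hs_one hb hl hτ' h hc₁ hup hty hp
  have h2 := hR N T τ' hτ' h.le htN l ρ hl hρ htl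
  have nA : Nf (acl N l b T T) := H340.nf_acl hb hl (hτ'.trans h) le_rfl
  have nAh : Nf (Ah N l b T T τ') := H896.nf_Ah hl hτ' h nA
  have nac : Nf (acl N l b T τ') := H340.nf_acl hb hl hτ' h.le
  have nco : Nf (Ac ρ (acl N l b T τ')) := H340.nf_coarse hb hl hρ hτ' h.le
  have nan : Nf (anw N l ρ b τ') := H340.nf_anw hb hl hρ hτ'
  have h3 : ∑ k, rel (Acx N l ρ b T T τ') (Ac ρ (acl N l b T τ')) k ^ 2 ≤
      (4 * qH N b T c₁ * (ρ₀ + 2 * p)) ^ 2 := (H889.rel_Ac_le hρ nAh nac).trans h1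
  have h4 := H340.sum_rel_swap nan nco (h2.trans hs2)
  have h5 := H889.rel_trans (A₃ := anw N l ρ b τ') nco (h3.trans hs1)
  refine h5.trans (mul_le_mul_of_nonneg_left (add_le_add h3 (h4.trans ?_)) (by norm_num))
  exact mul_le_mul_of_nonneg_left h2 (by norm_num)

end

end Vale.Agent.P159.H375
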