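import Vale.Agent.P159.H375.Hs1
import Vale.Agent.P159.H972.Good

/-!
P159 / H375: (P4) of helper889's row 6471, numbers: tori, cells and windows in powers of two,
sizes `e`, `y`.  `hs_num` : the bound `(e ^ (22 / 25)) ^ 2`.
-/

set_option linter.unusedSectionVars false

namespace Vale.Agent.P159.H375

open Finset Matrix MeasureTheory
open Vale.Agent.P159.H37
open Vale.Agent.P159.TM.H764 (EE)
open Vale.Agent.P159.TM.Spec (V)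
open Vale.Agent.P159.H963 (Pin)
open Vale.Agent.P159.H239 (TypE)
open Vale.Agent.P159.H363 (acl rel)
open Vale.Agent.P159.H896 (Acx)
open Vale.Agent.P159.H340 (anw)
open Vale.Agent.P159.H972 (tn)

noncomputable section

lemma hs_tnsq (n s : ℕ) : tn n * (((2 ^ s : ℕ) : ℝ)) ^ 2 = (2 ^ s / 2 ^ n) ^ 2 := by
  unfold tn
  push_cast
  rw [div_pow, ← pow_mul, ← pow_mul, mul_comm n 2, pow_mul 2 2 n]
  norm_num
  rw [div_eq_inv_mul]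

lemma hs_tor {n r : ℕ} (h : n ≤ r) : tn n * (((2 ^ r : ℕ) : ℝ)) ^ 2 = (2 ^ (r - n)) ^ 2 := by
  rw [hs_tnsq]
  congr 1
  rw [div_eq_iff (by positivity), ← pow_add]
  congr 1
  omega

lemma hs_tn_pos (n : ℕ) : 0 < tn n := by unfold tn; positivity

lemma hs_tn_lt {n m : ℕ} (h : n < m) : tn m < tn n := by
  unfold tn
  exact inv_strictAnti₀ (by positivity) (pow_lt_pow_right₀ (by norm_num) h)

/-- powers of a number at most one -/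
lemma hs_pow {e a c : ℝ} (he : 0 < e) (he1 : e ≤ 1) (h : a ≤ c) : e ^ c ≤ e ^ a :=
  Real.rpow_le_rpow_of_exponent_ge he he1 h

/-- `(e y) ^ C ≤ e ^ c` -/
lemma hs_ey {e y C c : ℝ} (he : 0 < e) (he1 : e ≤ 1) (hy : 0 < y) (hy1 : y ≤ 1) (h : c ≤ C)
    (hc : 0 ≤ c) : (e * y) ^ C ≤ e ^ c := by
  have h1 : (e * y) ^ C ≤ e ^ C :=
    Real.rpow_le_rpow (by positivity) (mul_le_of_le_one_right he.le hy1) (hc.trans h)
  exact h1.trans (hs_pow he he1 h)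

lemma hs_lt_of_lam {n s : ℕ} {x : ℝ} (h : (2 : ℝ) ^ s / 2 ^ n ≤ x) (hx : x < 1) : s < n := by
  by_contra hc
  have h1 : (2 : ℝ) ^ n ≤ 2 ^ s := pow_le_pow_right₀ (by norm_num) (not_lt.1 hc)
  have h2 : 1 ≤ (2 : ℝ) ^ s / 2 ^ n := (one_le_div (by positivity)).2 h1
  linarith

/-- the numbers of `hs_gen` -/
lemma hs_numr {b c₁ C : ℝ} (hb : 0 < b) (hc₁ : 0 ≤ c₁) (hC : 0 < C) {K : ℝ} (hK : 0 ≤ K) :
    ∃ E0 : ℝ, 0 < E0 ∧ E0 ≤ 1 / 2 ∧ ∀ e X A L : ℝ, 0 < e → e ≤ E0 → 0 ≤ X →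
      X ≤ K * e ^ (-(1 / 50) : ℝ) → 0 ≤ A → A ≤ e ^ (2 : ℝ) → 0 ≤ L → L ≤ e ^ (19 / 10 : ℝ) →
      e ^ (19 / 20 : ℝ) ≤ 1 / 2 ∧
      (4 * (36 * b * (X / 16 + 3 * c₁)) * (e ^ (19 / 20 : ℝ) + 2 * e ^ (19 / 20 : ℝ))) ^ 2 ≤
        (e ^ (22 / 25 : ℝ)) ^ 2 / 16 ∧
      C * (X ^ 2 * X * A + X * L) ≤ (e ^ (22 / 25 : ℝ)) ^ 2 / 64 := by
  obtain ⟨K1, hK1⟩ : ∃ K1 : ℝ, K1 = 12 * (36 * b * (K / 16 + 3 * c₁)) := ⟨_, rfl⟩
  obtain ⟨K2, hK2⟩ : ∃ K2 : ℝ, K2 = C * (K ^ 3 + K) := ⟨_, rfl⟩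
  have hK10 : 0 ≤ K1 := by rw [hK1]; positivity
  have hK20 : 0 ≤ K2 := by rw [hK2]; positivity
  obtain ⟨δ, hδ⟩ : ∃ δ : ℝ, δ = (4 * (K1 + 16 * K2 + 1))⁻¹ := ⟨_, rfl⟩
  have hδ0 : 0 < δ := by rw [hδ]; positivity
  have hδ1 : δ ≤ 1 / 4 := by
    rw [hδ]
    rw [inv_le_comm₀ (by positivity) (by norm_num)]
    linarith
  have hδK1 : K1 * δ ≤ 1 / 4 := by
    rw [hδ, ← div_eq_mul_inv, div_le_iff₀ (by positivity)]
    linarith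
  have hδK2 : K2 * δ ≤ 1 / 64 := by
    rw [hδ, ← div_eq_mul_inv, div_le_iff₀ (by positivity)]
    linarith
  refine ⟨δ ^ (20 : ℕ), by positivity, ?_, ?_⟩
  · have h1 : δ ^ (20 : ℕ) ≤ δ ^ 1 := pow_le_pow_of_le_one hδ0.le (by linarith) (by norm_num)
    rw [pow_one] at h1
    linarith
  intro e X A L he hE hX hXK hA hA2 hL hL2
  have he1 : e ≤ 1 := hE.trans (pow_le_one₀ hδ0.le (by linarith))
  have hs : e ^ (1 / 20 : ℝ) ≤ δ := by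
    have h1 : e ^ (1 / 20 : ℝ) ≤ (δ ^ (20 : ℕ)) ^ (1 / 20 : ℝ) :=
      Real.rpow_le_rpow he.le hE (by norm_num)
    refine h1.trans (le_of_eq ?_)
    rw [← Real.rpow_natCast, ← Real.rpow_mul hδ0.le]
    norm_num
  have hx0 : 1 ≤ e ^ (-(1 / 50) : ℝ) := Real.one_le_rpow_of_pos_of_le_one_of_nonpos he he1 (by norm_num)
  refine ⟨?_, ?_, ?_⟩
  · have h1 : e ^ (19 / 20 : ℝ) ≤ e ^ (1 / 20 : ℝ) := hs_pow he he1 (by norm_num)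
    linarith
  · have h1 : X / 16 + 3 * c₁ ≤ (K / 16 + 3 * c₁) * e ^ (-(1 / 50) : ℝ) := by
      have h2 : 3 * c₁ ≤ 3 * c₁ * e ^ (-(1 / 50) : ℝ) := le_mul_of_one_le_right (by positivity) hx0
      rw [add_mul]
      linarith
    have h3 : 4 * (36 * b * (X / 16 + 3 * c₁)) * (e ^ (19 / 20 : ℝ) + 2 * e ^ (19 / 20 : ℝ)) ≤
        e ^ (22 / 25 : ℝ) / 4 := by
      calc 4 * (36 * b * (X / 16 + 3 * c₁)) * (e ^ (19 / 20 : ℝ) + 2 * e ^ (19 / 20 : ℝ))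
          = 12 * (36 * b) * (X / 16 + 3 * c₁) * e ^ (19 / 20 : ℝ) := by ring
        _ ≤ 12 * (36 * b) * ((K / 16 + 3 * c₁) * e ^ (-(1 / 50) : ℝ)) * e ^ (19 / 20 : ℝ) := by
            gcongr
        _ = K1 * (e ^ (-(1 / 50) : ℝ) * e ^ (19 / 20 : ℝ)) := by rw [hK1]; ring
        _ = K1 * e ^ (93 / 100 : ℝ) := by
            rw [← Real.rpow_add he]
            norm_num
        _ = (K1 * e ^ (1 / 20 : ℝ)) * e ^ (22 / 25 : ℝ) := by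
            rw [mul_assoc, ← Real.rpow_add he]
            norm_num
        _ ≤ 1 / 4 * e ^ (22 / 25 : ℝ) := by
            gcongr
            exact (mul_le_mul_of_nonneg_left hs hK10).trans hδK1
        _ = e ^ (22 / 25 : ℝ) / 4 := by ring
    refine (pow_le_pow_left₀ (by positivity) h3 2).trans (le_of_eq ?_)
    ring
  · have h1 : X ^ 2 * X * A ≤ K ^ 3 * e ^ (47 / 25 : ℝ) := by
      calc X ^ 2 * X * A = X ^ 3 * A := by ring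
        _ ≤ (K * e ^ (-(1 / 50) : ℝ)) ^ 3 * e ^ (2 : ℝ) := by gcongr
        _ = K ^ 3 * ((e ^ (-(1 / 50) : ℝ)) ^ (3 : ℕ) * e ^ (2 : ℝ)) := by ring
        _ = K ^ 3 * e ^ (97 / 50 : ℝ) := by
            rw [← Real.rpow_natCast (e ^ (-(1 / 50) : ℝ)), ← Real.rpow_mul he.le,
              ← Real.rpow_add he]
            norm_num
        _ ≤ K ^ 3 * e ^ (47 / 25 : ℝ) :=
            mul_le_mul_of_nonneg_left (hs_pow he he1 (by norm_num)) (by positivity)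
    have h2 : X * L ≤ K * e ^ (47 / 25 : ℝ) := by
      calc X * L ≤ (K * e ^ (-(1 / 50) : ℝ)) * e ^ (19 / 10 : ℝ) := by gcongr
        _ = K * (e ^ (-(1 / 50) : ℝ) * e ^ (19 / 10 : ℝ)) := by ring
        _ = K * e ^ (47 / 25 : ℝ) := by
            rw [← Real.rpow_add he]
            norm_num
    calc C * (X ^ 2 * X * A + X * L) ≤ C * (K ^ 3 * e ^ (47 / 25 : ℝ) + K * e ^ (47 / 25 : ℝ)) := by
          gcongr
      _ = K2 * e ^ (47 / 25 : ℝ) := by rw [hK2]; ring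
      _ = (K2 * e ^ (3 / 25 : ℝ)) * (e ^ (22 / 25 : ℝ)) ^ 2 := by
          rw [← Real.rpow_natCast (e ^ (22 / 25 : ℝ)), ← Real.rpow_mul he.le, mul_assoc,
            ← Real.rpow_add he]
          norm_num
      _ ≤ 1 / 64 * (e ^ (22 / 25 : ℝ)) ^ 2 := by
          gcongr
          refine le_trans ?_ hδK2
          exact mul_le_mul_of_nonneg_left ((hs_pow he he1 (by norm_num)).trans hs) hK20
      _ = (e ^ (22 / 25 : ℝ)) ^ 2 / 64 := by ring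

/-- **(P4), numbers** -/
theorem hs_num {b : ℝ} (hb : 0 < b) : ∃ Cs : ℝ, 1 ≤ Cs ∧
    ∀ c₁ K : ℝ, 0 ≤ c₁ → 0 ≤ K → ∃ E0 : ℝ, 0 < E0 ∧ E0 ≤ 1 / 2 ∧ ∀ C1 : ℝ, Cs ≤ C1 →
    ∀ (n m s s' r : ℕ) (e e' y y' : ℝ), 0 < e → e ≤ E0 → 0 < y → y ≤ 1 →
      (2 : ℝ) ^ s / 2 ^ n ≤ (e * y) ^ C1 → 0 < e' → e' ≤ e ^ (19 / 20 : ℝ) → 0 < y' → y' ≤ 1 →
      (2 : ℝ) ^ s' / 2 ^ m ≤ (e' * y') ^ C1 → s ≤ s' → n < m → m ≤ r → n + 2 ≤ r →
      (2 : ℝ) ^ (r - n) ≤ K * e ^ (-(1 / 100) : ℝ) →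
      (∀ k : V (2 ^ r), k ≠ 0 → Pin (2 ^ r) b (tn n) k ≤ c₁ * EE k) →
      ∀ [NeZero (2 ^ r / 2 ^ s)] [NeZero (2 ^ r / 2 ^ s / 2 ^ (s' - s))]
        [NeZero (2 ^ r / (2 ^ s * 2 ^ (s' - s)))],
        TypE (2 ^ r) (2 ^ s) b (tn n) (tn m / 2) 1 (e ^ (19 / 20 : ℝ)) (e ^ (19 / 20 : ℝ)) →
        ∑ k, rel (Acx (2 ^ r) (2 ^ s) (2 ^ (s' - s)) b (tn n) (tn n) (tn m))
          (anw (2 ^ r) (2 ^ s) (2 ^ (s' - s)) b (tn m)) k ^ 2 ≤ (e ^ (22 / 25 : ℝ)) ^ 2 := by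
  obtain ⟨C, c, hC, hc, hG⟩ := hs_gen hb
  refine ⟨max 1 c⁻¹, le_max_left _ _, fun c₁ K hc₁ hK => ?_⟩
  obtain ⟨E0, hE0, hE01, hN⟩ := hs_numr hb hc₁ hC (K := K ^ 2) (by positivity)
  refine ⟨E0, hE0, hE01, fun C1 hC1 => ?_⟩
  have hC11 : 1 ≤ C1 := (le_max_left _ _).trans hC1
  have hC1c : 1 ≤ C1 * c := by
    have h1 := (le_max_right 1 c⁻¹).trans hC1
    rwa [inv_eq_one_div, div_le_iff₀ hc] at h1
  intro n m s s' r e e' y y' he heE hy hy1 hlam he' hee hy' hy1' hlam' hss hnm hmr hnr hK1 hup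
    _ _ _ hty
  have he1 : e ≤ 1 := by linarith
  have he1' : e' ≤ 1 := hee.trans (Real.rpow_le_one he.le he1 (by norm_num))
  have hlt : tn m < tn n := hs_tn_lt hnm
  -- the torus
  have hX : tn n * (((2 ^ r : ℕ) : ℝ)) ^ 2 = (2 ^ (r - n)) ^ 2 := hs_tor (by omega)
  have hX9 : 9 ≤ tn n * (((2 ^ r : ℕ) : ℝ)) ^ 2 := by
    rw [hX]
    have h1 : (2 : ℝ) ^ 2 ≤ 2 ^ (r - n) := pow_le_pow_right₀ (by norm_num) (by omega)
    nlinarith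
  have hXK : tn n * (((2 ^ r : ℕ) : ℝ)) ^ 2 ≤ K ^ 2 * e ^ (-(1 / 50) : ℝ) := by
    rw [hX]
    refine (pow_le_pow_left₀ (by positivity) hK1 2).trans (le_of_eq ?_)
    rw [mul_pow, ← Real.rpow_natCast (e ^ (-(1 / 100) : ℝ)), ← Real.rpow_mul he.le]
    norm_num
  -- the cells
  have hl1 : (2 : ℝ) ^ s / 2 ^ n ≤ e := by
    refine hlam.trans ?_
    have := hs_ey (c := 1) he he1 hy hy1 hC11 (by norm_num)
    rwa [Real.rpow_one] at this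
  have hsn : s < n := hs_lt_of_lam hl1 (by linarith)
  have hl1' : (2 : ℝ) ^ s' / 2 ^ m ≤ e' := by
    refine hlam'.trans ?_
    have := hs_ey (c := 1) he' he1' hy' hy1' hC11 (by norm_num)
    rwa [Real.rpow_one] at this
  have hsm : s' < m := by
    refine hs_lt_of_lam hl1' (hee.trans_lt ?_)
    exact Real.rpow_lt_one he.le (by linarith) (by norm_num)
  have hl : 2 ^ s ∣ 2 ^ r := pow_dvd_pow 2 (by omega)
  have hρ : 2 ^ (s' - s) ∣ 2 ^ r / 2 ^ s := by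
    rw [Nat.pow_div (by omega) (by norm_num)]
    exact pow_dvd_pow 2 (by omega)
  have htl : tn n * (((2 ^ s : ℕ) : ℝ)) ^ 2 ≤ 1 := by
    rw [hs_tnsq]
    exact pow_le_one₀ (by positivity) (hl1.trans he1)
  have hA : (tn n * (((2 ^ s : ℕ) : ℝ)) ^ 2) ^ c ≤ e ^ (2 : ℝ) := by
    rw [hs_tnsq, ← Real.rpow_natCast, ← Real.rpow_mul (by positivity)]
    have h1 : ((2 : ℝ) ^ s / 2 ^ n) ^ (((2 : ℕ) : ℝ) * c) ≤ ((e * y) ^ C1) ^ (((2 : ℕ) : ℝ) * c) :=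
      Real.rpow_le_rpow (by positivity) hlam (by positivity)
    refine h1.trans ?_
    rw [← Real.rpow_mul (by positivity)]
    refine hs_ey he he1 hy hy1 ?_ (by norm_num)
    push_cast
    nlinarith
  have hρl : (((2 ^ s : ℕ) : ℝ) * ((2 ^ (s' - s) : ℕ) : ℝ)) = ((2 ^ s' : ℕ) : ℝ) := by
    rw [← Nat.cast_mul, ← pow_add]
    congr 2
    omega
  have hL : tn m * (((2 ^ s : ℕ) : ℝ) * ((2 ^ (s' - s) : ℕ) : ℝ)) ^ 2 ≤ e ^ (19 / 10 : ℝ) := by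
    rw [hρl, hs_tnsq]
    refine (pow_le_pow_left₀ (by positivity) (hl1'.trans hee) 2).trans (le_of_eq ?_)
    rw [← Real.rpow_natCast, ← Real.rpow_mul he.le]
    norm_num
  have htn := hs_tn_pos n
  have htm := hs_tn_pos m
  obtain ⟨n1, n2, n3⟩ := hN e _ _ _ he heE (by positivity) hXK (by positivity) hA
    (by positivity) hL
  -- monotonicity in the torus
  have hmN : tn m * (((2 ^ r : ℕ) : ℝ)) ^ 2 ≤ tn n * (((2 ^ r : ℕ) : ℝ)) ^ 2 :=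
    mul_le_mul_of_nonneg_right hlt.le (by positivity)
  have h3 : C * ((tn m * (((2 ^ r : ℕ) : ℝ)) ^ 2) ^ 2 * (tn n * (((2 ^ r : ℕ) : ℝ)) ^ 2) *
        (tn n * (((2 ^ s : ℕ) : ℝ)) ^ 2) ^ c +
      (tn m * (((2 ^ r : ℕ) : ℝ)) ^ 2) *
        (tn m * (((2 ^ s : ℕ) : ℝ) * ((2 ^ (s' - s) : ℕ) : ℝ)) ^ 2)) ≤
      (e ^ (22 / 25 : ℝ)) ^ 2 / 64 := by
    refine le_trans ?_ n3
    gcongr
  have hh : (e ^ (22 / 25 : ℝ)) ^ 2 ≤ 1 :=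
    pow_le_one₀ (by positivity) (Real.rpow_le_one he.le he1 (by norm_num))
  have h2 : (4 * qH (2 ^ r) b (tn n) c₁ * (e ^ (19 / 20 : ℝ) + 2 * e ^ (19 / 20 : ℝ))) ^ 2 ≤
      (e ^ (22 / 25 : ℝ)) ^ 2 / 16 := by
    unfold qH
    exact n2
  refine (hG (2 ^ r) (tn n) (tn m) c₁ htm hlt hX9 hc₁ hup (2 ^ s) (2 ^ (s' - s)) hl hρ htl
    _ _ hty n1 (by linarith) (by linarith)).trans ?_
  have h5 : 0 ≤ (e ^ (22 / 25 : ℝ)) ^ 2 := by positivity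
  linarith

end

end Vale.Agent.P159.H375
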