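import Vale.Agent.P159.H375.Hs2
import Vale.Agent.P159.H801.ParEv

/-!
P159 / H375: (P4) of helper889's row 6471 in the order of constants (`Ev`), the upper bound of the
profile as a hypothesis (`UpH`, helper340's `lk_prF`).
-/

set_option linter.unusedSectionVars false

namespace Vale.Agent.P159.H375

open Finset Matrix MeasureTheory
open Vale.Agent.P159.H37
open Vale.Agent.P159.TM.H764 (EE)
open Vale.Agent.P159.TM.Spec (V)
open Vale.Agent.P159.H963 (Pin)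
open Vale.Agent.P159.H239 (TypE)
open Vale.Agent.P159.H363 (acl rel)
open Vale.Agent.P159.H896 (Acx)
open Vale.Agent.P159.H340 (anw)
open Vale.Agent.P159.H972 (tn Par GP Good lg)
open Vale.Agent.P159.H801 (Ev PS)

noncomputable section

/-- upper bound of the profile on all admissible tori (helper340, `lk_prF`) -/
def UpH (b c₁ : ℝ) (n0 : ℕ) : Prop :=
  ∀ P : Par, 3 ≤ P.kE P.es → 0 ≤ P.pf → ∀ (n : ℕ) (e τ a : ℝ), n0 ≤ n → 0 < e → e ≤ P.es →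
    GP P b a n e τ → ∀ r, P.TT n e r → ∀ T, tn n ≤ T → T ≤ 4 * tn n → ∀ k : V (2 ^ r), k ≠ 0 →
      Pin (2 ^ r) b T k ≤ c₁ * EE k

/-- the ratio of an admissible torus and the scale, as a power of `e` -/
lemma hs_tt {P : Par} {n r : ℕ} {e σ : ℝ} (he : 0 < e) (he1 : e ≤ 1)
    (hσ : P.th + 4 * (P.q0 * P.thp) ≤ σ) (hr : P.TT n e r) :
    (2 : ℝ) ^ (r - n) ≤ 2 ^ (1 + 4 * P.q0) * e ^ (-σ) := by
  have hlog : 0 ≤ Real.logb 2 (1 / e) :=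
    Real.logb_nonneg (by norm_num) (by rw [le_div_iff₀ he]; linarith)
  obtain ⟨ℓ, hℓ⟩ : ∃ ℓ : ℝ, ℓ = Real.logb 2 (1 / e) := ⟨_, rfl⟩
  have k1 : (P.kE e : ℝ) ≤ P.th * Real.logb 2 (1 / e) + 1 := by
    have := P.th0
    exact (Nat.ceil_lt_add_one (by positivity)).le
  have k2 : (P.w e : ℝ) ≤ P.thp * Real.logb 2 (1 / e) + 1 := by
    have := P.thp0
    exact (Nat.ceil_lt_add_one (by positivity)).le
  rw [← hℓ] at hlog k1 k2
  have h1 : r - n ≤ P.kE e + P.q0 * (4 * P.w e) := by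
    have := hr.2
    omega
  have h2 : ((r - n : ℕ) : ℝ) ≤ P.kE e + P.q0 * (4 * P.w e) := by exact_mod_cast h1
  have h3 : ((r - n : ℕ) : ℝ) ≤ σ * ℓ + ((1 + 4 * P.q0 : ℕ) : ℝ) := by
    have h4 : (P.q0 : ℝ) * (4 * P.w e) ≤ P.q0 * (4 * (P.thp * ℓ + 1)) :=
      mul_le_mul_of_nonneg_left (by linarith) (Nat.cast_nonneg _)
    have h5 : (P.q0 : ℝ) * (4 * (P.thp * ℓ + 1)) = 4 * (P.q0 * P.thp) * ℓ + 4 * P.q0 := by ring
    have h6 := mul_le_mul_of_nonneg_right hσ hlog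
    rw [h5] at h4
    push_cast
    linarith
  rw [← Real.rpow_natCast]
  refine (Real.rpow_le_rpow_of_exponent_le (by norm_num) h3).trans (le_of_eq ?_)
  rw [Real.rpow_add (by norm_num), Real.rpow_natCast, mul_comm]
  congr 1
  rw [mul_comm _ ℓ, Real.rpow_mul (by norm_num), hℓ, Real.rpow_logb (by norm_num) (by norm_num)
    (by positivity), one_div, Real.inv_rpow he.le, Real.rpow_neg he.le]

/-- **(P4) in the order of constants** -/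
theorem hs_ev {b c₁ : ℝ} {n0 : ℕ} (hb : 0 < b) (hc₁ : 0 ≤ c₁) (hup : UpH b c₁ n0) :
    ∃ Cs : ℝ, 1 ≤ Cs ∧ ∀ (b1 b2 pf : ℝ) (Q : ℕ), Ev b1 b2 pf Q fun P _ =>
    ∀ C1 : ℝ, Cs ≤ C1 → ∀ (n m s s' r : ℕ) (e e' y y' : ℝ), Good P b n e → 0 < e →
      e ≤ P.es → 0 < y → y ≤ 1 → (2 : ℝ) ^ s / 2 ^ n ≤ (e * y) ^ C1 → 0 < e' →
      e' ≤ e ^ (19 / 20 : ℝ) → 0 < y' → y' ≤ 1 → (2 : ℝ) ^ s' / 2 ^ m ≤ (e' * y') ^ C1 → s ≤ s' →
      20 * n + P.w e ≤ 20 * m → P.TT n e r → m ≤ r →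
      ∀ [NeZero (2 ^ r / 2 ^ s)] [NeZero (2 ^ r / 2 ^ s / 2 ^ (s' - s))]
        [NeZero (2 ^ r / (2 ^ s * 2 ^ (s' - s)))],
        TypE (2 ^ r) (2 ^ s) b (tn n) (tn m / 2) 1 (e ^ (19 / 20 : ℝ)) (e ^ (19 / 20 : ℝ)) →
        ∑ k, rel (Acx (2 ^ r) (2 ^ s) (2 ^ (s' - s)) b (tn n) (tn n) (tn m))
          (anw (2 ^ r) (2 ^ s) (2 ^ (s' - s)) b (tn m)) k ^ 2 ≤ (e ^ (22 / 25 : ℝ)) ^ 2 := by
  obtain ⟨Cs, hCs, hN⟩ := hs_num hb
  refine ⟨Cs, hCs, fun b1 b2 pf Q => H801.Ev.of ?_⟩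
  refine ⟨0, fun W _ => ⟨1, one_pos, fun ys _ _ => ⟨0, fun X0 _ => ⟨1 / 1000, by norm_num,
    fun x1 hx0 hx1 => ⟨1 / (1000 * (Q + 3)), by positivity, fun thp ht0 ht1 => ⟨1 / 1000,
    by norm_num, fun th hs0 hs1 => ⟨1, fun C0 _ => ⟨1, one_pos, fun c1 _ _ => ?_⟩⟩⟩⟩⟩⟩⟩⟩
  obtain ⟨q, hq⟩ : ∃ q : ℕ, q = Q + ⌈x1 / thp⌉₊ + 2 := ⟨_, rfl⟩
  obtain ⟨E1, hE1, hE1', hN1⟩ := hN c₁ (2 ^ (1 + 4 * q)) hc₁ (by positivity)
  obtain ⟨E2, hE2⟩ : ∃ E2 : ℝ, E2 = min E1 (1 / 2 ^ n0) := ⟨_, rfl⟩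
  refine ⟨E2, by rw [hE2]; positivity, fun P hP => ?_⟩
  intro C1 hC1 n m s s' r e e' y y' hG he hes hy hy1 hlam he' hee hy' hy1' hlam' hss hw hr hmr _ _ _ hty
  have he2 : e ≤ E2 := hes.trans hP.ees
  have heE1 : e ≤ E1 := he2.trans (by rw [hE2]; exact min_le_left _ _)
  have hen : e ≤ 1 / 2 ^ n0 := he2.trans (by rw [hE2]; exact min_le_right _ _)
  have he1 : e ≤ 1 := by linarith
  have hC11 : 1 ≤ C1 := hCs.trans hC1
  -- exponents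
  have hσ : P.th + 4 * (P.q0 * P.thp) ≤ 1 / 100 := by
    have h1 := hP.rho hx0 ht0
    have h2 : ((Q : ℝ) + 3) * thp ≤ 1 / 1000 := by
      have h3 := mul_le_mul_of_nonneg_left ht1 (show (0 : ℝ) ≤ Q + 3 by positivity)
      refine h3.trans (le_of_eq ?_)
      field_simp
    rw [hP.eth]
    linarith
  have hTT := hs_tt he he1 hσ hr
  rw [hP.eq0, ← hq] at hTT
  -- level
  have hn0 : n0 ≤ n := by
    have h1 : (2 : ℝ) ^ s / 2 ^ n ≤ 1 / 2 ^ n0 := by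
      refine (hlam.trans ?_).trans hen
      have := hs_ey (c := 1) he he1 hy hy1 hC11 (by norm_num)
      rwa [Real.rpow_one] at this
    rw [div_le_div_iff₀ (by positivity) (by positivity), one_mul] at h1
    have h2 : (2 : ℝ) ^ n0 ≤ 2 ^ n := by
      refine le_trans ?_ h1
      exact le_mul_of_one_le_left (by positivity) (one_le_pow₀ (by norm_num))
    exact (pow_le_pow_iff_right₀ (by norm_num)).1 h2
  have hw1 : 1 ≤ P.w e := H972.w1 he hes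
  have hk : 3 ≤ P.kE e := hP.adm.hk.trans (H972.lg_anti P.th0.le he hes)
  have hr1 := hr.1
  obtain ⟨τ, a, -, -, hGP⟩ := hG
  have hup' := hup P hP.adm.hk hP.adm.pf0.le n e τ a hn0 he hes (hGP e le_rfl hes) r hr (tn n)
    le_rfl (by have := hs_tn_pos n; linarith)
  exact hN1 C1 hC1 n m s s' r e e' y y' he heE1 hy hy1 hlam he' hee hy' hy1' hlam' hss (by omega) hmr
    (by omega) hTT hup' hty

end

end Vale.Agent.P159.H375
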