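import Vale.Agent.P159.H375.Hs3
import Vale.Agent.P159.H889.Vcx
import Vale.Agent.P159.H889.Vpc
import Vale.Agent.P159.H340.Lk1g

/-!
P159 / H375: (P4) of helper889's row 6471 in the letters of `Vpc` (`PcH`), for one `b`, `C1` inside
the order of constants (`P.C0 ≤ C1 ≤ K P.C0`), from strong typical sources at the cells (`TyQ`).
-/

set_option linter.unusedSectionVars false

namespace Vale.Agent.P159.H375

open Finset Matrix MeasureTheory
open Vale.Agent.P159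
open Vale.Agent.P159.H37
open Vale.Agent.P159.TM.H764 (EE)
open Vale.Agent.P159.TM.Spec (V)
open Vale.Agent.P159.H963 (Pin)
open Vale.Agent.P159.H239 (TypE)
open Vale.Agent.P159.H363 (acl rel)
open Vale.Agent.P159.H896 (Acx)
open Vale.Agent.P159.H340 (anw)
open Vale.Agent.P159.H972 (tn Par GP Good lg FL)
open Vale.Agent.P159.H801 (Ev PS)
open Vale.Agent.P159.H889 (CxF Cx Cw Cy hS lam Lg)

noncomputable section

/-- **strong typical sources** at the cells of the charged sector, at the natural mass, every prior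
(helper816, helper896) -/
def TyQ (P : Par) (b c1 : ℝ) : Prop :=
  ∀ (n : ℕ) (e a : ℝ), 0 < e → e ≤ P.es → Good P b n e → 1 ≤ a → a ≤ 8 / 5 →
    (∀ r, P.TT n e r → FL b (tn n) a (17 * e ^ P.pf) (2 ^ r)) →
    ∀ s : ℕ, s ≤ P.sE n e → n ≤ 2 * s → (n : ℝ) - s ≤ e ^ (-(2 * c1)) → ∀ r, P.TT n e r →
    ∀ a' : ℝ, 0 < a' → a' < tn n → ∀ [NeZero (2 ^ r / 2 ^ s)],
      TypE (2 ^ r) (2 ^ s) b (tn n) a' 1 (e ^ (19 / 20 : ℝ)) (e ^ (19 / 20 : ℝ))

/-- the body of `PcH` at one `b` -/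
def PcHb (P : Par) (b c1 C1 : ℝ) : Prop :=
  ∀ (a : ℝ) (n m s s' : ℕ) (e e' y y' : ℝ), CxF P b a C1 c1 n s e y →
    Cw P n m e e' → Cy P b C1 c1 m s s' e e' y y' → ∀ r, P.TT n e r → m + P.kE e' ≤ r →
    ∀ [NeZero (2 ^ r / 2 ^ s)] [NeZero (2 ^ r / 2 ^ s / 2 ^ (s' - s))]
      [NeZero (2 ^ r / (2 ^ s * 2 ^ (s' - s)))],
      ∑ k, rel (Acx (2 ^ r) (2 ^ s) (2 ^ (s' - s)) b (tn n) (tn n) (tn m))
        (anw (2 ^ r) (2 ^ s) (2 ^ (s' - s)) b (tn m)) k ^ 2 ≤ hS e ^ 2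

/-- the upper bound of the profile (helper340) -/
theorem upH_ex {b : ℝ} (hb : 0 < b) (hh : 0 < helicity b) (hs : 1 / helicity b < 5 / 2) :
    ∃ (c₁ : ℝ) (n0 : ℕ), 0 ≤ c₁ ∧ UpH b c₁ n0 := by
  obtain ⟨c₁, n0, h1, h⟩ := H340.lk_prF hb hh hs
  refine ⟨c₁, n0, by linarith, ?_⟩
  intro P hk hpf n e τ a hn he hes hG r hr T h2 h3 k hk0
  exact (h P hk hpf n e τ a hn he hes hG).up r hr T h2 h3 k hk0

/-- the cells of the charged sector are finer than the cells of the P half -/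
lemma Cx_sE {P : Par} {b C1 c1 : ℝ} {n s : ℕ} {e y : ℝ} (h : Cx P b C1 c1 n s e y)
    (hC : P.C0 ≤ C1) (hC0 : 2 ≤ P.C0) : s ≤ P.sE n e := by
  have he := h.e0
  have hy := h.y0
  have he2 := h.e1
  have hy1 : y ≤ e ^ (20 / 39 : ℝ) := h.yle
  have hy2 : y ^ P.C0 ≤ 1 / 2 := by
    have h1 : y ^ P.C0 ≤ y ^ (2 : ℝ) :=
      Real.rpow_le_rpow_of_exponent_ge hy h.ylt.le hC0
    have h2 : y ^ (2 : ℝ) ≤ (e ^ (20 / 39 : ℝ)) ^ (2 : ℝ) := Real.rpow_le_rpow hy.le hy1 two_pos.le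
    have h3 : (e ^ (20 / 39 : ℝ)) ^ (2 : ℝ) ≤ e := by
      rw [← Real.rpow_mul he.le]
      nth_rewrite 2 [← Real.rpow_one e]
      exact Real.rpow_le_rpow_of_exponent_ge he (by linarith) (by norm_num)
    linarith
  have h1 : lam n s ≤ e ^ P.C0 * (1 / 2) := by
    have h2 : (e * y) ^ C1 ≤ (e * y) ^ P.C0 :=
      Real.rpow_le_rpow_of_exponent_ge h.x0 (h.xle.trans (by linarith)) hC
    rw [Real.mul_rpow (z := P.C0) he.le hy.le] at h2
    refine (h.s2.trans h2).trans ?_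
    exact mul_le_mul_of_nonneg_left hy2 (by positivity)
  unfold lam at h1
  -- `2 ^ (s + lg C0 e) ≤ 2 ^ n`
  have h3 : (2 : ℝ) ^ lg P.C0 e ≤ 2 * (1 / e) ^ P.C0 := by
    have h4 : (lg P.C0 e : ℝ) ≤ P.C0 * Real.logb 2 (1 / e) + 1 := by
      have h5 : 0 ≤ Real.logb 2 (1 / e) :=
        Real.logb_nonneg (by norm_num) (by rw [le_div_iff₀ he]; linarith)
      exact (Nat.ceil_lt_add_one (by have := P.C00; positivity)).le
    rw [← Real.rpow_natCast]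
    refine (Real.rpow_le_rpow_of_exponent_le (by norm_num) h4).trans (le_of_eq ?_)
    rw [Real.rpow_add (by norm_num), Real.rpow_one, mul_comm P.C0,
      Real.rpow_mul (by norm_num), Real.rpow_logb (by norm_num) (by norm_num) (by positivity)]
    ring
  have h6 : (2 : ℝ) ^ (s + lg P.C0 e) ≤ 2 ^ n := by
    rw [pow_add]
    rw [div_le_iff₀ (by positivity)] at h1
    calc (2 : ℝ) ^ s * 2 ^ lg P.C0 e ≤ (e ^ P.C0 * (1 / 2) * 2 ^ n) * (2 * (1 / e) ^ P.C0) :=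
          mul_le_mul h1 h3 (by positivity) (by positivity)
      _ = (e ^ P.C0 * (1 / e) ^ P.C0) * 2 ^ n := by ring
      _ = 2 ^ n := by
          rw [← Real.mul_rpow he.le (by positivity), mul_one_div_cancel he.ne', Real.one_rpow,
            one_mul]
  have h7 : s + lg P.C0 e ≤ n := (pow_le_pow_iff_right₀ (by norm_num)).1 h6
  unfold H972.Par.sE
  omega

/-- the depth of the cells, uniformly in `C1 ≤ Cm` -/
lemma Cx_dep {Cm c1 : ℝ} (hCm : 0 < Cm) (hc : 0 < c1) : ∃ E0 : ℝ, 0 < E0 ∧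
    ∀ (P : Par) (b C1 : ℝ) (n s : ℕ) (e y : ℝ), 0 < C1 → C1 ≤ Cm → e ≤ E0 →
      Cx P b C1 c1 n s e y → (n : ℝ) - s ≤ e ^ (-(2 * c1)) := by
  have hl2 := Real.log_pos one_lt_two
  obtain ⟨A, hA⟩ : ∃ A : ℝ, A = 9 / 8 * Cm * (1 / c1 + 1) / Real.log 2 := ⟨_, rfl⟩
  have hA0 : 0 < A := by rw [hA]; positivity
  refine ⟨(1 / A) ^ (1 / c1), by positivity, fun P b C1 n s e y hC1 hC he h => ?_⟩
  have he0 := h.e0
  have f1 : A * e ^ c1 ≤ 1 := by
    have h1 : e ^ c1 ≤ ((1 / A) ^ (1 / c1)) ^ c1 := Real.rpow_le_rpow he0.le he hc.le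
    rw [← Real.rpow_mul (by positivity), one_div_mul_cancel hc.ne', Real.rpow_one] at h1
    rw [le_div_iff₀ hA0] at h1
    linarith
  have h1 := h.Lg_hi
  rw [h.logx] at h1
  have h2 := H889.log_le_rpow hc he0
  have h3 := h.yL
  have hey : 0 ≤ Real.log (1 / e) + Real.log (1 / y) := by
    have a1 : 0 ≤ Real.log (1 / e) := Real.log_nonneg (by
      rw [le_div_iff₀ he0]
      linarith [h.e1])
    have a2 : 0 ≤ Real.log (1 / y) := Real.log_nonneg (by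
      rw [le_div_iff₀ h.y0]
      linarith [h.ylt])
    linarith
  have h4 : Real.log (1 / e) + Real.log (1 / y) ≤ (1 / c1 + 1) * e ^ (-c1) := by
    have : (1 / c1 + 1) * e ^ (-c1) = e ^ (-c1) / c1 + e ^ (-c1) := by ring
    rw [this]
    exact add_le_add h2 h3
  have h5 : Lg n s ≤ e ^ (-(2 * c1)) * Real.log 2 := by
    calc Lg n s ≤ 9 / 8 * C1 * (Real.log (1 / e) + Real.log (1 / y)) := h1
      _ ≤ 9 / 8 * Cm * (Real.log (1 / e) + Real.log (1 / y)) := by gcongr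
      _ ≤ 9 / 8 * Cm * ((1 / c1 + 1) * e ^ (-c1)) :=
          mul_le_mul_of_nonneg_left h4 (by positivity)
      _ = (A * e ^ c1) * e ^ (-(2 * c1)) * Real.log 2 := by
          have e2 : e ^ (-c1) = e ^ c1 * e ^ (-(2 * c1)) := by
            rw [← Real.rpow_add he0]
            congr 1
            ring
          rw [e2, hA]
          field_simp
      _ ≤ 1 * e ^ (-(2 * c1)) * Real.log 2 := by
          refine mul_le_mul_of_nonneg_right ?_ hl2.le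
          exact mul_le_mul_of_nonneg_right f1 (Real.rpow_nonneg he0.le _)
      _ = _ := by ring
  unfold Lg at h5
  exact le_of_mul_le_mul_right h5 hl2

/-- **(P4) = `PcH` for one `b`, `C1` inside the order of constants** -/
theorem pcH_ev {b : ℝ} (hb : 0 < b) (hh : 0 < helicity b) (hs : 1 / helicity b < 5 / 2)
    {b1 b2 pf : ℝ} {Q : ℕ} {K : ℝ} (hK : 0 < K)
    (hty : Ev b1 b2 pf Q fun P c1 => TyQ P b c1) :
    Ev b1 b2 pf Q fun P c1 => ∀ C1 : ℝ, P.C0 ≤ C1 → C1 ≤ K * P.C0 → PcHb P b c1 C1 := by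
  obtain ⟨c₁, n0, hc₁, hup⟩ := upH_ex hb hh hs
  obtain ⟨Cs, hCs, hev⟩ := hs_ev hb hc₁ hup
  have hC : Ev b1 b2 pf Q fun P c1 => Cs ≤ P.C0 ∧ 2 ≤ P.C0 ∧ ∀ (C1 : ℝ) (n s : ℕ) (e y : ℝ),
      0 < C1 → C1 ≤ K * P.C0 → Cx P b C1 c1 n s e y → (n : ℝ) - s ≤ e ^ (-(2 * c1)) := by
    refine H801.Ev.of ?_
    refine ⟨0, fun W _ => ⟨1, one_pos, fun ys _ _ => ⟨0, fun X0 _ => ⟨1, one_pos,
      fun x1 _ _ => ⟨1, one_pos, fun thp _ _ => ⟨1, one_pos, fun th _ _ => ⟨max Cs 2,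
      fun C0 hC0 => ⟨1, one_pos, fun c1 hc1 _ => ?_⟩⟩⟩⟩⟩⟩⟩⟩
    have hC02 : 2 ≤ C0 := (le_max_right _ _).trans hC0
    obtain ⟨E0, hE0, hE⟩ := Cx_dep (Cm := K * C0) (by positivity) hc1
    refine ⟨E0, hE0, fun P hP => ?_⟩
    rw [hP.eC0]
    refine ⟨(le_max_left _ _).trans hC0, hC02, fun C1 n s e y h1 h2 h3 => ?_⟩
    exact hE P b C1 n s e y h1 h2 (h3.es.trans hP.ees) h3
  refine ((hty.and (hev b1 b2 pf Q)).and hC).mono ?_
  rintro P c1 - ⟨⟨h1, h2⟩, h3, h4, h5⟩ C1 hC1 hC1K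
  intro a n m s s' e e' y y' hx hw hy r hr hmr _ _ _
  have hC10 : 0 < C1 := by linarith
  have hcx := hx.cx
  have hsE := Cx_sE hcx hC1 h4
  have hdep := h5 C1 n s e y hC10 hC1K hcx
  have hw1 := hw.w1
  have hwe : 1 ≤ P.w e := H972.w1 hcx.e0 hcx.es
  have hnm : n < m := by omega
  have hty' := h1 n e a hcx.e0 hcx.es hcx.G hx.a1 hx.a2 hx.fl s hsE hcx.ns hdep r hr (tn m / 2)
    (by have := hs_tn_pos m; linarith)
    (by have := hs_tn_pos m; have := hs_tn_lt hnm; linarith)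
  exact h2 C1 (h3.trans hC1) n m s s' r e e' y y' hcx.G hcx.e0 hcx.es hcx.y0 hcx.ylt.le hcx.s2
    hy.cx.e0 hw.hi hy.cx.y0 hy.cx.ylt.le hy.cx.s2 hy.ss hw1 hr (by omega) hty'

end

end Vale.Agent.P159.H375
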