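import Vale.Agent.P159.H375.Basic

/-!
P159, module UV1, part 2: masses on the cells of the square `[2^K, 2^(K+1))²`, all levels.
-/

open Filter Topology

namespace Vale.Agent.P159.H375

open Vale.Agent.P159.TM
open Vale.Agent.P159.TM.H22 (SG Gle lin)
open Vale.Agent.P159.TM.SpecI
open Vale.Agent.P159.TM.H574
open Vale.Agent.P159.H353 (wI wI_nonneg wI_neg wI_zero_pos)
open Finset

/-- the cells of level `i` of the square `[2^K, 2^(K+1))²` -/
def cl (i : ℕ) : Finset (ℕ × ℕ) := Ico (2 ^ i) (2 ^ (i + 1)) ×ˢ Ico (2 ^ i) (2 ^ (i + 1))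

lemma mem_cl {i : ℕ} {c : ℕ × ℕ} : c ∈ cl i ↔
    (2 ^ i ≤ c.1 ∧ c.1 < 2 ^ (i + 1)) ∧ 2 ^ i ≤ c.2 ∧ c.2 < 2 ^ (i + 1) := by
  unfold cl
  rw [mem_product, mem_Ico, mem_Ico]

lemma card_cl (i : ℕ) : ((cl i).card : ℝ) = 4 ^ i := by
  unfold cl
  rw [card_product, Nat.card_Ico, pow_succ, show 2 ^ i * 2 - 2 ^ i = 2 ^ i by omega]
  push_cast
  rw [← mul_pow]
  norm_num

variable {n : ℕ}

/-- the mass `t` on the cells of level `i` (side `2^(K-i)`) -/
noncomputable def mz (t : ℝ) (K i : ℕ) (h : V n → ℤ) : ℝ :=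
  t * 4 ^ (K - i) * ∑ c ∈ cl i, SpecI.avg (2 ^ (K - i)) c h ^ 2

/-- the mass added between level `i` and level `i + 1` -/
noncomputable def qz (t : ℝ) (K i : ℕ) (h : V n → ℤ) : ℝ :=
  t * 4 ^ (K - (i + 1)) * ∑ c ∈ cl (i + 1), Dc (2 ^ (K - (i + 1))) c h ^ 2

lemma sum_Ico_two (a b : ℕ) (F : ℕ → ℝ) :
    ∑ x ∈ Ico (2 * a) (2 * b), F x = ∑ y ∈ Ico a b, (F (2 * y) + F (2 * y + 1)) := by
  rcases le_total b a with h | h
  · rw [Ico_eq_empty_of_le (by omega), Ico_eq_empty_of_le h, sum_empty, sum_empty]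
  · obtain ⟨d, rfl⟩ := Nat.exists_eq_add_of_le h
    rw [sum_Ico_eq_sum_range, sum_Ico_eq_sum_range,
      show 2 * (a + d) - 2 * a = 2 * d by omega, show a + d - a = d by omega, sum_range_two]
    exact sum_congr rfl fun x _ => by
      rw [show 2 * a + 2 * x = 2 * (a + x) by ring, show 2 * a + (2 * x + 1) = 2 * (a + x) + 1 by
        ring]

/-- **ANOVA** -/
theorem mz_succ (t : ℝ) {K i : ℕ} (hi : i + 1 ≤ K) (h : V n → ℤ) :
    mz t K (i + 1) h = mz t K i h + qz t K i h := by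
  have hq : 1 ≤ 2 ^ (K - (i + 1)) := Nat.one_le_two_pow
  have e1 : 2 ^ (K - i) = 2 * 2 ^ (K - (i + 1)) := by
    rw [← pow_succ']
    congr 1
    omega
  have e2 : (4 : ℝ) ^ (K - i) = 4 * 4 ^ (K - (i + 1)) := by
    rw [← pow_succ']
    congr 1
    omega
  unfold mz qz
  set q := 2 ^ (K - (i + 1)) with hqd
  have key : ∑ c ∈ cl (i + 1), SpecI.avg q c h ^ 2 =
      4 * ∑ c ∈ cl i, SpecI.avg (2 ^ (K - i)) c h ^ 2 + ∑ c ∈ cl (i + 1), Dc q c h ^ 2 := by
    unfold cl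
    rw [sum_product, sum_product, sum_product, show 2 ^ (i + 1 + 1) = 2 * 2 ^ (i + 1) from
      pow_succ' 2 (i + 1), show (2 : ℕ) ^ (i + 1) = 2 * 2 ^ i from pow_succ' 2 i, sum_Ico_two,
      sum_Ico_two, mul_sum, ← sum_add_distrib]
    refine sum_congr rfl fun c _ => ?_
    rw [sum_Ico_two, sum_Ico_two, sum_Ico_two, sum_Ico_two, mul_sum,
      ← sum_add_distrib, ← sum_add_distrib, ← sum_add_distrib]
    refine sum_congr rfl fun d _ => ?_
    unfold Dc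
    simp only
    rw [show 2 * c / 2 = c by omega, show 2 * d / 2 = d by omega,
      show (2 * c + 1) / 2 = c by omega, show (2 * d + 1) / 2 = d by omega, e1,
      avg_split hq c d h]
    ring
  rw [key, e2]
  ring

section main

variable [NeZero n]

lemma sq_mz {t : ℝ} (ht : 0 ≤ t) (K i : ℕ) : SQ (mz (n := n) t K i) := by
  refine (SQ.sum (U := V n) (cl i) (v := fun _ => t * 4 ^ (K - i))
    (fun _ _ => by positivity) (fun c => avc (2 ^ (K - i)) c)).congr fun h => ?_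
  unfold mz
  rw [mul_sum]
  refine sum_congr rfl fun c _ => ?_
  rw [avg_lin]

lemma sq_qz {t : ℝ} (ht : 0 ≤ t) (K i : ℕ) : SQ (qz (n := n) t K i) := by
  refine (SQ.sum (U := V n) (cl (i + 1)) (v := fun _ => t * 4 ^ (K - (i + 1)))
    (fun _ _ => by positivity) (fun c => dc (2 ^ (K - (i + 1))) c)).congr fun h => ?_
  unfold qz
  rw [mul_sum]
  refine sum_congr rfl fun c _ => ?_
  rw [Dc_lin]

/-- the pinned set -/
def XK (n : ℕ) [NeZero n] (K : ℕ) : Finset (V n) := (bx (2 ^ K, 2 ^ K) (2 ^ K))ᶜ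

lemma XK_ne {K : ℕ} (hn : 2 ^ (K + 1) + 1 ≤ n) : (XK n K).Nonempty := by
  have h2 : 2 ^ (K + 1) = 2 * 2 ^ K := pow_succ' 2 K
  have h1 : 1 ≤ 2 ^ K := Nat.one_le_two_pow
  refine ⟨pt 0 0, ?_⟩
  unfold XK
  rw [mem_compl, pt_mem_bx (by omega) (by omega)]
  simp only
  omega

/-- level `K` is the full mass -/
lemma mz_full (t : ℝ) {K : ℕ} (hn : 2 ^ (K + 1) + 1 ≤ n) {h : V n → ℤ}
    (hh : ∀ x ∈ XK n K, h x = 0) : mz t K K h = full t h := by
  have h2 : 2 ^ (K + 1) = 2 * 2 ^ K := pow_succ' 2 K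
  unfold mz full
  rw [Nat.sub_self, pow_zero, pow_zero, mul_one]
  congr 1
  have e : ∑ x : V n, (h x : ℝ) ^ 2 = ∑ x ∈ bx (2 ^ K, 2 ^ K) (2 ^ K), (h x : ℝ) ^ 2 := by
    symm
    refine sum_subset (subset_univ _) fun x _ hx => ?_
    rw [hh x (by unfold XK; rw [mem_compl]; exact hx)]
    simp
  rw [e]
  refine sum_nbij' (fun c => pt c.1 c.2) (fun x => (x.1.val, x.2.val)) ?_ ?_ ?_ ?_ ?_
  · intro c hc
    rw [mem_cl] at hc
    rw [pt_mem_bx (by omega) (by omega)]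
    simp only
    omega
  · intro x hx
    rw [mem_bx] at hx
    rw [mem_cl]
    simp only at hx ⊢
    omega
  · intro c hc
    rw [mem_cl] at hc
    rw [pt_val1 (by omega), pt_val2 (by omega)]
  · intro x _
    exact (eq_pt x).symm
  · intro c _
    unfold SpecI.avg pt
    simp


end main

end Vale.Agent.P159.H375
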