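import Vale.Agent.P159.H375.Uv1

/-!
P159, module FINE, part 1: `h_x` minus the average of its cell of side `l` does not feel a mass `t`,
`t l² << 1`, and neither does the fine energy `Q_f = ∑_x (h_x - avg)²`.
-/

open Filter Topology

namespace Vale.Agent.P159.H375

open Vale.Agent.P159.TM
open Vale.Agent.P159.TM.H22 (SG Gle lin)
open Vale.Agent.P159.TM.SpecI
open Vale.Agent.P159.TM.H574
open Vale.Agent.P159.H353 (wI wI_nonneg wI_neg wI_zero_pos)
open Finset

/-- two mass forms `M₀ ≤ M ≤ t` -/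
structure Mas {n : ℕ} [NeZero n] (t : ℝ) (M₀ M : (V n → ℤ) → ℝ) : Prop where
  sq0 : SQ M₀
  co0 : Coe univ ∅ M₀
  dif : ∃ R : (V n → ℤ) → ℝ, SQ R ∧ ∀ h, M₀ h + R h = M h
  top : ∃ R : (V n → ℤ) → ℝ, SQ R ∧ ∀ h, M h + R h = full t h

section mas

variable {n : ℕ} [NeZero n] {t : ℝ} {M₀ M : (V n → ℤ) → ℝ}

lemma Mas.sq1 (h : Mas t M₀ M) : SQ M := by
  obtain ⟨R, hR, he⟩ := h.dif
  exact (h.sq0.add hR).congr fun k => (he k).symm

lemma Mas.co1 (h : Mas t M₀ M) : Coe univ ∅ M := by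
  obtain ⟨R, hR, he⟩ := h.dif
  exact h.co0.mono subset_rfl subset_rfl fun k => by
    have := hR.nonneg k
    rw [← he]
    linarith

end mas

/-! ### the change of a second moment -/

section dm

variable {n : ℕ} [NeZero n] {b : ℝ}

/-- the change of the second moment of `<g, h>` -/
noncomputable def Dm (b : ℝ) (M₀ M : (V n → ℤ) → ℝ) (g : V n → ℝ) : ℝ :=
  ex b univ ∅ M₀ (fun h => pr g h ^ 2) - ex b univ ∅ M (fun h => pr g h ^ 2)

lemma Dm_nonneg (hb : 0 ≤ b) {t : ℝ} {M₀ M : (V n → ℤ) → ℝ} (hM : Mas t M₀ M) (g : V n → ℝ) :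
    0 ≤ Dm b M₀ M g := by
  obtain ⟨R, hR, he⟩ := hM.dif
  have := ex_mono (es := univ) (es' := univ) (X := ∅) (X' := ∅) (Q := M₀)
      (R := R) hb subset_rfl subset_rfl hM.sq0 hR hM.co0 (inc_sq g)
  have e : (fun h => M₀ h + R h) = M := funext he
  rw [e] at this
  unfold Dm
  have h2 : ex b univ ∅ M (fun h => pr g h ^ 2) ≤ ex b univ ∅ M₀ (fun h => pr g h ^ 2) := this
  linarith

lemma pr_comb (g g' : V n → ℝ) (s : ℝ) (h : V n → ℤ) :
    pr (fun x => g x + s * g' x) h = pr g h + s * pr g' h := by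
  unfold pr
  rw [mul_sum, ← sum_add_distrib]
  exact sum_congr rfl fun x _ => by ring

lemma ex_comb (hb : 0 ≤ b) {M : (V n → ℤ) → ℝ} (sg : SG (wt b univ ∅ M))
    (g g' : V n → ℝ) (s : ℝ) :
    ex b univ ∅ M (fun h => pr (fun x => g x + s * g' x) h ^ 2) =
      ex b univ ∅ M (fun h => pr g h ^ 2) + 2 * s * ex b univ ∅ M (fun h => pr g h * pr g' h) +
        s ^ 2 * ex b univ ∅ M (fun h => pr g' h ^ 2) := by
  have gg : H22.Gr fun h : V n → ℤ => pr g h * pr g' h := (H22.Gr.lin g).mul (H22.Gr.lin g')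
  have g1 : H22.Gr fun h : V n → ℤ => pr g h ^ 2 := gr_sq g
  have g2 : H22.Gr fun h : V n → ℤ => pr g' h ^ 2 := gr_sq g'
  rw [← ex_smul, ← ex_smul, ← ex_add sg g1 (gg.const_mul _),
    ← ex_add sg (g1.add (gg.const_mul _)) (g2.const_mul _)]
  congr 1
  funext h
  rw [pr_comb]
  ring

/-- **triangle inequality** -/
theorem Dm_tri (hb : 0 ≤ b) {t : ℝ} {M₀ M : (V n → ℤ) → ℝ} (hM : Mas t M₀ M) (g g' : V n → ℝ) :
    √(Dm b M₀ M fun x => g x + g' x) ≤ √(Dm b M₀ M g) + √(Dm b M₀ M g') := by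
  have sg0 : SG (wt b univ ∅ M₀) := sg_wt hb hM.sq0.nonneg hM.sq0.even hM.co0
  have sg1 : SG (wt b univ ∅ M) := sg_wt hb hM.sq1.nonneg hM.sq1.even hM.co1
  set B : ℝ := ex b univ ∅ M₀ (fun h => pr g h * pr g' h) -
    ex b univ ∅ M (fun h => pr g h * pr g' h) with hB
  have key : ∀ s : ℝ, Dm b M₀ M (fun x => g x + s * g' x) =
      Dm b M₀ M g + 2 * s * B + s ^ 2 * Dm b M₀ M g' := by
    intro s
    unfold Dm
    rw [ex_comb hb sg0, ex_comb hb sg1, hB]
    ring
  have h0 := Dm_nonneg hb hM g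
  have h1 := Dm_nonneg hb hM g'
  have hq : ∀ s : ℝ, 0 ≤ Dm b M₀ M g' * (s * s) + 2 * B * s + Dm b M₀ M g := by
    intro s
    have := Dm_nonneg hb hM fun x => g x + s * g' x
    rw [key] at this
    nlinarith
  have hd := discrim_le_zero hq
  unfold discrim at hd
  have hB2 : B ^ 2 ≤ Dm b M₀ M g * Dm b M₀ M g' := by nlinarith
  have hB3 : B ≤ √(Dm b M₀ M g) * √(Dm b M₀ M g') := by
    rw [← Real.sqrt_mul h0]
    exact Real.le_sqrt_of_sq_le hB2
  have e1 : Dm b M₀ M (fun x => g x + g' x) = Dm b M₀ M g + 2 * B + Dm b M₀ M g' := by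
    have := key 1
    simp only [one_mul] at this
    rw [this]
    ring
  rw [e1]
  refine Real.sqrt_le_iff.2 ⟨by positivity, ?_⟩
  have s0 := Real.sq_sqrt h0
  have s1 := Real.sq_sqrt h1
  nlinarith

lemma Dm_smul (M₀ M : (V n → ℤ) → ℝ) (s : ℝ) (g : V n → ℝ) :
    Dm b M₀ M (fun x => s * g x) = s ^ 2 * Dm b M₀ M g := by
  unfold Dm
  have e : ∀ h : V n → ℤ, pr (fun x => s * g x) h ^ 2 = s ^ 2 * pr g h ^ 2 := by
    intro h
    have : pr (fun x => s * g x) h = s * pr g h := by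
      unfold pr
      rw [mul_sum]
      exact sum_congr rfl fun x _ => by ring
    rw [this]
    ring
  simp only [e, ex_smul]
  ring

end dm

/-! ### averages over squares -/

section av

variable {n : ℕ} [NeZero n]

/-- coefficients of the average over the square with corner `d` and side `r` -/
noncomputable def avs (d : ℕ × ℕ) (r : ℕ) (x : V n) : ℝ :=
  (∑ i ∈ range r, ∑ j ∈ range r, if x = pt (d.1 + i) (d.2 + j) then (1 : ℝ) else 0) /
    (r : ℝ) ^ 2

lemma sum_avs {r : ℕ} (hr : 1 ≤ r) (d : ℕ × ℕ) : ∑ x : V n, avs d r x = 1 := by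
  unfold avs
  rw [← sum_div, sum_comm]
  have h1 : ∀ i ∈ range r, ∑ x : V n, ∑ j ∈ range r,
      (if x = pt (d.1 + i) (d.2 + j) then (1 : ℝ) else 0) = r := by
    intro i _
    rw [sum_comm]
    simp
  rw [sum_congr rfl h1]
  have h2 : (r : ℝ) ≠ 0 := by exact_mod_cast (by omega : r ≠ 0)
  rw [sum_const, card_range, nsmul_eq_mul]
  field_simp

lemma avs_eq {r : ℕ} {d : ℕ × ℕ} (h1 : d.1 + r ≤ n) (h2 : d.2 + r ≤ n) (x : V n) :
    avs d r x = if x ∈ bx d r then 1 / (r : ℝ) ^ 2 else 0 := by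
  unfold avs
  by_cases hx : x ∈ bx d r
  · rw [if_pos hx]
    congr 1
    rw [mem_bx] at hx
    obtain ⟨a1, a2, a3, a4⟩ := hx
    rw [sum_eq_single (x.1.val - d.1), sum_eq_single (x.2.val - d.2)]
    · rw [if_pos]
      rw [show d.1 + (x.1.val - d.1) = x.1.val by omega,
        show d.2 + (x.2.val - d.2) = x.2.val by omega]
      exact eq_pt x
    · intro j hj hj2
      rw [if_neg]
      intro h3
      have h4 : x.2.val = d.2 + j := by
        rw [mem_range] at hj
        rw [h3]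
        exact pt_val2 (by omega)
      omega
    · intro hj
      rw [mem_range] at hj
      omega
    · intro i hi hi2
      refine sum_eq_zero fun j _ => ?_
      rw [if_neg]
      intro h3
      have h4 : x.1.val = d.1 + i := by
        rw [mem_range] at hi
        rw [h3]
        exact pt_val1 (by omega)
      omega
    · intro hi
      rw [mem_range] at hi
      omega
  · rw [if_neg hx, sum_eq_zero, zero_div]
    intro i hi
    refine sum_eq_zero fun j hj => ?_
    rw [if_neg]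
    intro h3
    rw [mem_range] at hi hj
    apply hx
    rw [h3, pt_mem_bx (by omega) (by omega)]
    omega

lemma pr_avs_one {x : V n} (h : V n → ℤ) : pr (avs (x.1.val, x.2.val) 1) h = h x := by
  classical
  unfold pr
  have e : ∀ y : V n, avs (x.1.val, x.2.val) 1 y = if y = x then 1 else 0 := by
    intro y
    unfold avs
    rw [range_one, sum_singleton, sum_singleton]
    simp only [add_zero, Nat.cast_one, one_pow, div_one]
    rw [← eq_pt]
  simp only [e, ite_mul, one_mul, zero_mul, sum_ite_eq', mem_univ, if_true]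

/-- two nested squares -/
lemma nest {d d' : ℕ × ℕ} {r r' : ℕ} (hr : 1 ≤ r) (h1 : r ≤ r') (h2 : r' ≤ 2 * r)
    (a1 : d'.1 ≤ d.1) (a2 : d.1 + r ≤ d'.1 + r') (a3 : d'.2 ≤ d.2) (a4 : d.2 + r ≤ d'.2 + r')
    (n1 : d'.1 + r' ≤ n) (n2 : d'.2 + r' ≤ n) :
    (∑ x : V n, (avs d r x - avs d' r' x) / 4 = 0) ∧
      (∀ x : V n, x ∉ bx d' r' → (avs d r x - avs d' r' x) / 4 = 0) ∧
      ∀ x : V n, |(avs d r x - avs d' r' x) / 4| ≤ 1 / (r' : ℝ) ^ 2 := by
  have hsub : ∀ y : V n, y ∈ bx d r → y ∈ bx d' r' := by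
    intro y hy
    rw [mem_bx] at hy ⊢
    omega
  refine ⟨?_, ?_, ?_⟩
  · rw [← sum_div, sum_sub_distrib, sum_avs hr, sum_avs (by omega), sub_self, zero_div]
  · intro y hy
    rw [avs_eq (by omega) (by omega), avs_eq (by omega) (by omega), if_neg hy,
      if_neg fun h => hy (hsub y h), sub_zero, zero_div]
  · intro y
    have sp : (0 : ℝ) < r := by exact_mod_cast (by omega : 0 < r)
    have sp' : (0 : ℝ) < r' := by exact_mod_cast (by omega : 0 < r')
    have ss : (r' : ℝ) ≤ 2 * r := by exact_mod_cast h2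
    have sss : (r : ℝ) ≤ r' := by exact_mod_cast h1
    have i1 : 1 / (r : ℝ) ^ 2 ≤ 4 / (r' : ℝ) ^ 2 := by
      rw [div_le_div_iff₀ (by positivity) (by positivity)]
      nlinarith
    have i2 : 0 < 1 / (r' : ℝ) ^ 2 := by positivity
    have i3 : 1 / (r' : ℝ) ^ 2 ≤ 1 / (r : ℝ) ^ 2 := by
      rw [div_le_div_iff₀ (by positivity) (by positivity)]
      nlinarith
    have i4 : 4 / (r' : ℝ) ^ 2 = 4 * (1 / (r' : ℝ) ^ 2) := by ring
    rw [avs_eq (by omega) (by omega), avs_eq (by omega) (by omega), abs_le]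
    split_ifs <;> constructor <;> linarith

end av

variable {b : ℝ}

/-- **site minus cell average** -/
theorem site (hb : 0 ≤ b) : ∃ C c : ℝ, 0 < C ∧ 0 < c ∧
    ∀ (n : ℕ) [NeZero n] (t : ℝ), 0 < t → 9 ≤ t * (n : ℝ) ^ 2 →
    ∀ (L : ℕ) (p : ℕ × ℕ), 1 ≤ L → t * (L : ℝ) ^ 2 ≤ 1 → p.1 + L ≤ n → p.2 + L ≤ n →
    ∀ M₀ M : (V n → ℤ) → ℝ, Mas t M₀ M → ∀ x : V n, x ∈ bx p L →
      Dm b M₀ M (fun y => avs (x.1.val, x.2.val) 1 y - avs p L y) ≤ C * (t * (L : ℝ) ^ 2) ^ c := by
  classical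
  obtain ⟨C, c, hC, hc, hU⟩ := uv1 (b := b) hb
  set β : ℝ := (2 : ℝ) ^ c with hβ
  have hβ1 : 1 < β := Real.one_lt_rpow (by norm_num) hc
  have hβ0 : 0 < β := by linarith
  have hβ1' : 0 < β - 1 := by linarith
  refine ⟨(4 * √C * (β ^ 2 / (β - 1))) ^ 2, c, by positivity, hc, ?_⟩
  intro n _ t ht htn L p hL1 hL2 hn1 hn2 M₀ M hM x hx
  rw [mem_bx] at hx
  obtain ⟨x1, x2, x3, x4⟩ := hx
  set i := x.1.val with hi
  set j := x.2.val with hj
  set σ : ℕ → ℕ := fun m => min (2 ^ m) L with hσ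
  set cr : ℕ → ℕ × ℕ := fun s => (min i (p.1 + L - s), min j (p.2 + L - s)) with hcr
  set a : ℕ → V n → ℝ := fun m => avs (cr (σ m)) (σ m) with ha
  have hσ1 : ∀ m, 1 ≤ σ m := fun m => le_min Nat.one_le_two_pow hL1
  have hσL : ∀ m, σ m ≤ L := fun m => min_le_right _ _
  have hσ2 : ∀ m, σ m ≤ σ (m + 1) := fun m => by
    simp only [hσ]
    have : 2 ^ m ≤ 2 ^ (m + 1) := Nat.pow_le_pow_right (by norm_num) (by omega)
    omega
  have hσ3 : ∀ m, σ (m + 1) ≤ 2 * σ m := fun m => by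
    simp only [hσ]
    have : 2 ^ (m + 1) = 2 * 2 ^ m := pow_succ' 2 m
    omega
  have hσ4 : ∀ m, σ (m + 1) ≤ 2 ^ (m + 1) := fun m => min_le_left _ _
  -- the step
  set A : ℝ := 4 * √C * t ^ (c / 2) with hA
  have hA0 : 0 ≤ A := by positivity
  have hstep : ∀ m, √(Dm b M₀ M fun y => a m y - a (m + 1) y) ≤ A * β ^ (m + 1) := by
    intro m
    have e1 := hσ1 m
    have e2 := hσL m
    have e3 := hσL (m + 1)
    have e4 := hσ2 m
    have e5 := hσ3 m
    have e6 := hσ4 m
    by_cases hL : L = 1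
    · -- trivial
      have f1 : σ m = 1 := by omega
      have f2 : σ (m + 1) = 1 := by omega
      have : (fun y : V n => a m y - a (m + 1) y) = fun y => 0 * a m y := by
        funext y
        simp only [ha]
        rw [f1, f2]
        ring
      rw [this, Dm_smul]
      simp only [ne_eq, OfNat.ofNat_ne_zero, not_false_eq_true, zero_pow, zero_mul, Real.sqrt_zero]
      positivity
    · have e7 : 2 ≤ σ (m + 1) := by
        have : 2 ≤ 2 ^ (m + 1) := by
          calc 2 = 2 ^ 1 := rfl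
            _ ≤ 2 ^ (m + 1) := Nat.pow_le_pow_right (by norm_num) (by omega)
        exact le_min this (by omega)
      obtain ⟨g1, g2, g3⟩ := nest (n := n) (d := cr (σ m)) (d' := cr (σ (m + 1))) e1 e4 e5
        (by simp only [hcr]; omega) (by simp only [hcr]; omega) (by simp only [hcr]; omega)
        (by simp only [hcr]; omega) (by simp only [hcr]; omega) (by simp only [hcr]; omega)
      obtain ⟨R, hR, he⟩ := hM.top
      have ht2 : t * ((σ (m + 1) : ℕ) : ℝ) ^ 2 ≤ 1 := by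
        refine le_trans ?_ hL2
        have : ((σ (m + 1) : ℕ) : ℝ) ≤ L := by exact_mod_cast e3
        gcongr
      have h1 := hU n t ht htn (σ (m + 1)) e7 ht2 (pt (cr (σ (m + 1))).1 (cr (σ (m + 1))).2)
        (fun y => (a m y - a (m + 1) y) / 4) g1 (fun y hy => g2 y fun h => hy
          ((mem_bx_sq (by simp only [hcr]; omega) (by simp only [hcr]; omega)).1 h)) g3
        M₀ M R hM.sq0 hM.co0 hM.sq1 hM.co1 hR he
      have h2 : Dm b M₀ M (fun y => a m y - a (m + 1) y) =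
          4 ^ 2 * Dm b M₀ M (fun y => (a m y - a (m + 1) y) / 4) := by
        rw [← Dm_smul]
        congr 1
        funext y
        ring
      have h3 : Dm b M₀ M (fun y => (a m y - a (m + 1) y) / 4) ≤
          C * (t * ((σ (m + 1) : ℕ) : ℝ) ^ 2) ^ c := h1
      have h4 : (t * ((σ (m + 1) : ℕ) : ℝ) ^ 2) ^ c ≤ t ^ c * (β ^ (m + 1)) ^ 2 := by
        have h5 : ((σ (m + 1) : ℕ) : ℝ) ≤ 2 ^ (m + 1) := by exact_mod_cast e6
        have h6 : (t * ((σ (m + 1) : ℕ) : ℝ) ^ 2) ^ c ≤ (t * ((2 : ℝ) ^ (m + 1)) ^ 2) ^ c := by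
          refine Real.rpow_le_rpow (by positivity) ?_ hc.le
          gcongr
        refine h6.trans_eq ?_
        rw [Real.mul_rpow ht.le (by positivity), hβ]
        congr 1
        rw [← Real.rpow_pow_comm (by positivity), ← Real.rpow_pow_comm (by norm_num)]
      rw [h2]
      refine Real.sqrt_le_iff.2 ⟨by positivity, ?_⟩
      calc 4 ^ 2 * Dm b M₀ M (fun y => (a m y - a (m + 1) y) / 4) ≤
            4 ^ 2 * (C * (t ^ c * (β ^ (m + 1)) ^ 2)) := by
            refine mul_le_mul_of_nonneg_left (h3.trans ?_) (by norm_num)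
            exact mul_le_mul_of_nonneg_left h4 hC.le
        _ = (A * β ^ (m + 1)) ^ 2 := by
            have s1 := Real.sq_sqrt hC.le
            have s2 : (t ^ (c / 2)) ^ 2 = t ^ c := by
              rw [← Real.rpow_natCast, ← Real.rpow_mul ht.le]
              congr 1
              push_cast
              ring
            rw [hA, mul_pow, mul_pow, mul_pow, s1, s2]
            ring
  -- the chain
  have hchain : ∀ m, √(Dm b M₀ M fun y => a 0 y - a m y) ≤ A * (β ^ (m + 1) / (β - 1)) := by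
    intro m
    induction m with
    | zero =>
      have : (fun y : V n => a 0 y - a 0 y) = fun y => 0 * a 0 y := by
        funext y
        ring
      rw [this, Dm_smul]
      simp only [ne_eq, OfNat.ofNat_ne_zero, not_false_eq_true, zero_pow, zero_mul, Real.sqrt_zero]
      positivity
    | succ m ih =>
      have h1 := Dm_tri hb hM (fun y => a 0 y - a m y) (fun y => a m y - a (m + 1) y)
      have e : (fun y : V n => (a 0 y - a m y) + (a m y - a (m + 1) y)) =
          fun y => a 0 y - a (m + 1) y := by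
        funext y
        ring
      rw [e] at h1
      have h2 := hstep m
      have e2 : A * (β ^ (m + 1 + 1) / (β - 1)) =
          A * (β ^ (m + 1) / (β - 1)) + A * β ^ (m + 1) := by
        field_simp
        ring
      rw [e2]
      linarith
  -- the end
  set k := Nat.log 2 L with hk
  have hkL : 2 ^ k ≤ L := Nat.pow_log_le_self 2 (by omega)
  have hkL' : L < 2 ^ (k + 1) := Nat.lt_pow_succ_log_self (by norm_num) L
  have hfin := hchain (k + 1)
  have f0 : a 0 = avs (x.1.val, x.2.val) 1 := by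
    have : σ 0 = 1 := by simp only [hσ]; simp; omega
    simp only [ha, this, hcr]
    congr 1
    refine Prod.ext ?_ ?_
    · simp only; omega
    · simp only; omega
  have f1 : a (k + 1) = avs p L := by
    have : σ (k + 1) = L := by simp only [hσ]; omega
    simp only [ha, this, hcr]
    congr 1
    refine Prod.ext ?_ ?_
    · simp only; omega
    · simp only; omega
  rw [f0, f1] at hfin
  have hLc : β ^ k ≤ (L : ℝ) ^ c := by
    rw [hβ, ← Real.rpow_natCast, ← Real.rpow_mul (by norm_num), mul_comm c, Real.rpow_mul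
      (by norm_num), Real.rpow_natCast]
    refine Real.rpow_le_rpow (by positivity) ?_ hc.le
    exact_mod_cast hkL
  have hR0 : 0 ≤ A * (β ^ (k + 1 + 1) / (β - 1)) := by positivity
  have h5 : Dm b M₀ M (fun y => avs (x.1.val, x.2.val) 1 y - avs p L y) ≤
      (A * (β ^ (k + 1 + 1) / (β - 1))) ^ 2 := by
    have := Real.sqrt_le_iff.1 hfin
    exact this.2
  refine h5.trans ?_
  have h6 : A * (β ^ (k + 1 + 1) / (β - 1)) ≤
      4 * √C * (β ^ 2 / (β - 1)) * (t ^ (c / 2) * (L : ℝ) ^ c) := by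
    rw [hA]
    calc 4 * √C * t ^ (c / 2) * (β ^ (k + 1 + 1) / (β - 1)) =
          4 * √C * (β ^ 2 / (β - 1)) * (t ^ (c / 2) * β ^ k) := by ring
      _ ≤ _ := by gcongr
  calc (A * (β ^ (k + 1 + 1) / (β - 1))) ^ 2 ≤
        (4 * √C * (β ^ 2 / (β - 1)) * (t ^ (c / 2) * (L : ℝ) ^ c)) ^ 2 :=
        pow_le_pow_left₀ hR0 h6 2
    _ = (4 * √C * (β ^ 2 / (β - 1))) ^ 2 * (t * (L : ℝ) ^ 2) ^ c := by
        rw [mul_pow]
        congr 1
        have hLp : (0 : ℝ) ≤ L := Nat.cast_nonneg L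
        rw [Real.mul_rpow ht.le (by positivity), mul_pow]
        congr 1
        · rw [← Real.rpow_natCast, ← Real.rpow_mul ht.le]
          congr 1
          push_cast
          ring
        · rw [← Real.rpow_natCast, ← Real.rpow_natCast, ← Real.rpow_mul hLp, ← Real.rpow_mul hLp]
          congr 1
          push_cast
          ring

/-- the fine energy -/
noncomputable def Qf {n : ℕ} [NeZero n] (l : ℕ) (h : V n → ℤ) : ℝ :=
  ∑ x : V n, ((h x : ℝ) - SpecI.avg l (x.1.val / l, x.2.val / l) h) ^ 2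

lemma pr_avs_cell {n : ℕ} [NeZero n] {l : ℕ} (c : ℕ × ℕ) (h : V n → ℤ) :
    pr (avs (c.1 * l, c.2 * l) l) h = SpecI.avg l c h := by
  rw [avg_lin]
  rfl

lemma Qf_term {n : ℕ} [NeZero n] (l : ℕ) (h : V n → ℤ) (x : V n) :
    (h x : ℝ) - SpecI.avg l (x.1.val / l, x.2.val / l) h =
      pr (fun y => avs (x.1.val, x.2.val) 1 y - avs (x.1.val / l * l, x.2.val / l * l) l y) h := by
  have e : pr (fun y => avs (x.1.val, x.2.val) 1 y - avs (x.1.val / l * l, x.2.val / l * l) l y) h =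
      pr (avs (x.1.val, x.2.val) 1) h - pr (avs (x.1.val / l * l, x.2.val / l * l) l) h := by
    unfold pr
    rw [← sum_sub_distrib]
    exact sum_congr rfl fun y _ => by ring
  rw [e, pr_avs_one, ← pr_avs_cell]

lemma sq_Qf {n : ℕ} [NeZero n] (l : ℕ) : SQ (Qf (n := n) l) := by
  refine (SQ.sum (U := V n) (ι := V n) univ (v := fun _ => 1)
    (fun _ _ => zero_le_one) (fun (x : V n) y => avs (x.1.val, x.2.val) 1 y -
      avs (x.1.val / l * l, x.2.val / l * l) l y)).congr fun h => ?_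
  unfold Qf
  refine sum_congr rfl fun x _ => ?_
  rw [Qf_term, one_mul]
  rfl

/-- **fine energy** -/
theorem fine_energy (hb : 0 ≤ b) : ∃ C c : ℝ, 0 < C ∧ 0 < c ∧
    ∀ (n : ℕ) [NeZero n] (t : ℝ), 0 < t → 9 ≤ t * (n : ℝ) ^ 2 →
    ∀ l : ℕ, 1 ≤ l → l ∣ n → t * (l : ℝ) ^ 2 ≤ 1 →
    ∀ M₀ M : (V n → ℤ) → ℝ, Mas t M₀ M →
      0 ≤ ex b univ ∅ M₀ (Qf l) - ex b univ ∅ M (Qf l) ∧
      ex b univ ∅ M₀ (Qf l) - ex b univ ∅ M (Qf l) ≤
        C * (n : ℝ) ^ 2 * (t * (l : ℝ) ^ 2) ^ c := by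
  classical
  obtain ⟨C, c, hC, hc, hS⟩ := site (b := b) hb
  refine ⟨C, c, hC, hc, ?_⟩
  intro n _ t ht htn l hl hln htl M₀ M hM
  have sg0 : SG (wt b univ ∅ M₀) := sg_wt hb hM.sq0.nonneg hM.sq0.even hM.co0
  have sg1 : SG (wt b univ ∅ M) := sg_wt hb hM.sq1.nonneg hM.sq1.even hM.co1
  set g : V n → V n → ℝ := fun x y => avs (x.1.val, x.2.val) 1 y -
      avs (x.1.val / l * l, x.2.val / l * l) l y with hg
  have e : ∀ N : (V n → ℤ) → ℝ, SG (wt b univ ∅ N) →
      ex b univ ∅ N (Qf l) = ∑ x : V n, ex b univ ∅ N (fun h => pr (g x) h ^ 2) := by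
    intro N sg
    have g1 : ∀ x : V n, H22.Gr fun h : V n → ℤ => pr (g x) h ^ 2 := fun x => gr_sq (g x)
    rw [← ex_sum sg univ fun x _ => g1 x]
    congr 1
    funext h
    unfold Qf
    exact sum_congr rfl fun x _ => by rw [Qf_term]
  have e2 : ex b univ ∅ M₀ (Qf l) - ex b univ ∅ M (Qf l) = ∑ x : V n, Dm b M₀ M (g x) := by
    rw [e _ sg0, e _ sg1, ← sum_sub_distrib]
    rfl
  rw [e2]
  refine ⟨sum_nonneg fun x _ => Dm_nonneg hb hM _, ?_⟩
  obtain ⟨d, hd⟩ := hln
  have hdiv : ∀ v : ℕ, v < n → v / l * l + l ≤ n := by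
    intro v hv
    have h1 : v / l < d := by
      rw [Nat.div_lt_iff_lt_mul (by omega)]
      rw [mul_comm, ← hd]
      exact hv
    calc v / l * l + l = (v / l + 1) * l := by ring
      _ ≤ d * l := Nat.mul_le_mul_right l h1
      _ = n := by rw [hd, mul_comm]
  calc ∑ x : V n, Dm b M₀ M (g x) ≤ ∑ _x : V n, C * (t * (l : ℝ) ^ 2) ^ c := by
        refine sum_le_sum fun x _ => ?_
        have l1 := ZMod.val_lt x.1
        have l2 := ZMod.val_lt x.2
        refine hS n t ht htn l (x.1.val / l * l, x.2.val / l * l) hl htl (hdiv _ l1) (hdiv _ l2)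
          M₀ M hM x ?_
        rw [mem_bx]
        have a1 := Nat.div_mul_le_self x.1.val l
        have a2 := Nat.div_mul_le_self x.2.val l
        have a3 := Nat.lt_div_mul_add (a := x.1.val) (b := l) (by omega)
        have a4 := Nat.lt_div_mul_add (a := x.2.val) (b := l) (by omega)
        simp only
        exact ⟨a1, a3, a2, a4⟩
    _ = _ := by
        rw [sum_const, card_univ, nsmul_eq_mul, Fintype.card_prod, ZMod.card]
        push_cast
        ring

end Vale.Agent.P159.H375
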