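import Vale.Agent.P159.H375.Uvz

/-!
P159, module UV1: a neutral linear functional at scale `r` does not feel a mass `t`, `t r² << 1`, on the
torus: for all mass forms `M₀, M ≥ 0` with `M ≤ t ∑ h_x²`:
`E_{M₀} X² - E_M X² ≤ C (t r²)^c`, no logarithms.
-/

open Filter Topology

namespace Vale.Agent.P159.H375

open Vale.Agent.P159.TM
open Vale.Agent.P159.TM.H22 (SG Gle lin)
open Vale.Agent.P159.TM.SpecI
open Vale.Agent.P159.TM.H574
open Vale.Agent.P159.H353 (wI wI_nonneg wI_neg wI_zero_pos)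
open Finset

variable {b : ℝ}

lemma coe_univ_inn {n : ℕ} [NeZero n] {X : Finset (V n)} {M : (V n → ℤ) → ℝ}
    (h : Coe univ X M) : Coe (inn n) X M := by
  obtain ⟨A, hA, hb⟩ := h
  set D : ℝ := (Fintype.card (V n × Bool) : ℝ) * (4 * n) with hD
  refine ⟨A * (D + 1), by positivity, fun h hh x => (hb h hh x).trans ?_⟩
  rw [mul_assoc]
  refine mul_le_mul_of_nonneg_left ?_ hA
  have h1 : Tv univ h ≤ D * Tv (inn n) h := by
    unfold Tv
    calc ∑ e : V n × Bool, |((h (tgt e) - h e.1 : ℤ) : ℝ)| ≤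
        ∑ _e : V n × Bool, 4 * n * Tv (inn n) h := by
          refine sum_le_sum fun e _ => ?_
          have o1 := osc_inn h (tgt e)
          have o2 := osc_inn h e.1
          have e1 : ((h (tgt e) - h e.1 : ℤ) : ℝ) =
              ((h (tgt e) : ℝ) - h (cnr (0, 0))) - ((h e.1 : ℝ) - h (cnr (0, 0))) := by
            push_cast
            ring
          rw [e1]
          refine (abs_sub _ _).trans ?_
          linarith
      _ = _ := by
          rw [sum_const, card_univ, nsmul_eq_mul, hD]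
          unfold Tv
          ring
  have h2 := Tv_nonneg (inn n) h
  have h3 := Real.sqrt_nonneg (M h)
  have h4 : 0 ≤ D * √(M h) := by positivity
  nlinarith

lemma coe_of_full {n : ℕ} [NeZero n] {es : Finset (V n × Bool)} {M : (V n → ℤ) → ℝ} {l : ℝ}
    (hl : 0 < l) (h : ∀ h, full l h ≤ M h) : Coe es ∅ M := by
  refine ⟨1 / √l, by positivity, fun k _ x => ?_⟩
  have h1 : |(k x : ℝ)| ≤ 1 / √l * √(M k) := by
    have h2 : √l * |(k x : ℝ)| ≤ √(M k) := by
      rw [← Real.sqrt_sq_eq_abs, ← Real.sqrt_mul hl.le]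
      refine Real.sqrt_le_sqrt ((mul_le_mul_of_nonneg_left ?_ hl.le).trans (h k))
      exact single_le_sum (f := fun x => (k x : ℝ) ^ 2) (fun _ _ => sq_nonneg _) (mem_univ x)
    have h3 : 0 < √l := Real.sqrt_pos.2 hl
    rw [div_mul_eq_mul_div, one_mul, le_div_iff₀ h3]
    linarith
  have h2 := Tv_nonneg es k
  have h3 : 0 ≤ 1 / √l * Tv es k := by positivity
  nlinarith

/-- **(UV1)**, functional in a standard position -/
theorem uv1_box (hb : 0 ≤ b) : ∃ C c : ℝ, 0 < C ∧ 0 < c ∧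
    ∀ (n : ℕ) [NeZero n] (K r m : ℕ), 2 ≤ r → 1 ≤ m → (2 * m + 1) * r ≤ 2 ^ K →
    2 ^ (K + 1) + 1 ≤ n → ∀ t : ℝ, 0 ≤ t → t * 4 ^ K ≤ 1 →
    ∀ g : V n → ℝ, ∑ x, g x = 0 →
      (∀ x, x ∉ bx (2 ^ K + m * r, 2 ^ K + m * r) r → g x = 0) →
      (∀ x, |g x| ≤ 1 / (r : ℝ) ^ 2) →
    ∀ M₀ M R : (V n → ℤ) → ℝ, SQ M₀ → Coe univ ∅ M₀ → SQ M → Coe univ ∅ M → SQ R →
      (∀ h, M h + R h = full t h) →
      ex b univ ∅ M₀ (fun h => pr g h ^ 2) - ex b univ ∅ M (fun h => pr g h ^ 2) ≤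
      C * (m : ℝ) ^ (-c) + C * √(t * 4 ^ K) := by
  classical
  obtain ⟨C₁, c₁, hC₁, hc₁, hI⟩ := Vale.Agent.P159.TM.H389.idwi hb
  obtain ⟨C₂, hC₂, hU⟩ := uvz (b := b) hb
  refine ⟨C₁ + C₂, c₁, by positivity, hc₁, ?_⟩
  intro n _ K r m hr hm hKr hn t ht ht1 g hg hgs hgb M₀ M R hM₀ hc₀ hM hcM hR hMR
  set L := (2 * m + 1) * r with hL
  have hLr : m * r + m * r + r = L := by rw [hL]; ring
  have hmr : r ≤ m * r := Nat.le_mul_of_pos_left r hm
  have h2K : 2 ^ (K + 1) = 2 * 2 ^ K := pow_succ' 2 K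
  have hK1 : 1 ≤ 2 ^ K := Nat.one_le_two_pow
  set p : ℕ × ℕ := (2 ^ K, 2 ^ K) with hp
  have hgs1 : ∀ x, x ∉ bx (p.1 + m * r, p.2 + m * r) r → g x = 0 := hgs
  have hgs2 : ∀ x, x ∉ bx p L → g x = 0 := fun x hx => by
    refine hgs x fun h3 => hx ?_
    rw [mem_bx] at h3 ⊢
    simp only [hp] at h3 ⊢
    omega
  have hXX : XK n K ⊆ (bx p L : Finset (V n))ᶜ := by
    unfold XK
    intro x hx
    rw [mem_compl, mem_bx] at hx ⊢
    simp only [hp] at hx ⊢
    omega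
  -- upper bound
  have u1 : ex b univ ∅ M₀ (fun h => pr g h ^ 2) ≤ ex b (inn n) ∅ M₀ (fun h => pr g h ^ 2) := by
    have := ex_mono (es := inn n) (es' := univ) (X := ∅) (X' := ∅) (Q := M₀)
      (R := fun _ => 0) hb (subset_univ _) (Subset.refl _) hM₀ SQ.zero (coe_univ_inn hc₀)
      (inc_sq g)
    simp only [add_zero] at this
    exact this
  have u2 := upper_gen (g := g) (p := p) (s := L) hb hM₀ (coe_univ_inn hc₀)
    (by simp only [hp]; omega) (by simp only [hp]; omega) (by omega) hg hgs2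
  have u3 := hI n r m p hr hm hK1 hK1 (by simp only [hp]; omega) (by simp only [hp]; omega) g hg
    hgs1 hgb
  rw [← hL] at u3
  have u4 : ex b (inn n) (bx p L)ᶜ (fun _ => 0) (fun h => pr g h ^ 2) ≤
      ex b (inn n) (XK n K) (fun _ => 0) (fun h => pr g h ^ 2) := by
    have := ex_mono (es := inn n) (es' := inn n) (X := XK n K) (X' := (bx p L)ᶜ)
      (Q := fun _ => 0) (R := fun _ => 0) hb subset_rfl hXX SQ.zero SQ.zero
      (coe_pin (XK_ne hn) _) (inc_sq g)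
    simp only [add_zero] at this
    exact this
  have u5 := hU n K hn t ht ht1 (p.1 + m * r, p.2 + m * r) r hr (by simp only [hp]; omega)
    (by simp only [hp]; omega) g hg hgs1 hgb
  -- lower bound
  have l1 : ex b univ (XK n K) (full t) (fun h => pr g h ^ 2) ≤
      ex b univ ∅ M (fun h => pr g h ^ 2) := by
    have := ex_mono (es := univ) (es' := univ) (X := ∅) (X' := XK n K) (Q := M)
      (R := R) hb (Subset.refl _) (empty_subset _) hM hR hcM (inc_sq g)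
    have e : (fun h => M h + R h) = full t := funext hMR
    rw [e] at this
    exact this
  have l2 : ex b univ (XK n K) (full t) (fun h => pr g h ^ 2) =
      ex b (inn n) (XK n K) (full t) (fun h => pr g h ^ 2) :=
    ex_univ_pin hb (full t) (fun e he => wrap_pin hK1 hK1 (by simp only; omega)
      (by simp only; omega) e he) _
  rw [l2] at l1
  have hm0 : 0 ≤ (m : ℝ) ^ (-c₁) := Real.rpow_nonneg (Nat.cast_nonneg m) _
  have hs0 := Real.sqrt_nonneg (t * 4 ^ K)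
  have k1 : C₁ * (m : ℝ) ^ (-c₁) ≤ (C₁ + C₂) * (m : ℝ) ^ (-c₁) := by nlinarith
  have k2 : C₂ * √(t * 4 ^ K) ≤ (C₁ + C₂) * √(t * 4 ^ K) := by nlinarith
  linarith

/-! ### translations of the torus -/

section shift

variable {n : ℕ} [NeZero n]

/-- translation of configurations -/
def sh (a : V n) (h : V n → ℤ) : V n → ℤ := fun x => h (x + a)

/-- translation as an equivalence -/
def shE (a : V n) : (V n → ℤ) ≃ (V n → ℤ) where
  toFun := sh a
  invFun := sh (-a)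
  left_inv h := by funext x; simp [sh]
  right_inv h := by funext x; simp [sh]

lemma tgt_add (a x : V n) (o : Bool) : tgt (x, o) + a = tgt (x + a, o) := by
  unfold tgt
  cases o
  · simp only [Bool.false_eq_true, if_false]
    refine Prod.ext ?_ ?_
    · simp only [Prod.fst_add]; ring
    · simp
  · simp only [if_true]
    refine Prod.ext ?_ ?_
    · simp
    · simp only [Prod.snd_add]; ring

lemma Tv_sh (a : V n) (h : V n → ℤ) : Tv univ (sh a h) = Tv univ h := by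
  unfold Tv
  refine Fintype.sum_equiv ((Equiv.addRight a).prodCongr (Equiv.refl Bool)) _ _ fun e => ?_
  obtain ⟨x, o⟩ := e
  simp only [Equiv.prodCongr_apply, Prod.map_apply, Equiv.coe_addRight, Equiv.refl_apply]
  rw [← tgt_add]
  rfl

lemma wt_sh (b : ℝ) (a : V n) (Q : (V n → ℤ) → ℝ) (h : V n → ℤ) :
    wt b univ ∅ (fun h => Q (sh a h)) h = wt b univ ∅ Q (sh a h) := by
  classical
  have hp : ∏ e : V n × Bool, wI b (h (tgt e) - h e.1) =
      ∏ e : V n × Bool, wI b (sh a h (tgt e) - sh a h e.1) := by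
    refine Fintype.prod_equiv ((Equiv.addRight (-a)).prodCongr (Equiv.refl Bool)) _ _
      fun e => ?_
    obtain ⟨x, o⟩ := e
    simp only [Equiv.prodCongr_apply, Prod.map_apply, Equiv.coe_addRight, Equiv.refl_apply]
    rw [← tgt_add]
    unfold sh
    rw [neg_add_cancel_right, neg_add_cancel_right]
  unfold wt
  rw [hp]
  simp

theorem ex_sh (b : ℝ) (a : V n) (Q F : (V n → ℤ) → ℝ) :
    ex b univ ∅ (fun h => Q (sh a h)) (fun h => F (sh a h)) = ex b univ ∅ Q F := by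
  unfold ex
  simp only [wt_sh]
  rw [← (shE a).tsum_eq (fun h => wt b univ ∅ Q h * F h),
    ← (shE a).tsum_eq (fun h => wt b univ ∅ Q h)]
  rfl

lemma lin_sh (a : V n) (ρ : V n → ℝ) (h : V n → ℤ) :
    lin ρ (sh a h) = lin (fun x => ρ (x - a)) h := by
  unfold lin sh
  refine Fintype.sum_equiv (Equiv.addRight a) _ _ fun x => ?_
  simp

lemma sq_sh (a : V n) {M : (V n → ℤ) → ℝ} (hM : SQ M) : SQ fun h => M (sh a h) := by
  obtain ⟨ι, s, v, ρ, hv, he⟩ := hM
  refine ⟨ι, s, v, fun i x => ρ i (x - a), hv, fun h => ?_⟩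
  simp only
  rw [he]
  exact sum_congr rfl fun i _ => by rw [lin_sh]

lemma coe_sh (a : V n) {M : (V n → ℤ) → ℝ} (hM : Coe univ ∅ M) :
    Coe univ ∅ fun h => M (sh a h) := by
  obtain ⟨A, hA, hb⟩ := hM
  refine ⟨A, hA, fun h _ x => ?_⟩
  have := hb (sh a h) (fun y hy => absurd hy (notMem_empty y)) (x - a)
  rw [Tv_sh] at this
  unfold sh at this
  rw [sub_add_cancel] at this
  exact this

lemma full_sh (t : ℝ) (a : V n) (h : V n → ℤ) : full t (sh a h) = full t h := by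
  unfold full sh
  congr 1
  exact Fintype.sum_equiv (Equiv.addRight a) _ _ fun x => rfl

/-- the square with corner `y` and side `r` on the torus -/
def sq (y : V n) (r : ℕ) : Finset (V n) :=
  (range r ×ˢ range r).image fun c => y + pt c.1 c.2

lemma mem_bx_sq {q : ℕ × ℕ} {r : ℕ} (h1 : q.1 + r ≤ n) (h2 : q.2 + r ≤ n) {x : V n} :
    x ∈ bx q r ↔ x ∈ sq (pt q.1 q.2) r := by
  unfold sq
  rw [mem_image, mem_bx]
  constructor
  · intro h
    refine ⟨(x.1.val - q.1, x.2.val - q.2), ?_, ?_⟩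
    · rw [mem_product, mem_range, mem_range]
      simp only
      omega
    · simp only
      conv_rhs => rw [eq_pt x]
      unfold pt
      refine Prod.ext ?_ ?_
      · simp only [Prod.fst_add]
        rw [← Nat.cast_add, Nat.add_sub_cancel' (by omega)]
      · simp only [Prod.snd_add]
        rw [← Nat.cast_add, Nat.add_sub_cancel' (by omega)]
  · rintro ⟨c, hc, rfl⟩
    rw [mem_product, mem_range, mem_range] at hc
    have e : (pt q.1 q.2 + pt c.1 c.2 : V n) = pt (q.1 + c.1) (q.2 + c.2) := by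
      unfold pt
      refine Prod.ext ?_ ?_
      · simp only [Prod.fst_add]
        push_cast
        ring
      · simp only [Prod.snd_add]
        push_cast
        ring
    rw [e, pt_val1 (by omega), pt_val2 (by omega)]
    omega

end shift

/-- crude bound -/
theorem crude_torus (hb : 0 ≤ b) {n : ℕ} [NeZero n] {q : ℕ × ℕ} {r : ℕ}
    (hr : 2 ≤ r) (h1 : q.1 + r ≤ n) (h2 : q.2 + r ≤ n) {ψ : V n → ℝ} (hs : ∑ x, ψ x = 0)
    (hg : ∀ x, x ∉ bx q r → ψ x = 0) (hg1 : ∀ x, |ψ x| ≤ 1 / (r : ℝ) ^ 2)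
    {M : (V n → ℤ) → ℝ} (hM : SQ M) (hc : Coe univ ∅ M) :
    ex b univ ∅ M (fun h => pr ψ h ^ 2) ≤ 384 * Real.exp (b * 3) + 1 := by
  classical
  have u1 : ex b univ ∅ M (fun h => pr ψ h ^ 2) ≤ ex b (inn n) ∅ M (fun h => pr ψ h ^ 2) := by
    have := ex_mono (es := inn n) (es' := univ) (X := ∅) (X' := ∅) (Q := M)
      (R := fun _ => 0) hb (subset_univ _) (Subset.refl _) hM SQ.zero (coe_univ_inn hc)
      (inc_sq ψ)
    simp only [add_zero] at this
    exact this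
  have hn1 : 1 ≤ n := Nat.one_le_iff_ne_zero.2 (NeZero.ne n)
  have u2 := upper_gen (g := ψ) (p := (0, 0)) (s := n) hb hM (coe_univ_inn hc)
    (by simp) (by simp) hn1 hs (fun x hx => by
      rw [bx_full] at hx
      exact absurd (mem_univ x) hx)
  rw [eb_full, bx_full, compl_univ, empty_union] at u2
  have hX : ({cnr (0, 0)} : Finset (V n)).Nonempty := singleton_nonempty _
  have h4 := mom4_pin hb hX hr h1 h2 hs hg hg1 (SQ.zero (U := V n))
  have sg0 : SG (wt b (inn n) {cnr (0, 0)} (fun _ => 0)) :=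
    sg_wt hb (fun _ => le_rfl) (fun _ => rfl) (coe_pin hX _)
  have h5 := mom2_of_4 hb sg0 ψ h4
  linarith

/-- the choice of the box: `√u / t ≈ 4^K`, `u = t r²` -/
lemma choice {t : ℝ} (ht : 0 < t) {r : ℕ} (hr : 2 ≤ r) (hu1 : t * (r : ℝ) ^ 2 ≤ 1)
    (hu : (t * (r : ℝ) ^ 2) ^ ((1 : ℝ) / 4) * 12 ≤ 1) :
    ∃ K m : ℕ, 1 ≤ m ∧ (2 * m + 1) * r ≤ 2 ^ K ∧ t * 4 ^ K ≤ (t * (r : ℝ) ^ 2) ^ ((1 : ℝ) / 2) ∧
      1 ≤ 8 * (m : ℝ) * (t * (r : ℝ) ^ 2) ^ ((1 : ℝ) / 4) := by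
  set u : ℝ := t * (r : ℝ) ^ 2 with hudef
  have hr0 : (0 : ℝ) < r := by exact_mod_cast (by omega : 0 < r)
  have hu0 : 0 < u := by positivity
  set v : ℝ := u ^ ((1 : ℝ) / 4) with hv
  have hv0 : 0 < v := Real.rpow_pos_of_pos hu0 _
  have hv4 : v ^ 4 = u := by
    rw [hv, ← Real.rpow_natCast, ← Real.rpow_mul hu0.le]
    norm_num
  have hv2 : u ^ ((1 : ℝ) / 2) = v ^ 2 := by
    rw [hv, ← Real.rpow_natCast, ← Real.rpow_mul hu0.le]
    norm_num
  rw [hv2]
  -- `X = (v r / v²)² = v² / t`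
  set Y : ℝ := v ^ 2 / t with hY
  have hYr : Y = (r / v) ^ 2 := by
    rw [hY, div_pow, div_eq_div_iff ht.ne' (by positivity)]
    calc v ^ 2 * v ^ 2 = v ^ 4 := by ring
      _ = t * (r : ℝ) ^ 2 := hv4
      _ = _ := by ring
  have hY1 : 1 ≤ Y := by
    rw [hYr]
    have : 1 ≤ (r : ℝ) / v := by
      rw [le_div_iff₀ hv0]
      have : (2 : ℝ) ≤ r := by exact_mod_cast hr
      linarith
    nlinarith
  have hN1 : ⌊Y⌋₊ ≠ 0 := by
    have := Nat.le_floor (n := 1) (by simpa using hY1)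
    omega
  set K := Nat.log 4 ⌊Y⌋₊ with hK
  have hK1 : (4 : ℝ) ^ K ≤ Y := by
    have h1 : 4 ^ K ≤ ⌊Y⌋₊ := Nat.pow_log_le_self 4 hN1
    have h2 := Nat.floor_le (show 0 ≤ Y by positivity)
    calc (4 : ℝ) ^ K = ((4 ^ K : ℕ) : ℝ) := by push_cast; rfl
      _ ≤ (⌊Y⌋₊ : ℝ) := by exact_mod_cast h1
      _ ≤ Y := h2
  have hK2 : Y < 4 * (4 : ℝ) ^ K := by
    have h1 : ⌊Y⌋₊ < 4 ^ (K + 1) := Nat.lt_pow_succ_log_self (by norm_num) _
    have h2 : Y < 4 ^ (K + 1) := by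
      have := Nat.lt_of_floor_lt h1
      push_cast at this
      exact this
    rw [pow_succ] at h2
    linarith
  -- `2^K > r / (2 v)`
  have hP : (r : ℝ) / v < 2 * 2 ^ K := by
    have h1 : (4 : ℝ) ^ K = (2 ^ K) ^ 2 := by
      rw [← pow_mul, mul_comm, pow_mul]
      norm_num
    rw [hYr, h1] at hK2
    have h2 : 0 < (2 : ℝ) ^ K := by positivity
    have h3 : 0 < (r : ℝ) / v := by positivity
    by_contra h4
    push Not at h4
    nlinarith
  set q := 2 ^ K / r with hq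
  have hqr : q * r ≤ 2 ^ K := Nat.div_mul_le_self _ _
  have hq2 : 2 ^ K < (q + 1) * r := by
    have := Nat.lt_mul_div_succ (2 ^ K) (show 0 < r by omega)
    rw [← hq] at this
    linarith [mul_comm r (q + 1)]
  have hq3 : 1 / (2 * v) < (q : ℝ) + 1 := by
    have h1 : (2 : ℝ) ^ K < ((q : ℝ) + 1) * r := by exact_mod_cast hq2
    rw [div_lt_iff₀ (by positivity)]
    rw [div_lt_iff₀ hv0] at hP
    have h2 : (r : ℝ) < 2 * (((q : ℝ) + 1) * r) * v := by
      have := mul_lt_mul_of_pos_right (mul_lt_mul_of_pos_left h1 (show (0 : ℝ) < 2 by norm_num)) hv0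
      linarith
    have h3 : (1 : ℝ) * r < ((q : ℝ) + 1) * (2 * v) * r := by linarith
    exact lt_of_mul_lt_mul_right h3 hr0.le
  have hv12 : 12 ≤ 1 / v := by
    rw [le_div_iff₀ hv0]
    linarith
  have hq5 : (1 / v) / 2 = 1 / (2 * v) := by field_simp
  set m := (q - 1) / 2 with hm
  have hq4 : 5 ≤ q := by
    have : (5 : ℝ) < (q : ℝ) + 1 := by linarith
    have : (5 : ℕ) < q + 1 := by exact_mod_cast this
    omega
  have hm1 : q ≤ 2 * m + 2 := by omega
  have hm2 : 2 * m + 1 ≤ q := by omega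
  refine ⟨K, m, by omega, (Nat.mul_le_mul_right r hm2).trans hqr, ?_, ?_⟩
  · rw [hY, le_div_iff₀ ht] at hK1
    linarith
  · have h1 : (q : ℝ) ≤ 2 * m + 2 := by exact_mod_cast hm1
    have h2 : 1 / v < 4 * m + 6 := by linarith
    have h3 : 1 / v ≤ 8 * m := by linarith
    rw [div_le_iff₀ hv0] at h3
    exact h3

/-- **(UV1)** -/
theorem uv1 (hb : 0 ≤ b) : ∃ C c : ℝ, 0 < C ∧ 0 < c ∧
    ∀ (n : ℕ) [NeZero n] (t : ℝ), 0 < t → 9 ≤ t * (n : ℝ) ^ 2 →
    ∀ r : ℕ, 2 ≤ r → t * (r : ℝ) ^ 2 ≤ 1 →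
    ∀ (y : V n) (g : V n → ℝ), ∑ x, g x = 0 → (∀ x, x ∉ sq y r → g x = 0) →
      (∀ x, |g x| ≤ 1 / (r : ℝ) ^ 2) →
    ∀ M₀ M R : (V n → ℤ) → ℝ, SQ M₀ → Coe univ ∅ M₀ → SQ M → Coe univ ∅ M → SQ R →
      (∀ h, M h + R h = full t h) →
      ex b univ ∅ M₀ (fun h => pr g h ^ 2) - ex b univ ∅ M (fun h => pr g h ^ 2) ≤
        C * (t * (r : ℝ) ^ 2) ^ c := by
  classical
  obtain ⟨C₁, c₁, hC₁, hc₁, hU⟩ := uv1_box (b := b) hb
  set A : ℝ := 384 * Real.exp (b * 3) + 1 with hA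
  have hA0 : 0 < A := by positivity
  set c : ℝ := min (c₁ / 4) (1 / 4) with hc
  have hc0 : 0 < c := lt_min (by positivity) (by norm_num)
  have hc4 : c ≤ c₁ / 4 := min_le_left _ _
  have hc1 : c ≤ 1 / 4 := min_le_right _ _
  refine ⟨C₁ * 8 ^ c₁ + C₁ + 12 * A, c, by positivity, hc0, ?_⟩
  intro n _ t ht htn r hr hu1 y g hg hgs hgb M₀ M R hM₀ hc₀ hM hcM hR hMR
  set u : ℝ := t * (r : ℝ) ^ 2 with hu
  have hr0 : (0 : ℝ) < r := by exact_mod_cast (by omega : 0 < r)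
  have hu0 : 0 < u := by positivity
  have hn0 : (0 : ℝ) < n := by
    have := NeZero.ne n
    exact_mod_cast Nat.pos_of_ne_zero this
  have huc : 0 < u ^ c := Real.rpow_pos_of_pos hu0 _
  -- `3 r ≤ n`
  have h3r : 3 * (r : ℝ) ≤ n := by
    by_contra h
    push Not at h
    have : t * (n : ℝ) ^ 2 < t * (3 * r) ^ 2 := by
      refine mul_lt_mul_of_pos_left ?_ ht
      exact pow_lt_pow_left₀ h hn0.le (by norm_num)
    nlinarith
  -- the translated problem
  have shift : ∀ w : V n, ∃ g' : V n → ℝ, ∑ x, g' x = 0 ∧ (∀ x, x ∉ sq w r → g' x = 0) ∧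
      (∀ x, |g' x| ≤ 1 / (r : ℝ) ^ 2) ∧ ∀ N : (V n → ℤ) → ℝ,
        ex b univ ∅ N (fun h => pr g h ^ 2) =
          ex b univ ∅ (fun h => N (sh (-(y - w)) h)) (fun h => pr g' h ^ 2) := by
    intro w
    refine ⟨fun x => g (x + (y - w)), ?_, ?_, fun x => hgb _, ?_⟩
    · rw [← hg]
      exact Fintype.sum_equiv (Equiv.addRight (y - w)) _ _ fun x => rfl
    · intro x hx
      refine hgs _ fun h4 => hx ?_
      unfold sq at h4 ⊢
      rw [mem_image] at h4 ⊢
      obtain ⟨c, hc, hc2⟩ := h4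
      refine ⟨c, hc, ?_⟩
      have : w + pt c.1 c.2 = (y + pt c.1 c.2) - (y - w) := by abel
      rw [this, hc2]
      abel
    · intro N
      rw [← ex_sh b (-(y - w)) N (fun h => pr g h ^ 2)]
      congr 1
      funext h
      have : pr g (sh (-(y - w)) h) = pr (fun x => g (x + (y - w))) h := by
        have h5 := lin_sh (-(y - w)) g h
        have e1 : pr g (sh (-(y - w)) h) = lin g (sh (-(y - w)) h) := rfl
        rw [e1, h5]
        unfold lin pr
        refine sum_congr rfl fun x _ => ?_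
        simp only [sub_neg_eq_add]
      rw [this]
  by_cases hsm : u ^ ((1 : ℝ) / 4) * 12 ≤ 1
  · obtain ⟨K, m, hm1, hmK, hK4, hm8⟩ := choice ht hr hu1 hsm
    -- size of the torus
    have hKn : 2 ^ (K + 1) + 1 ≤ n := by
      have hsq : ((2 : ℝ) ^ K) ^ 2 = 4 ^ K := by
        rw [← pow_mul, mul_comm, pow_mul]
        norm_num
      have h1 : t * 4 ^ K ≤ 1 := hK4.trans (Real.rpow_le_one hu0.le hu1 (by norm_num))
      have h2 : (3 * (2 : ℝ) ^ K) ≤ n := by
        by_contra h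
        push Not at h
        have : t * (n : ℝ) ^ 2 < t * (3 * 2 ^ K) ^ 2 := by
          refine mul_lt_mul_of_pos_left ?_ ht
          exact pow_lt_pow_left₀ h hn0.le (by norm_num)
        nlinarith
      have h3 : 3 * 2 ^ K ≤ n := by exact_mod_cast h2
      have h4 : 1 ≤ 2 ^ K := Nat.one_le_two_pow
      have h5 : 2 ^ (K + 1) = 2 * 2 ^ K := pow_succ' 2 K
      omega
    have hK1 : t * 4 ^ K ≤ 1 := hK4.trans (Real.rpow_le_one hu0.le hu1 (by norm_num))
    obtain ⟨g', hg', hgs', hgb', hex⟩ := shift (pt (2 ^ K + m * r) (2 ^ K + m * r))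
    have hLr : (2 * m + 1) * r = m * r + m * r + r := by ring
    have h2K : 2 ^ (K + 1) = 2 * 2 ^ K := pow_succ' 2 K
    have h1 := hU n K r m hr hm1 hmK hKn t ht.le hK1 g' hg' (fun x hx => hgs' x fun h4 => hx
      ((mem_bx_sq (q := (2 ^ K + m * r, 2 ^ K + m * r)) (by simp only; omega)
        (by simp only; omega)).2 h4)) hgb'
      (fun h => M₀ (sh (-(y - pt (2 ^ K + m * r) (2 ^ K + m * r))) h))
      (fun h => M (sh (-(y - pt (2 ^ K + m * r) (2 ^ K + m * r))) h))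
      (fun h => R (sh (-(y - pt (2 ^ K + m * r) (2 ^ K + m * r))) h))
      (sq_sh _ hM₀) (coe_sh _ hc₀) (sq_sh _ hM) (coe_sh _ hcM) (sq_sh _ hR) (fun h => by
        rw [hMR, full_sh])
    rw [← hex, ← hex] at h1
    refine h1.trans ?_
    -- numbers
    set v : ℝ := u ^ ((1 : ℝ) / 4) with hv
    have hv0 : 0 < v := Real.rpow_pos_of_pos hu0 _
    have hm0 : (0 : ℝ) < m := by exact_mod_cast (by omega : 0 < m)
    have k1 : (m : ℝ) ^ (-c₁) ≤ 8 ^ c₁ * u ^ c := by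
      have h5 : (8 * (m : ℝ) * v) ^ (-c₁) ≤ 1 :=
        Real.rpow_le_one_of_one_le_of_nonpos hm8 (by linarith)
      rw [Real.mul_rpow (by positivity) hv0.le, Real.mul_rpow (by norm_num) hm0.le] at h5
      have h6 : v ^ (-c₁) * v ^ c₁ = 1 := by
        rw [← Real.rpow_add hv0]
        simp
      have h7 : (8 : ℝ) ^ (-c₁) * 8 ^ c₁ = 1 := by
        rw [← Real.rpow_add (by norm_num)]
        simp
      have h8 : v ^ c₁ ≤ u ^ c := by
        rw [hv, ← Real.rpow_mul hu0.le]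
        refine Real.rpow_le_rpow_of_exponent_ge hu0 hu1 ?_
        linarith
      have h9 : (m : ℝ) ^ (-c₁) = (8 ^ (-c₁) * (m : ℝ) ^ (-c₁) * v ^ (-c₁)) * (8 ^ c₁ * v ^ c₁) := by
        calc (m : ℝ) ^ (-c₁) = (m : ℝ) ^ (-c₁) * ((8 : ℝ) ^ (-c₁) * 8 ^ c₁) *
              (v ^ (-c₁) * v ^ c₁) := by rw [h6, h7]; ring
          _ = _ := by ring
      rw [h9]
      have h10 : 0 ≤ (8 : ℝ) ^ c₁ * v ^ c₁ := by positivity
      calc _ ≤ 1 * (8 ^ c₁ * v ^ c₁) := mul_le_mul_of_nonneg_right h5 h10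
        _ ≤ _ := by
            rw [one_mul]
            exact mul_le_mul_of_nonneg_left h8 (by positivity)
    have k2 : √(t * 4 ^ K) ≤ u ^ c := by
      have h5 : √(t * 4 ^ K) ≤ √(u ^ ((1 : ℝ) / 2)) := Real.sqrt_le_sqrt hK4
      have h6 : √(u ^ ((1 : ℝ) / 2)) = u ^ ((1 : ℝ) / 4) := by
        rw [Real.sqrt_eq_rpow, ← Real.rpow_mul hu0.le]
        norm_num
      rw [h6] at h5
      exact h5.trans (Real.rpow_le_rpow_of_exponent_ge hu0 hu1 hc1)
    calc C₁ * (m : ℝ) ^ (-c₁) + C₁ * √(t * 4 ^ K) ≤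
          C₁ * (8 ^ c₁ * u ^ c) + C₁ * u ^ c :=
          add_le_add (mul_le_mul_of_nonneg_left k1 hC₁.le) (mul_le_mul_of_nonneg_left k2 hC₁.le)
      _ ≤ _ := by
          have : 0 ≤ 12 * A * u ^ c := by positivity
          nlinarith
  · -- crude bound
    push Not at hsm
    obtain ⟨g', hg', hgs', hgb', hex⟩ := shift (pt 0 0)
    have hrn : r ≤ n := by
      have : (r : ℝ) ≤ n := by linarith
      exact_mod_cast this
    have h1 := crude_torus hb (q := (0, 0)) hr (by simpa using hrn) (by simpa using hrn) hg'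
      (fun x hx => hgs' x fun h4 => hx
      ((mem_bx_sq (q := (0, 0)) (by simpa using hrn) (by simpa using hrn)).2 h4)) hgb'
      (sq_sh (-(y - pt 0 0)) hM₀) (coe_sh (-(y - pt 0 0)) hc₀)
    rw [← hex] at h1
    have h2 : 0 ≤ ex b univ ∅ M (fun h => pr g h ^ 2) := ex_nonneg' hb fun _ => sq_nonneg _
    have h3 : u ^ ((1 : ℝ) / 4) ≤ u ^ c := Real.rpow_le_rpow_of_exponent_ge hu0 hu1 hc1
    have h4 : A ≤ 12 * A * u ^ c := by nlinarith
    have h5 : 0 ≤ (C₁ * 8 ^ c₁ + C₁) * u ^ c := by positivity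
    calc _ ≤ A := by linarith
      _ ≤ 12 * A * u ^ c := h4
      _ ≤ _ := by linarith

end Vale.Agent.P159.H375
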