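import Vale.Agent.P159.H375.Good
import Vale.Agent.P159.TM.H389.Kann
import Vale.Agent.P159.TM.H928.ZmL

/-!
P159, module UV1, part 4: in the box of side `2^K` with zero boundary conditions the full mass `t`,
`t 4^K ≤ 1`, changes the second moments of neutral functionals at most by `C √(t 4^K)`.
-/

open Filter Topology

namespace Vale.Agent.P159.H375

open Vale.Agent.P159.TM
open Vale.Agent.P159.TM.H22 (SG Gle lin)
open Vale.Agent.P159.TM.SpecI
open Vale.Agent.P159.TM.H574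
open Vale.Agent.P159.H353 (wI wI_nonneg wI_neg wI_zero_pos)
open Finset

section cnt

/-- far from the boundary in one coordinate -/
def OkZ (i x : ℕ) : Prop := 2 ^ i + 2 ^ (i / 3) ≤ x / 2 ∧ x / 2 + 2 ^ (i / 3) + 1 ≤ 2 ^ (i + 1)

instance (i x : ℕ) : Decidable (OkZ i x) := by unfold OkZ; infer_instance

lemma card_badZ (i : ℕ) :
    ((Ico (2 ^ (i + 1)) (2 ^ (i + 1 + 1))).filter fun x => ¬ OkZ i x).card ≤ 4 * 2 ^ (i / 3) := by
  set m := 2 ^ (i / 3) with hm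
  have hm1 : 1 ≤ m := Nat.one_le_two_pow
  have h2i : 2 ^ (i + 1) = 2 * 2 ^ i := pow_succ' 2 i
  have h2ii : 2 ^ (i + 1 + 1) = 4 * 2 ^ i := by ring
  have h1 : (Ico (2 ^ (i + 1)) (2 ^ (i + 1 + 1))).filter (fun x => ¬ OkZ i x) ⊆
      Ico (2 * 2 ^ i) (2 * 2 ^ i + 2 * m) ∪ Ico (4 * 2 ^ i - 2 * m) (4 * 2 ^ i) := by
    intro x hx
    rw [mem_filter, mem_Ico] at hx
    obtain ⟨h2, h3⟩ := hx
    rw [mem_union, mem_Ico, mem_Ico]
    unfold OkZ at h3
    rw [← hm] at h3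
    omega
  refine (card_le_card h1).trans ((card_union_le _ _).trans ?_)
  rw [Nat.card_Ico, Nat.card_Ico]
  omega

lemma card_badZ2 (i : ℕ) :
    ((cl (i + 1)).filter fun c => ¬ (OkZ i c.1 ∧ OkZ i c.2)).card ≤
      2 * (2 ^ (i + 1) * (4 * 2 ^ (i / 3))) := by
  set S := Ico (2 ^ (i + 1)) (2 ^ (i + 1 + 1)) with hS
  have hSc : S.card = 2 ^ (i + 1) := by
    rw [hS, Nat.card_Ico, show 2 ^ (i + 1 + 1) = 2 * 2 ^ (i + 1) from pow_succ' 2 (i + 1)]
    omega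
  have h1 : (cl (i + 1)).filter (fun c => ¬ (OkZ i c.1 ∧ OkZ i c.2)) ⊆
      ((S.filter fun x => ¬ OkZ i x) ×ˢ S) ∪ (S ×ˢ (S.filter fun x => ¬ OkZ i x)) := by
    intro c hc
    unfold cl at hc
    rw [mem_filter, mem_product] at hc
    rw [mem_union, mem_product, mem_product, mem_filter, mem_filter]
    tauto
  refine (card_le_card h1).trans ((card_union_le _ _).trans ?_)
  rw [card_product, card_product, hSc]
  have h2 := card_badZ i
  rw [← hS] at h2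
  have h3 := Nat.mul_le_mul_left (2 ^ (i + 1)) h2
  have h4 := mul_comm (S.filter fun x => ¬ OkZ i x).card (2 ^ (i + 1))
  omega

end cnt

variable {b : ℝ}

lemma ex_qz (hb : 0 ≤ b) {n : ℕ} [NeZero n] {X : Finset (V n)} (hX : X.Nonempty)
    {M : (V n → ℤ) → ℝ} (hM : SQ M) (t : ℝ) (K i : ℕ) :
    ex b (inn n) X M (qz t K i) = t * 4 ^ (K - (i + 1)) *
      ∑ c ∈ cl (i + 1), ex b (inn n) X M (fun h => Dc (2 ^ (K - (i + 1))) c h ^ 2) := by
  have sg : SG (wt b (inn n) X M) := sg_wt hb hM.nonneg hM.even (coe_pin hX _)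
  have gD : ∀ c : ℕ × ℕ, H22.Gr fun h : V n → ℤ => Dc (2 ^ (K - (i + 1))) c h ^ 2 := fun c => by
    simp only [Dc_lin]
    exact gr_sq _
  rw [← ex_sum sg _ fun c _ => gD c, ← ex_smul]
  rfl

/-- mass energies are bounded below by `0` -/
lemma ex_nonneg' (hb : 0 ≤ b) {n : ℕ} {es : Finset (V n × Bool)} {X : Finset (V n)}
    {M F : (V n → ℤ) → ℝ} (hF : ∀ h, 0 ≤ F h) : 0 ≤ ex b es X M F := by
  unfold ex
  exact div_nonneg (tsum_nonneg fun h => mul_nonneg (wt_nonneg hb _ _ _ h) (hF h))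
    (tsum_nonneg fun h => wt_nonneg hb _ _ _ h)

/-- decrease of the mean energy at one level -/
lemma mean_leZ (hb : 0 ≤ b) {n : ℕ} [NeZero n] {K i : ℕ} (hi : i + 1 ≤ K)
    (hn : 2 ^ (K + 1) + 1 ≤ n) {t : ℝ} (ht : 0 ≤ t) {G C : ℝ} (hG : 0 ≤ G) (hC : 0 ≤ C)
    (h1 : ∀ d : ℕ × ℕ, OkZ i d.1 → OkZ i d.2 →
      ex b (inn n) (XK n K) (mz t K i) (fun h => Dc (2 ^ (K - (i + 1))) d h ^ 2) -
        ex b (inn n) (XK n K) (mz t K (i + 1)) (fun h => Dc (2 ^ (K - (i + 1))) d h ^ 2) ≤ G)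
    (h2 : ∀ c ∈ cl (i + 1),
      ex b (inn n) (XK n K) (mz t K i) (fun h => Dc (2 ^ (K - (i + 1))) c h ^ 2) ≤ C) :
    ex b (inn n) (XK n K) (mz t K i) (qz t K i) -
      ex b (inn n) (XK n K) (mz t K (i + 1)) (qz t K i) ≤
      t * 4 ^ K * (G + 4 * C * (2 ^ (i / 3) / 2 ^ i)) := by
  rw [ex_qz hb (XK_ne hn) (sq_mz ht K i), ex_qz hb (XK_ne hn) (sq_mz ht K (i + 1)), ← mul_sub,
    ← sum_sub_distrib]
  have h3 : ∑ c ∈ cl (i + 1), (ex b (inn n) (XK n K) (mz t K i)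
      (fun h => Dc (2 ^ (K - (i + 1))) c h ^ 2) - ex b (inn n) (XK n K) (mz t K (i + 1))
      (fun h => Dc (2 ^ (K - (i + 1))) c h ^ 2)) ≤
      ∑ c ∈ cl (i + 1), (G + if ¬ (OkZ i c.1 ∧ OkZ i c.2) then C else 0) := by
    refine sum_le_sum fun c hc => ?_
    by_cases h4 : OkZ i c.1 ∧ OkZ i c.2
    · rw [if_neg (not_not.2 h4)]
      have := h1 c h4.1 h4.2
      linarith
    · rw [if_pos h4]
      have h5 := h2 c hc
      have h6 : 0 ≤ ex b (inn n) (XK n K) (mz t K (i + 1))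
          (fun h => Dc (2 ^ (K - (i + 1))) c h ^ 2) := ex_nonneg' hb fun _ => sq_nonneg _
      linarith
  have h4 : ∑ c ∈ cl (i + 1), (G + if ¬ (OkZ i c.1 ∧ OkZ i c.2) then C else 0) ≤
      4 ^ (i + 1) * G + (2 * (2 ^ (i + 1) * (4 * 2 ^ (i / 3)))) * C := by
    rw [sum_add_distrib, sum_const, ← sum_filter, sum_const, nsmul_eq_mul, nsmul_eq_mul, card_cl]
    refine add_le_add le_rfl ?_
    refine mul_le_mul_of_nonneg_right ?_ hC
    exact_mod_cast card_badZ2 i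
  refine (mul_le_mul_of_nonneg_left (h3.trans h4) (by positivity)).trans_eq ?_
  have e1 : (4 : ℝ) ^ (i + 1) = 2 ^ (i + 1) * 2 ^ (i + 1) := by
    rw [← mul_pow]
    norm_num
  have e2 : (2 : ℝ) ^ (i + 1) = 2 * 2 ^ i := pow_succ' 2 i
  have e3 : (4 : ℝ) ^ K = 4 ^ (K - (i + 1)) * 4 ^ (i + 1) := by
    rw [← pow_add]
    congr 1
    omega
  rw [e3, e1, e2]
  have : (2 : ℝ) ^ i ≠ 0 := by positivity
  field_simp

/-- **UVZ** -/
theorem uvz (hb : 0 ≤ b) : ∃ C : ℝ, 0 < C ∧ ∀ (n : ℕ) [NeZero n] (K : ℕ), 2 ^ (K + 1) + 1 ≤ n →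
    ∀ t : ℝ, 0 ≤ t → t * 4 ^ K ≤ 1 → ∀ (q : ℕ × ℕ) (r : ℕ), 2 ≤ r → q.1 + r ≤ n → q.2 + r ≤ n →
    ∀ ψ : V n → ℝ, ∑ x, ψ x = 0 → (∀ x, x ∉ bx q r → ψ x = 0) → (∀ x, |ψ x| ≤ 1 / (r : ℝ) ^ 2) →
      ex b (inn n) (XK n K) (fun _ => 0) (fun h => pr ψ h ^ 2) -
        ex b (inn n) (XK n K) (full t) (fun h => pr ψ h ^ 2) ≤ C * √(t * 4 ^ K) := by
  classical
  obtain ⟨C₁, c₁, hC₁, hc₁, hI⟩ := Vale.Agent.P159.TM.H389.idwi hb
  obtain ⟨C₂, hC₂, hZ⟩ := Vale.Agent.P159.TM.H928.zm hb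
  set A : ℝ := 384 * Real.exp (b * 3) with hA
  have hA0 : 0 < A := by positivity
  set c' : ℝ := min (c₁ / 3) (1 / 2) with hc'
  have hc'0 : 0 < c' := lt_min (by positivity) (by norm_num)
  set ρ : ℝ := (2 : ℝ) ^ (-(c' / 2)) with hρ
  have hρ0 : 0 < ρ := Real.rpow_pos_of_pos (by norm_num) _
  have hρ1 : ρ < 1 := Real.rpow_lt_one_of_one_lt_of_neg (by norm_num) (by linarith)
  have hρj : ∀ j : ℕ, ρ ^ j = (2 : ℝ) ^ (-(c' / 2 * j)) := by
    intro j
    rw [hρ, ← Real.rpow_natCast, ← Real.rpow_mul (by norm_num)]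
    congr 1
    ring
  have hρ2 : ∀ j : ℕ, (2 : ℝ) ^ (-(c' * j)) = (ρ ^ j) ^ 2 := by
    intro j
    rw [hρj, ← Real.rpow_natCast, ← Real.rpow_mul (by norm_num)]
    congr 1
    push_cast
    ring
  set Cc : ℝ := 9 * (A + 1) with hCc
  set CD : ℝ := 9 * C₁ * (2 : ℝ) ^ c₁ + 1107 * C₂ + 4 * Cc with hCD
  have hCD0 : 0 < CD := by positivity
  set B : ℝ := √A * √(CD / 2) with hB
  have hB0 : 0 ≤ B := by positivity
  refine ⟨√A * √((C₂ + 1) / 2) + B / (1 - ρ) + 1, by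
    have := sub_pos.2 hρ1
    positivity, ?_⟩
  intro n _ K hn t ht ht1 q r hr hq1 hq2 ψ hψ hψs hψb
  have hm4 : ∀ M : (V n → ℤ) → ℝ, SQ M →
      ex b (inn n) (XK n K) M (fun h => pr ψ h ^ 4) ≤ A := fun M hM =>
    mom4_pin hb (XK_ne hn) hr hq1 hq2 hψ hψs hψb hM
  set s : ℝ := t * 4 ^ K with hs
  have hs0 : 0 ≤ s := by positivity
  -- the first step
  have h0 : ex b (inn n) (XK n K) (fun _ => 0) (fun h => pr ψ h ^ 2) -
      ex b (inn n) (XK n K) (mz t K 0) (fun h => pr ψ h ^ 2) ≤ √A * √((C₂ + 1) / 2) * √s := by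
    have hE : ex b (inn n) (XK n K) (fun _ => 0) (mz t K 0) -
        ex b (inn n) (XK n K) (fun h => 0 + mz t K 0 h) (mz t K 0) ≤ s * (C₂ + 1) := by
      have h5 : 0 ≤ ex b (inn n) (XK n K) (fun h => 0 + mz t K 0 h) (mz t K 0) :=
        ex_nonneg' hb (sq_mz ht K 0).nonneg
      have h6 : ex b (inn n) (XK n K) (fun _ => 0) (mz t K 0) = s *
          ex b (inn n) (XK n K) (fun _ => 0) (fun h => pr (avc (2 ^ K) (1, 1)) h ^ 2) := by
        rw [← ex_smul]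
        congr 1
        funext h
        unfold mz
        have : cl 0 = {(1, 1)} := by decide
        rw [this, sum_singleton, Nat.sub_zero, avg_lin]
        rfl
      have hK1 : 1 ≤ 2 ^ K := Nat.one_le_two_pow
      have h2K : 2 ^ (K + 1) = 2 * 2 ^ K := pow_succ' 2 K
      have h7 := (hZ n (2 ^ K, 2 ^ K) (2 ^ K) hK1 hK1 (by simp only; omega)
        (by simp only; omega)).2 (2 ^ K) (1, 1) hK1 le_rfl (by simp) (by simp)
        (by simp only; omega) (by simp only; omega)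
      have hne : ((2 ^ K : ℕ) : ℝ) ≠ 0 := by positivity
      rw [div_self hne, one_pow, mul_one] at h7
      simp only [avg_lin] at h7
      have sg0 : SG (wt b (inn n) (XK n K) (fun _ => 0)) :=
        sg_wt hb (fun _ => le_rfl) (fun _ => rfl) (coe_pin (XK_ne hn) _)
      have h8 := mom2_of_4 hb sg0 (avc (2 ^ K) (1, 1)) h7
      have h9 := mul_le_mul_of_nonneg_left h8 hs0
      linarith
    have h1 := stepP hb (XK_ne hn) (SQ.zero (U := V n)) (sq_mz ht K 0) (φ := ψ) (C := A)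
      (D := s * (C₂ + 1)) hA0.le (fun u hu _ => hm4 _ (SQ.zero.add ((sq_mz ht K 0).smul hu))) hE
    have e : (fun h : V n → ℤ => 0 + mz t K 0 h) = mz t K 0 := by
      funext h
      rw [zero_add]
    rw [e] at h1
    refine h1.trans_eq ?_
    have e2 : √(s * (C₂ + 1) / 2) = √((C₂ + 1) / 2) * √s := by
      rw [show s * (C₂ + 1) / 2 = (C₂ + 1) / 2 * s by ring, Real.sqrt_mul (by positivity)]
    rw [e2]
    ring
  -- one level
  have hstep : ∀ i : ℕ, i + 1 ≤ K → ex b (inn n) (XK n K) (mz t K i) (fun h => pr ψ h ^ 2) -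
      ex b (inn n) (XK n K) (mz t K (i + 1)) (fun h => pr ψ h ^ 2) ≤ B * √s * ρ ^ i := by
    intro i hi
    set m := 2 ^ (i / 3) with hm
    have hm1 : 1 ≤ m := Nat.one_le_two_pow
    have hm1' : (1 : ℝ) ≤ m := by exact_mod_cast hm1
    set G : ℝ := 9 * C₁ * (m : ℝ) ^ (-c₁) +
        t * 4 ^ (K - (i + 1)) * (41 / 2 * C₂ * (2 * (2 * m + 1)) ^ 3) with hG
    have hG0 : 0 ≤ G := by positivity
    have h5 := mean_leZ hb hi hn ht hG0 (C := Cc) (by positivity)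
      (fun d hd1 hd2 => by
        unfold OkZ at hd1 hd2
        exact good hb hC₁ hC₂ hI hZ hi hn ht hm1 hd1.1 hd2.1 hd1.2 hd2.2)
      (fun c hc => crudeZ hb hi hn ht hc)
    -- numbers
    have hx1 : (m : ℝ) ^ (-c₁) ≤ (2 : ℝ) ^ c₁ * (ρ ^ i) ^ 2 := by
      have e : (m : ℝ) = (2 : ℝ) ^ ((i / 3 : ℕ) : ℝ) := by
        rw [hm, Real.rpow_natCast]
        push_cast
        rfl
      rw [← hρ2, e, ← Real.rpow_mul (by norm_num), ← Real.rpow_add (by norm_num)]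
      refine Real.rpow_le_rpow_of_exponent_le (by norm_num) ?_
      have h4 := mul_le_mul_of_nonneg_right (min_le_left (c₁ / 3) (1 / 2))
        (Nat.cast_nonneg (α := ℝ) i)
      rw [← hc'] at h4
      have h5 : (i : ℝ) ≤ 3 * ((i / 3 : ℕ) : ℝ) + 2 := by
        exact_mod_cast (by omega : i ≤ 3 * (i / 3) + 2)
      nlinarith
    have hhalf : ∀ x : ℝ, x ≤ -((i : ℝ) / 2) → (2 : ℝ) ^ x ≤ (ρ ^ i) ^ 2 := by
      intro x hx
      rw [← hρ2]
      refine Real.rpow_le_rpow_of_exponent_le (by norm_num) ?_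
      have := mul_le_mul_of_nonneg_right (min_le_right (c₁ / 3) (1 / 2))
        (Nat.cast_nonneg (α := ℝ) i)
      rw [← hc'] at this
      linarith
    have hx2 : t * 4 ^ (K - (i + 1)) * (41 / 2 * C₂ * (2 * (2 * m + 1)) ^ 3) ≤
        1107 * C₂ * (ρ ^ i) ^ 2 := by
      have h3 : (2 * (2 * (m : ℝ) + 1)) ^ 3 ≤ 216 * 2 ^ i := by
        have h4 : (2 * (2 * (m : ℝ) + 1)) ^ 3 ≤ (6 * (m : ℝ)) ^ 3 :=
          pow_le_pow_left₀ (by positivity) (by linarith) 3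
        have h5 : (m : ℝ) ^ 3 ≤ 2 ^ i := by
          rw [hm]
          push_cast
          rw [← pow_mul]
          exact pow_le_pow_right₀ (by norm_num) (by omega)
        calc (2 * (2 * (m : ℝ) + 1)) ^ 3 ≤ (6 * (m : ℝ)) ^ 3 := h4
          _ = 216 * (m : ℝ) ^ 3 := by ring
          _ ≤ _ := mul_le_mul_of_nonneg_left h5 (by norm_num)
      have h6 : t * 4 ^ (K - (i + 1)) ≤ 1 / 4 ^ (i + 1) := by
        rw [le_div_iff₀ (by positivity), mul_assoc, ← pow_add,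
          show K - (i + 1) + (i + 1) = K by omega]
        exact ht1
      have h7 : (2 : ℝ) ^ (-(i : ℝ)) ≤ (ρ ^ i) ^ 2 := by
        refine hhalf _ ?_
        have := Nat.cast_nonneg (α := ℝ) i
        linarith
      have h8 : (2 : ℝ) ^ (-(i : ℝ)) = 2 ^ i / 4 ^ i := by
        rw [Real.rpow_neg (by norm_num), Real.rpow_natCast,
          show (4 : ℝ) ^ i = 2 ^ i * 2 ^ i by rw [← mul_pow]; norm_num]
        field_simp
      calc t * 4 ^ (K - (i + 1)) * (41 / 2 * C₂ * (2 * (2 * m + 1)) ^ 3) ≤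
            1 / 4 ^ (i + 1) * (41 / 2 * C₂ * (216 * 2 ^ i)) := by
            gcongr
        _ = 1107 * C₂ * (2 ^ i / 4 ^ i) := by
            rw [show (4 : ℝ) ^ (i + 1) = 4 ^ i * 4 from pow_succ 4 i]
            field_simp
            ring
        _ ≤ _ := by
            rw [← h8]
            exact mul_le_mul_of_nonneg_left h7 (by positivity)
    have hx3 : (2 : ℝ) ^ (i / 3) / 2 ^ i ≤ (ρ ^ i) ^ 2 := by
      rw [← Real.rpow_natCast, ← Real.rpow_natCast, ← Real.rpow_sub (by norm_num)]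
      refine hhalf _ ?_
      have h8 : ((i / 3 : ℕ) : ℝ) ≤ (i : ℝ) / 3 := by
        have := Nat.cast_div_le (α := ℝ) (m := i) (n := 3)
        simpa using this
      have h9 : (0 : ℝ) ≤ i := Nat.cast_nonneg i
      linarith
    have h6 : G + 4 * Cc * (2 ^ (i / 3) / 2 ^ i) ≤ CD * (ρ ^ i) ^ 2 := by
      have h7 : 9 * C₁ * (m : ℝ) ^ (-c₁) ≤ 9 * C₁ * ((2 : ℝ) ^ c₁ * (ρ ^ i) ^ 2) :=
        mul_le_mul_of_nonneg_left hx1 (by positivity)
      have h8 : 4 * Cc * ((2 : ℝ) ^ (i / 3) / 2 ^ i) ≤ 4 * Cc * (ρ ^ i) ^ 2 :=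
        mul_le_mul_of_nonneg_left hx3 (by positivity)
      rw [hCD, hG]
      calc _ ≤ 9 * C₁ * ((2 : ℝ) ^ c₁ * (ρ ^ i) ^ 2) + 1107 * C₂ * (ρ ^ i) ^ 2 +
            4 * Cc * (ρ ^ i) ^ 2 := add_le_add (add_le_add h7 hx2) h8
        _ = _ := by ring
    have h7 := stepP hb (XK_ne hn) (sq_mz ht K i) (sq_qz ht K i) (φ := ψ) (C := A)
      (D := s * (CD * (ρ ^ i) ^ 2)) hA0.le
      (fun u hu _ => hm4 _ ((sq_mz ht K i).add ((sq_qz ht K i).smul hu))) (by
        have e : (fun h : V n → ℤ => mz t K i h + qz t K i h) = mz t K (i + 1) := by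
          funext h
          rw [mz_succ t hi]
        rw [e]
        exact h5.trans (mul_le_mul_of_nonneg_left h6 hs0))
    have e : (fun h : V n → ℤ => mz t K i h + qz t K i h) = mz t K (i + 1) := by
      funext h
      rw [mz_succ t hi]
    rw [e] at h7
    refine h7.trans_eq ?_
    have e2 : √(s * (CD * (ρ ^ i) ^ 2) / 2) = √(CD / 2) * √s * ρ ^ i := by
      rw [show s * (CD * (ρ ^ i) ^ 2) / 2 = CD / 2 * s * (ρ ^ i) ^ 2 by ring,
        Real.sqrt_mul (by positivity), Real.sqrt_sq (by positivity), Real.sqrt_mul (by positivity)]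
    rw [e2, hB]
    ring
  -- sum
  have htel : ∀ d : ℕ, d ≤ K → ex b (inn n) (XK n K) (mz t K 0) (fun h => pr ψ h ^ 2) -
      ex b (inn n) (XK n K) (mz t K d) (fun h => pr ψ h ^ 2) ≤
        B / (1 - ρ) * √s * (1 - ρ ^ d) := by
    intro d
    induction d with
    | zero => intro _; simp
    | succ d ih =>
      intro hd
      have h8 := ih (by omega)
      have h9 := hstep d hd
      have e : B / (1 - ρ) * √s * (1 - ρ ^ (d + 1)) =
          B / (1 - ρ) * √s * (1 - ρ ^ d) + B * √s * ρ ^ d := by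
        have : 1 - ρ ≠ 0 := (sub_pos.2 hρ1).ne'
        field_simp
        ring
      rw [e]
      linarith
  have h10 := htel K le_rfl
  have hF : ex b (inn n) (XK n K) (full t) (fun h => pr ψ h ^ 2) =
      ex b (inn n) (XK n K) (mz t K K) (fun h => pr ψ h ^ 2) :=
    ex_mass_congr (fun h hh => (mz_full t hn hh).symm) _
  rw [hF]
  have hd : 0 ≤ B / (1 - ρ) := div_nonneg hB0 (sub_pos.2 hρ1).le
  have hss := Real.sqrt_nonneg s
  have hp : 0 ≤ ρ ^ K := by positivity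
  have h11 : B / (1 - ρ) * √s * (1 - ρ ^ K) ≤ B / (1 - ρ) * √s := by
    have := mul_nonneg (mul_nonneg hd hss) hp
    linarith
  have e12 : (√A * √((C₂ + 1) / 2) + B / (1 - ρ) + 1) * √s =
      √A * √((C₂ + 1) / 2) * √s + B / (1 - ρ) * √s + √s := by ring
  rw [e12]
  linarith

end Vale.Agent.P159.H375
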